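import Vale.Agent.P245N.Defs
import Vale.Agent.P245.Law

/-! Linearity of the expectation under the tilted law. -/

open MeasureTheory Real Filter Set
open scoped Topology RealInnerProductSpace

namespace Vale.Agent.P245N

open Vale.Agent.P245

variable {n : ℕ} {μ : Measure (Euc n)} [IsProbabilityMeasure μ] {R t : ℝ} {g : Euc n → ℝ}

/-- A continuous bounded function. -/
def Bdd (h : Euc n → ℝ) : Prop := Continuous h ∧ ∃ B, ∀ θ, |h θ| ≤ B

lemma Bdd.mk' {h : Euc n → ℝ} (hc : Continuous h) {B : ℝ} (hB : ∀ θ, |h θ| ≤ B) : Bdd h := ⟨hc, B, hB⟩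

lemma Bdd.const (c : ℝ) : Bdd (fun _ : Euc n => c) := Bdd.mk' continuous_const fun _ => le_refl |c|

lemma Bdd.mul {h k : Euc n → ℝ} (hh : Bdd h) (hk : Bdd k) : Bdd fun θ => h θ * k θ := by
  obtain ⟨B, hB⟩ := hh.2
  obtain ⟨B', hB'⟩ := hk.2
  refine Bdd.mk' (hh.1.mul hk.1) (B := B * B') fun θ => ?_
  rw [abs_mul]
  exact mul_le_mul (hB θ) (hB' θ) (abs_nonneg _) ((abs_nonneg _).trans (hB θ))

lemma Bdd.add {h k : Euc n → ℝ} (hh : Bdd h) (hk : Bdd k) : Bdd fun θ => h θ + k θ := by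
  obtain ⟨B, hB⟩ := hh.2
  obtain ⟨B', hB'⟩ := hk.2
  exact Bdd.mk' (hh.1.add hk.1) (B := B + B') fun θ => (abs_add_le _ _).trans (add_le_add (hB θ) (hB' θ))

lemma bdd_av (hS : Supp μ R) (hR : 0 ≤ R) (hg : Continuous g) : Bdd (av t μ g) := by
  obtain ⟨B, -, hB⟩ := exists_bound hR hg
  exact Bdd.mk' (continuous_av hS hg) fun θ => abs_av_le hS hB θ

lemma bdd_dd_sq (hS : Supp μ R) (hR : 0 ≤ R) (hg : Continuous g) (hpos : ∀ x, 0 < g x) :
    Continuous (dd t μ g) ∧ ∃ B, ∀ θ, ‖dd t μ g θ‖ ≤ B := by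
  obtain ⟨a, B, ha, hab⟩ := av_bounds (T := t) hS hR hg hpos
  obtain ⟨B', -, hB'⟩ := exists_bound hR hg
  refine ⟨((continuous_av hS hg).inv₀ fun θ => (ha.trans_le (hab θ).1).ne').smul (continuous_cov hS hg),
    2 * B' * R / a, fun θ => ?_⟩
  have hm := ha.trans_le (hab θ).1
  rw [dd, norm_smul, norm_inv, norm_eq_abs, abs_of_pos hm, ← div_eq_inv_mul]
  exact div_le_div₀ ((norm_nonneg _).trans (norm_cov_le (T := t) hS hR hB' θ)) (norm_cov_le hS hR hB' θ) ha (hab θ).1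

lemma elaw_le_two (hS : Supp μ R) {h h₁ h₂ : Euc n → ℝ} (bh : Bdd h) (b₁ : Bdd h₁) (b₂ : Bdd h₂) (a b : ℝ)
    (hle : ∀ θ, h θ ≤ a * h₁ θ + b * h₂ θ) : elaw t μ h ≤ a * elaw t μ h₁ + b * elaw t μ h₂ := by
  have ha := (Bdd.const a).mul b₁
  have hb := (Bdd.const b).mul b₂
  obtain ⟨B, hB⟩ := bh.2
  obtain ⟨B', hB'⟩ := (ha.add hb).2
  refine (elaw_mono hS bh.1 (ha.add hb).1 hB hB' hle).trans (le_of_eq ?_)
  obtain ⟨C₁, hC₁⟩ := b₁.2
  obtain ⟨C₂, hC₂⟩ := b₂.2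
  have hp : Continuous fun p : Euc n × Euc n => pt (√t) p.1 p.2 := by unfold pt; fun_prop
  have i₁ : ∀ x, Integrable (fun G => h₁ (pt (√t) x G)) (gam n) := fun x =>
    integrable_gam_bdd (b₁.1.comp (continuous_pt _ x)) fun _ => hC₁ _
  have i₂ : ∀ x, Integrable (fun G => h₂ (pt (√t) x G)) (gam n) := fun x =>
    integrable_gam_bdd (b₂.1.comp (continuous_pt _ x)) fun _ => hC₂ _
  have j₁ := hS.integrable (continuous_gint (H := fun x G => h₁ (pt (√t) x G)) (b₁.1.comp hp) fun _ _ => hC₁ _)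
  have j₂ := hS.integrable (continuous_gint (H := fun x G => h₂ (pt (√t) x G)) (b₂.1.comp hp) fun _ _ => hC₂ _)
  simp only [elaw]
  rw [← integral_const_mul, ← integral_const_mul, ← integral_add (j₁.const_mul a) (j₂.const_mul b)]
  refine integral_congr_ae (Eventually.of_forall fun x => ?_)
  simp only
  rw [integral_add ((i₁ x).const_mul a) ((i₂ x).const_mul b), integral_const_mul, integral_const_mul]

lemma qexp_le_two (hS : Supp μ R) (hR : 0 ≤ R) (hg : Continuous g) (hpos : ∀ x, 0 < g x) {h h₁ h₂ : Euc n → ℝ}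
    (bh : Bdd h) (b₁ : Bdd h₁) (b₂ : Bdd h₂) (a b : ℝ) (hle : ∀ θ, h θ ≤ a * h₁ θ + b * h₂ θ) :
    qexp t μ g h ≤ a * qexp t μ g h₁ + b * qexp t μ g h₂ := by
  have hq := bdd_av (t := t) hS hR hg
  refine elaw_le_two hS (hq.mul bh) (hq.mul b₁) (hq.mul b₂) a b fun θ => ?_
  have := mul_le_mul_of_nonneg_left (hle θ) (av_pos (T := t) hS hg hpos θ).le
  linarith

lemma qexp_mono (hS : Supp μ R) (hR : 0 ≤ R) (hg : Continuous g) (hpos : ∀ x, 0 < g x) {h h₁ : Euc n → ℝ}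
    (bh : Bdd h) (b₁ : Bdd h₁) (hle : ∀ θ, h θ ≤ h₁ θ) : qexp t μ g h ≤ qexp t μ g h₁ := by
  have := qexp_le_two (t := t) hS hR hg hpos bh b₁ (Bdd.const 0) 1 0 fun θ => by simpa using hle θ
  simpa using this

lemma qexp_nonneg (hS : Supp μ R) (hg : Continuous g) (hpos : ∀ x, 0 < g x) {h : Euc n → ℝ}
    (hh : ∀ θ, 0 ≤ h θ) : 0 ≤ qexp t μ g h :=
  integral_nonneg fun _ => integral_nonneg fun _ => mul_nonneg (av_pos (T := t) hS hg hpos _).le (hh _)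

lemma qexp_one (hS : Supp μ R) (hR : 0 ≤ R) (ht : 0 ≤ t) (hg : Continuous g) :
    qexp t μ g (fun _ => 1) = ∫ x, g x ∂μ := by
  have h := integral_qop (s := √t) hS hR hg
  simp only [qop, Real.sq_sqrt ht] at h
  simp only [qexp, elaw, mul_one]
  exact h

end Vale.Agent.P245N
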