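import Vale.Agent.P245N.Spec
import Vale.Agent.P245N.Qexp

/-! Elementary steps of the assembly: the time window and the cut part. -/

open MeasureTheory Real Filter Set
open scoped Topology RealInnerProductSpace

namespace Vale.Agent.P245N

open Vale.Agent.P245

lemma numeric {t κ Wt C I J G X E cnt cw K : ℝ} (ht : 0 < t) (hI : 0 < I) (hC : 0 < C)
    (hK : 0 < K) (hkt : K ≤ κ * t) (hX0 : 0 ≤ X) (hX : X ≤ I / 100) (hG : I ≤ 2 * G + 2 * X) (hGI : G ≤ I)
    (hJ : J / (2 * t) ≤ Wt * t * I) (hKE : K * E ≤ I / 20)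
    (hcnt : cnt ≤ K * (I + 20 * K * E)) (hcw : G - cw ≤ 2 / (20 * K) * cnt)
    (hpair : √t * (cw - √(G * X)) ≤ 1 / (2 * t) * J + cnt + C * t * G) :
    3 / 20 ≤ (Wt + 2 * κ + C) * √t := by
  have h1 : √(G * X) ≤ I / 10 := by
    rw [Real.sqrt_le_left (by positivity)]
    have := mul_le_mul hGI hX hX0 hI.le
    linarith
  have h2 : 2 / (20 * K) * cnt ≤ I / 5 := by
    have h3 := mul_le_mul_of_nonneg_left hcnt (by positivity : 0 ≤ 2 / (20 * K))
    have e : 2 / (20 * K) * (K * (I + 20 * K * E)) = I / 10 + 2 * (K * E) := by field_simp; ring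
    rw [e] at h3
    linarith
  have h4 : 3 / 20 * I ≤ cw - √(G * X) := by linarith
  have h5 : cnt ≤ 2 * (κ * t) * I := by
    have a1 : I + 20 * K * E ≤ 2 * I := by linarith
    have a2 := mul_le_mul_of_nonneg_left a1 hK.le
    have a3 := mul_le_mul_of_nonneg_right hkt hI.le
    linarith
  have h6 := mul_le_mul_of_nonneg_left hGI (by positivity : 0 ≤ C * t)
  have h7 := mul_le_mul_of_nonneg_left h4 (Real.sqrt_nonneg t)
  have h8 : √t * (3 / 20 * I) ≤ (Wt + 2 * κ + C) * t * I := by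
    have e : 1 / (2 * t) * J = J / (2 * t) := by ring
    linarith
  have hs : 0 < √t * I := mul_pos (Real.sqrt_pos.2 ht) hI
  refine le_of_mul_le_mul_left ?_ hs
  have e : (√t * I) * ((Wt + 2 * κ + C) * √t) = (Wt + 2 * κ + C) * (√t * √t) * I := by ring
  rw [e, Real.mul_self_sqrt ht.le]
  linarith

/-- Facts valid throughout the time window. -/
lemma window {t K J D I κ : ℝ} (hK : 0 < K) (hJ : 0 ≤ J) (hI : 0 ≤ I) (h1 : 2000 / K ≤ t) (h2 : t * K ≤ κ)
    (hbig : K / 2000 * J + 1 / 4 < D) (hD : D ≤ 1 / (2 * t) * J + Kt K t * I) :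
    0 < t ∧ Kt K t ≤ 2 * κ * t ∧ 1 / 8000 * J ≤ t ^ 2 * I ∧ J / (2 * t) ≤ 4000 * t * I ∧
      1 ≤ 4 * (4000 + 2 * κ) * (t * I) := by
  have ht : 0 < t := (div_pos (by norm_num) hK).trans_le h1
  have htK : 2000 ≤ t * K := by rw [div_le_iff₀ hK] at h1; exact h1
  have hKt1 : Kt K t ≤ 2 * κ * t := by
    have a1 := mul_le_mul_of_nonneg_right h2 ht.le
    have a2 : (1 : ℝ) * t ≤ κ * t := mul_le_mul_of_nonneg_right (by linarith) ht.le
    rw [Kt]; linarith
  have hKt2 : Kt K t ≤ 2 * K * t ^ 2 := by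
    have a1 := mul_le_mul_of_nonneg_left htK ht.le
    rw [Kt]; linarith
  have h3 : 1 / (2 * t) * J ≤ K / 4000 * J := by
    refine mul_le_mul_of_nonneg_right ?_ hJ
    rw [div_le_div_iff₀ (by positivity) (by norm_num)]; linarith
  have h5 := mul_le_mul_of_nonneg_right hKt2 hI
  have h6 : 1 / 8000 * J ≤ t ^ 2 * I := by
    refine le_of_mul_le_mul_left ?_ (show 0 < 2 * K by positivity)
    linarith
  have h7 : J / (2 * t) ≤ 4000 * t * I := by
    rw [div_le_iff₀ (by positivity)]; linarith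
  refine ⟨ht, hKt1, h6, h7, ?_⟩
  have h8 := mul_le_mul_of_nonneg_right hKt1 hI
  have h9 : 0 ≤ K / 2000 * J := by positivity
  have e : 1 / (2 * t) * J = J / (2 * t) := by ring
  linarith

variable {n : ℕ} {μ : Measure (Euc n)} [IsProbabilityMeasure μ] {R t : ℝ}

/-- The part of `d` removed by the cutoff is small. -/
lemma cut_part (hCut : CutStmt) (hS : Supp μ R) (hR : 0 ≤ R) (hμ : IsLC 0 μ) (ht : 0 < t) {g : Euc n → ℝ}
    (hg : Continuous g) (hpos : ∀ x, 0 < g x) {p L : ℕ} {M : ℝ} (hp : 1 ≤ p) (hL : 1 ≤ L) (hM : 0 < M)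
    (hFc : Continuous (Ff p L M t μ)) {ϑ ω : ℝ} (hω : 4 * (p : ℝ) * (t * M * 2 ^ L) / L ≤ ω)
    (hpig : qexp t μ g (fun θ => ‖dd t μ g θ‖ ^ 2 - t * aent t μ θ (dd t μ g θ) (dd t μ g θ)) ≤ ϑ * info t μ g) :
    qexp t μ g (fun θ => ‖Ff p L M t μ θ (dd t μ g θ) - dd t μ g θ‖ ^ 2) ≤ (2 * ϑ + ω) * info t μ g ∧
    qexp t μ g (fun θ => ‖Ff p L M t μ θ (dd t μ g θ)‖ ^ 2) ≤ info t μ g ∧
    info t μ g ≤ 2 * qexp t μ g (fun θ => ‖Ff p L M t μ θ (dd t μ g θ)‖ ^ 2)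
      + 2 * qexp t μ g (fun θ => ‖Ff p L M t μ θ (dd t μ g θ) - dd t μ g θ‖ ^ 2) := by
  obtain ⟨hdc, Bd, hBd⟩ := bdd_dd_sq (t := t) hS hR hg hpos
  have hscale : ∀ θ v, t * aent t μ θ v v ≤ ‖v‖ ^ 2 := fun θ v => by
    have h := mul_le_mul_of_nonneg_left (aent_le_inv hS hR hμ ht θ v) ht.le
    rwa [mul_div_cancel₀ _ ht.ne'] at h
  have hcut := fun θ => hCut n p L M (Aop t μ θ) hp hL hM (symOp_Aop hS θ) fun v => by
    rw [inner_Aop hS]; exact aent_self_nonneg θ v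
  have hc : Continuous fun θ => Ff p L M t μ θ (dd t μ g θ) := hFc.clm_apply hdc
  have hΔn : ∀ θ, ‖Ff p L M t μ θ (dd t μ g θ)‖ ≤ ‖dd t μ g θ‖ := fun θ => (hcut θ).1 _
  have hbd : Bdd fun θ => ‖dd t μ g θ‖ ^ 2 := Bdd.mk' (hdc.norm.pow 2) (B := Bd ^ 2) fun θ => by
    rw [abs_of_nonneg (sq_nonneg _)]; exact pow_le_pow_left₀ (norm_nonneg _) (hBd θ) 2
  have hbΔ : Bdd fun θ => ‖Ff p L M t μ θ (dd t μ g θ)‖ ^ 2 := Bdd.mk' (hc.norm.pow 2) (B := Bd ^ 2) fun θ => by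
    rw [abs_of_nonneg (sq_nonneg _)]; exact pow_le_pow_left₀ (norm_nonneg _) ((hΔn θ).trans (hBd θ)) 2
  have hbX : Bdd fun θ => ‖Ff p L M t μ θ (dd t μ g θ) - dd t μ g θ‖ ^ 2 :=
    Bdd.mk' ((hc.sub hdc).norm.pow 2) (B := (Bd + Bd) ^ 2) fun θ => by
      rw [abs_of_nonneg (sq_nonneg _)]
      exact pow_le_pow_left₀ (norm_nonneg _) ((norm_sub_le _ _).trans (add_le_add ((hΔn θ).trans (hBd θ)) (hBd θ))) 2
  have hca : Continuous fun θ => aent t μ θ (dd t μ g θ) (dd t μ g θ) := by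
    have e : (fun θ => aent t μ θ (dd t μ g θ) (dd t μ g θ)) = fun θ => ⟪dd t μ g θ, Aop t μ θ (dd t μ g θ)⟫ :=
      funext fun θ => (inner_Aop hS θ _ _).symm
    rw [e]; exact hdc.inner ((continuous_Aop hS).clm_apply hdc)
  have hb1 : Bdd fun θ => ‖dd t μ g θ‖ ^ 2 - t * aent t μ θ (dd t μ g θ) (dd t μ g θ) :=
    Bdd.mk' ((hdc.norm.pow 2).sub (continuous_const.mul hca)) (B := Bd ^ 2) fun θ => by
      have h2 := hscale θ (dd t μ g θ)
      have h3 := mul_nonneg ht.le (aent_self_nonneg (t := t) (μ := μ) θ (dd t μ g θ))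
      have h4 := pow_le_pow_left₀ (norm_nonneg _) (hBd θ) 2
      rw [abs_le]; constructor <;> linarith
  refine ⟨?_, qexp_mono hS hR hg hpos hbΔ hbd fun θ => pow_le_pow_left₀ (norm_nonneg _) (hΔn θ) 2, ?_⟩
  · have h := qexp_le_two (t := t) hS hR hg hpos hbX hb1 hbd 2 ω fun θ => by
      rw [norm_sub_rev]
      have h1 := (hcut θ).2.2.2 t ht (fun v => by rw [inner_Aop hS]; exact hscale θ v) (dd t μ g θ)
      rw [inner_Aop hS] at h1
      have h2 := mul_le_mul_of_nonneg_right hω (sq_nonneg ‖dd t μ g θ‖)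
      simp only [Ff]
      linarith
    refine h.trans ?_
    rw [add_mul, show qexp t μ g (fun θ => ‖dd t μ g θ‖ ^ 2) = info t μ g from rfl]
    linarith
  · refine qexp_le_two (t := t) hS hR hg hpos hbd hbΔ hbX 2 2 fun θ => ?_
    set a := Ff p L M t μ θ (dd t μ g θ)
    have h1 := pow_le_pow_left₀ (norm_nonneg _) (norm_sub_le a (a - dd t μ g θ)) 2
    rw [sub_sub_cancel] at h1
    linarith [sq_nonneg (‖a‖ - ‖a - dd t μ g θ‖)]

/-- The plain expectation of the count is small. -/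
lemma count_base (hCut : CutStmt) (hS : Supp μ R) {p L : ℕ} {M Cb e : ℝ} (hp : 1 ≤ p) (hL : 1 ≤ L) (hM : 0 < M)
    (hn : 1 ≤ n) (hFc : Continuous (Ff p L M t μ)) (htail : elaw t μ (fun θ => big Cb (Aop t μ θ)) ≤ e) :
    elaw t μ (fun θ => 1 / (n : ℝ) + frob (Ff p L M t μ θ))
      ≤ 1 / (n : ℝ) + n * ((Cb + 1) / M) ^ (2 * p) + n * e := by
  have hn' : (1 : ℝ) ≤ n := by exact_mod_cast hn
  have hcut := fun θ => hCut n p L M (Aop t μ θ) hp hL hM (symOp_Aop hS θ) fun v => by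
    rw [inner_Aop hS]; exact aent_self_nonneg θ v
  have hb1 : Bdd fun θ => 1 / (n : ℝ) + frob (Ff p L M t μ θ) :=
    (Bdd.const _).add (Bdd.mk' (continuous_frob.comp hFc) (B := n) fun θ => by
      rw [abs_of_nonneg (frob_nonneg _)]; exact (hcut θ).2.1)
  have hb2 : Bdd fun θ => big Cb (Aop t μ θ) := Bdd.mk' (B := 1)
    (continuous_const.max (continuous_const.min ((continuous_Aop hS).norm.sub continuous_const))) fun θ => by
      rw [big, abs_of_nonneg (le_max_left _ _)]; exact max_le zero_le_one (min_le_left _ _)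
  set c₁ := 1 / (n : ℝ) + n * ((Cb + 1) / M) ^ (2 * p) with hc₁
  have h := elaw_le_two (t := t) hS hb1 (Bdd.const 1) hb2 c₁ n fun θ => by
    have hb0 : 0 ≤ big Cb (Aop t μ θ) := le_max_left _ _
    have hpw : 0 ≤ (n : ℝ) * ((Cb + 1) / M) ^ (2 * p) := mul_nonneg (by linarith) ((even_two_mul p).pow_nonneg _)
    have h3 := mul_nonneg (by linarith : (0:ℝ) ≤ n) hb0
    rcases le_or_gt ‖Aop t μ θ‖ (Cb + 1) with h1 | h1
    · have h2 := (hcut θ).2.2.1.trans (mul_le_mul_of_nonneg_left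
        (pow_le_pow_left₀ (by positivity) (div_le_div_of_nonneg_right h1 hM.le) (2 * p)) (by linarith : (0:ℝ) ≤ n))
      rw [hc₁]; simp only [Ff] at *; linarith
    · have h2 : big Cb (Aop t μ θ) = 1 := by
        rw [big, min_eq_left (by linarith), max_eq_right zero_le_one]
      have h4 := (hcut θ).2.1
      rw [h2, hc₁]; simp only [Ff] at *; linarith
  rw [elaw_const, mul_one] at h
  exact h.trans (add_le_add le_rfl (mul_le_mul_of_nonneg_left htail (by linarith)))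

end Vale.Agent.P245N
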