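import Vale.Agent.P245N.Params
import Vale.Agent.P245N.Window

/-! The bootstrap step `Fisi K → Fisi (K/2)` for `K ≥ n^ε`, from the module statements. -/

open MeasureTheory Real Filter Set
open scoped Topology RealInnerProductSpace

namespace Vale.Agent.P245N

open Vale.Agent.P245

variable {n : ℕ}

/-- Smallness conditions on the parameters in one dimension. -/
structure Small (κ η Cg Cp Cw : ℝ) (p : ℕ) : Prop where
  pos : 0 < η
  kap : κ * η ≤ 1
  poin : Cp * η ≤ 1 / 1000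
  cut : 4 * (p : ℝ) * η ≤ 1 / 400
  grad : 2 * κ * Cg * (η + (16 * (2 * κ * (Cg + 1) * η) * (2 * κ + 4 * (4000 + 2 * κ))
    + 12 * η * (4 * (4000 + 2 * κ)))) ≤ 1 / 20
  fin : 50 * (4000 + 2 * (2 * κ) + Cw) ^ 2 * η ≤ 1

lemma exists_small {κ Cg Cp Cw : ℝ} (hκ : 0 < κ) (hg : 0 < Cg) (hp : 0 < Cp) (hw : 0 < Cw) (p : ℕ) :
    ∃ η, Small κ η Cg Cp Cw p := by
  set W := 4 * (4000 + 2 * κ) with hW
  set A := 2 * κ * Cg * (1 + (16 * (2 * κ * (Cg + 1)) * (2 * κ + W) + 12 * W)) with hA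
  set S := 4000 + 2 * (2 * κ) + Cw with hS
  have hA0 : 0 < A := by positivity
  have hS0 : 0 < S ^ 2 := by positivity
  have hp0 : (0 : ℝ) ≤ p := p.cast_nonneg
  set Z := 20 * A + 1000 * Cp + 1600 * p + κ + 50 * S ^ 2 + 1 with hZ
  have hZ0 : 0 < Z := by positivity
  refine ⟨1 / Z, by positivity, ?_, ?_, ?_, ?_, ?_⟩
  · rw [mul_one_div, div_le_one hZ0]; linarith
  · rw [mul_one_div, div_le_iff₀ hZ0]; linarith
  · rw [mul_one_div, div_le_iff₀ hZ0]; linarith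
  · rw [← hW]
    calc 2 * κ * Cg * (1 / Z + (16 * (2 * κ * (Cg + 1) * (1 / Z)) * (2 * κ + W) + 12 * (1 / Z) * W))
        = A / Z := by rw [hA]; ring
      _ ≤ 1 / 20 := by rw [div_le_iff₀ hZ0]; linarith
  · rw [← hS, mul_one_div, div_le_one hZ0]; linarith

/-- Numeric bound for the gradient term. -/
lemma grad_numeric {t κ Cg η W I m E P Kt' : ℝ} (ht : 0 < t) (hI : 0 ≤ I) (hκ : 0 ≤ κ) (hCg : 0 ≤ Cg) (hE0 : 0 ≤ E)
    (hKt : Kt' ≤ 2 * κ * t) (hP : P ≤ η) (hm : m ≤ (16 * (2 * κ * (Cg + 1) * η) * (2 * κ + W) + 12 * η * W) * (t * I))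
    (hE : E ≤ Cg * P / t * I + Cg / t ^ 2 * m)
    (hs : 2 * κ * Cg * (η + (16 * (2 * κ * (Cg + 1) * η) * (2 * κ + W) + 12 * η * W)) ≤ 1 / 20) :
    Kt' * E ≤ I / 20 := by
  refine (mul_le_mul hKt hE hE0 (by positivity)).trans ?_
  have e : 2 * κ * t * (Cg * P / t * I + Cg / t ^ 2 * m) = 2 * κ * Cg * P * I + 2 * κ * Cg * (m / t) := by field_simp
  rw [e]
  have h1 : m / t ≤ (16 * (2 * κ * (Cg + 1) * η) * (2 * κ + W) + 12 * η * W) * I := by
    rw [div_le_iff₀ ht]; linarith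
  have h2 := mul_le_mul_of_nonneg_left h1 (by positivity : 0 ≤ 2 * κ * Cg)
  have h3 := mul_le_mul_of_nonneg_right (mul_le_mul_of_nonneg_left hP (by positivity : 0 ≤ 2 * κ * Cg)) hI
  have h4 := mul_le_mul_of_nonneg_right hs hI
  linarith

lemma pos1_exp {φ : Euc n → ℝ} {φ' : Euc n → Euc n} (hφ : D1 φ φ') :
    Pos1 (fun x => exp (φ x)) (fun x => exp (φ x) • φ' x) :=
  ⟨fun x => exp_pos _, fun x => by simpa using! (hφ.deriv x).exp, (continuous_exp.comp hφ.cont).smul hφ.cont'⟩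

theorem halve (hHL : HopfLaxStmt) (hTi : TightenStmt) (hTail : TailStmt) (hPM : PoinMainStmt) (hQV : QVarStmt)
    (hInfo : InfoStmt) (hPig : PigeonStmt) (hCut : CutStmt) (hRes : ResStmt) (hGrad : GradStmt) (hCount : CountStmt)
    (hChan : ChannelStmt) (hPair : PairingStmt) {ε : ℝ} (hε : 0 < ε) :
    ∀ᶠ n : ℕ in atTop, ∀ (μ : Measure (Euc n)) (R : ℝ), IsProbabilityMeasure μ → Setup μ R →
      ∀ K : ℝ, (n : ℝ) ^ ε ≤ K → Fisi μ K → Fisi μ (K / 2) := by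
  obtain ⟨Ct, ct, hCt, hct, -, htail⟩ := hTail
  obtain ⟨Cp, cp, hCp, hcp, hpm⟩ := hPM
  obtain ⟨Cq, hCq, hqv⟩ := hQV
  obtain ⟨Cr, hCr, hres⟩ := hRes
  obtain ⟨Cg, hCg, hgrad⟩ := hGrad
  obtain ⟨Cw, hCw, hpairing⟩ := hPair
  set p := ⌈8 / ε⌉₊ with hp
  have hp8 : 8 / ε ≤ p := Nat.le_ceil _
  have hp1 : 1 ≤ p := Nat.ceil_pos.2 (by positivity)
  obtain ⟨k, hk⟩ : ∃ k : ℕ, 4 ≤ (1 / 8000 : ℝ) * (1 / 800) * k := ⟨⌈4 / ((1 / 8000 : ℝ) * (1 / 800))⌉₊, by
    rw [mul_comm, ← div_le_iff₀ (by positivity)]; exact Nat.le_ceil _⟩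
  obtain ⟨κ, hκdef⟩ : ∃ κ : ℝ, κ = 2000 * 2 ^ k := ⟨_, rfl⟩
  have hκ : 0 < κ := by rw [hκdef]; positivity
  have hκ1 : 1 ≤ κ := by
    rw [hκdef]; exact one_le_mul_of_one_le_of_one_le (by norm_num) (one_le_pow₀ (by norm_num))
  obtain ⟨η, hη⟩ := exists_small hκ hCg hCp hCw p
  have hη0 := hη.pos
  have hnr : Tendsto (fun n : ℕ => (n : ℝ)) atTop atTop := tendsto_natCast_atTop_atTop
  have hε2 : 0 < ε / 2 := by positivity
  have eT : ∀ᶠ n : ℕ in atTop, 1 / η ≤ (n : ℝ) ^ (ε / 2) :=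
    ((tendsto_rpow_atTop hε2).comp hnr).eventually (eventually_ge_atTop _)
  have eL : ∀ᶠ n : ℕ in atTop, log ((n : ℝ) + 2) ^ 2 ≤ min cp ct * (n : ℝ) ^ (ε / 2) := by
    have h0 : 0 < min cp ct := lt_min hcp hct
    have h := (isLittleO_log_rpow_rpow_atTop (2 : ℝ) hε2).def (show 0 < min cp ct / 4 by positivity)
    filter_upwards [hnr.eventually h, eventually_ge_atTop 2] with n hn hn2
    have hn2' : (2 : ℝ) ≤ n := by exact_mod_cast hn2
    have hl : log ((n : ℝ) + 2) ≤ 2 * log n := by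
      rw [show 2 * log (n : ℝ) = log ((n : ℝ) ^ 2) by rw [log_pow]; norm_num]
      exact log_le_log (by linarith) (by nlinarith)
    have hl0 : 0 ≤ log ((n : ℝ) + 2) := log_nonneg (by linarith)
    rw [norm_of_nonneg (rpow_nonneg (log_nonneg (by linarith)) _), norm_of_nonneg (rpow_nonneg (by linarith) _),
      rpow_two] at hn
    have := pow_le_pow_left₀ hl0 hl 2
    linarith
  filter_upwards [params (Cb := Ct) (Cq := Cq) (κ := κ) (c := ct) hε hCt hκ hct hη0 hp8, eT, eL,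
    hnr.eventually (eventually_ge_atTop (1 / η)), eventually_ge_atTop 1] with n hpar hT hlg hn_η hn1
  intro μ R hprob hset K hK hF
  obtain ⟨L, hL1, p1, p2, p3, p4⟩ := hpar
  have hR := hset.rad_pos
  obtain ⟨-, -, hS, hμ, hsub⟩ := id hset
  have hn : (1 : ℝ) ≤ n := by exact_mod_cast hn1
  have hnε : 0 < (n : ℝ) ^ ε := by positivity
  have hK0 : 0 < K := hnε.trans_le hK
  have hnh : 0 < (n : ℝ) ^ (ε / 2) := by positivity
  have hsplit : (n : ℝ) ^ ε = (n : ℝ) ^ (ε / 2) * (n : ℝ) ^ (ε / 2) := by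
    rw [← rpow_add (by linarith)]; ring_nf
  have hlog2 : 0 < log ((n : ℝ) + 2) := log_pos (by linarith)
  set T := ((n : ℝ) ^ (ε / 2))⁻¹ with hTdef
  have hT0 : 0 < T := by positivity
  have hTη : T ≤ η := by
    rw [hTdef, inv_le_comm₀ hnh hη0, inv_eq_one_div]; exact hT
  have hTle : ∀ m : ℝ, min cp ct ≤ m → T ≤ m / log ((n : ℝ) + 2) ^ 2 := fun m hm => by
    rw [le_div_iff₀ (by positivity), hTdef, inv_mul_le_iff₀ hnh]
    have := mul_le_mul_of_nonneg_right hm hnh.le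
    linarith
  have hTK : 1 / T ≤ K * T := by
    rw [hTdef, one_div, inv_inv, ← div_eq_mul_inv, le_div_iff₀ hnh, ← hsplit]; exact hK
  by_cases hsemi : Semi μ (K / 2000) (1 / 4) (1 / (4 * (K / 2000)))
  · have h1 := hHL n μ hprob R hR.le hS hμ (K / 2000) (1 / 4) (by positivity) (by norm_num) hsemi
    have hP := hpm n μ hprob R hset K T hK0 hF hT0 (hTle cp (min_le_left _ _))
    have h2 := hTi n μ hprob R hR.le hS (8 * (K / 2000)) (2 * Cp * (K * T)) (by positivity) (by positivity)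
      (fun g g' hg => by have := h1 g g' hg; linarith)
      fun f f' hf => (hP f f' hf).trans (mul_le_mul_of_nonneg_right (by
        have := mul_le_mul_of_nonneg_left hTK hCp.le; linarith) (integral_nonneg fun x => sq_nonneg _))
    refine fisi_mono h2 ?_
    have h3 := mul_le_mul_of_nonneg_right ((mul_le_mul_of_nonneg_left hTη hCp.le).trans hη.poin) hK0.le
    linarith
  exfalso
  simp only [Semi, not_forall, not_le, exists_prop] at hsemi
  obtain ⟨φ, φ', hφ, hsc, hnorm, hbig⟩ := hsemi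
  set g := fun x => exp (φ x) with hg
  have hpos : Pos1 g (fun x => exp (φ x) • φ' x) := pos1_exp hφ
  have hJe : ∫ x, fis g (fun x => exp (φ x) • φ' x) x ∂μ = ∫ x, ‖φ' x‖ ^ 2 * exp (φ x) ∂μ := by
    refine integral_congr_ae (Eventually.of_forall fun x => ?_)
    simp only [fis, hg, norm_smul, norm_eq_abs, abs_exp, mul_pow]
    field_simp
  rw [← hJe] at hbig
  have hinfo := hInfo n μ hprob R hR.le hS hμ K hK0 hF g _ hpos hnorm
  set J := ∫ x, fis g (fun x => exp (φ x) • φ' x) x ∂μ with hJ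
  have hJ0 : 0 ≤ J := integral_nonneg (fis_nonneg hpos)
  have hInn : ∀ t, 0 ≤ info t μ g := fun t => qexp_nonneg hS hpos.cont hpos.pos fun θ => sq_nonneg _
  have hend : ∀ t, t ≤ 2000 / K * 2 ^ k → t * K ≤ κ := fun t h => by
    have := mul_le_mul_of_nonneg_right h hK0.le
    rwa [show 2000 / K * 2 ^ k * K = κ by rw [hκdef]; field_simp] at this
  have hwin : ∀ t, 2000 / K ≤ t → t ≤ 2000 / K * 2 ^ k → _ := fun t h1 h2 =>
    window hK0 hJ0 (hInn t) h1 (hend t h2) hbig (hinfo t ((div_pos (by norm_num) hK0).trans_le h1)).2.2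
  obtain ⟨t, ht1, ht2, hpig⟩ := hPig n μ hprob R hR.le hS hμ g _ hpos hnorm (1 / 8000) (1 / 800) (2000 / K) k
    (by norm_num) (by norm_num) (by positivity) hk fun t h1 h2 => (hwin t h1 h2).2.2.1
  obtain ⟨ht, hKt, -, hJt, hWI⟩ := hwin t ht1 ht2
  have hDt := (hinfo t ht).2.1
  have htK := hend t ht2
  clear hwin hinfo hend
  set I := info t μ g with hI
  have hI0 : 0 < I := by
    rcases (hInn t).eq_or_lt with h | h
    · rw [← hI] at h; rw [← h] at hWI; simp at hWI; linarith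
    · exact h
  have htε : t ≤ κ / (n : ℝ) ^ ε := by
    rw [le_div_iff₀ hnε]; exact (mul_le_mul_of_nonneg_left hK ht.le).trans htK
  have htT : t ≤ T := by
    refine htε.trans ?_
    rw [hsplit, div_le_iff₀ (by positivity), hTdef, ← mul_assoc, inv_mul_cancel₀ hnh.ne', one_mul]
    rw [div_le_iff₀ hη0] at hT
    refine le_of_mul_le_mul_right ?_ hη0
    exact hη.kap.trans hT
  have htη : t ≤ η := htT.trans hTη
  have hM0 : (0 : ℝ) < 2 ^ L := by positivity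
  have hQ0 : 0 ≤ Cq * log ((n : ℝ) + 2) := by positivity
  have hqvt : ∀ θ, QV (Cq * log ((n : ℝ) + 2)) t μ θ := fun θ => hqv n μ hprob R hR.le hS hμ t θ ht.le
  have hat : 1 / (4 * (K / 2000)) ≤ t / 2 := by
    rw [div_le_iff₀ hK0] at ht1
    rw [div_le_iff₀ (by positivity)]; linarith
  obtain ⟨⟨Δ', hΔ, ⟨BΔ, hBΔ⟩, hΔb⟩, hψ⟩ := hgrad n p L (2 ^ L) μ hprob R hR.le hS hμ (Cq * log ((n : ℝ) + 2)) t
    (1 / (4 * (K / 2000))) hp1 hL1 hM0 hQ0 ht hqvt (by positivity) hat φ φ' hφ hsc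
  obtain ⟨F', hF', -, -, -⟩ := hres n p L (2 ^ L) μ hprob R hR.le hS hμ _ t hp1 hL1 hM0 hQ0 ht hqvt
  have hFc : Continuous (Ff p L (2 ^ L) t μ) := continuous_iff_continuousAt.2 fun θ => (hF' θ).continuousAt
  obtain ⟨hX, hGI, hG⟩ := cut_part hCut hS hR.le hμ ht hpos.cont hpos.pos hp1 hL1 hM0 hFc (ω := 1 / 400) (by
    refine (div_le_self (by positivity) (by exact_mod_cast hL1)).trans (le_trans ?_ hη.cut)
    refine mul_le_mul_of_nonneg_left ?_ (by positivity)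
    rw [mul_assoc]
    refine (mul_le_mul_of_nonneg_right htε (by positivity)).trans ?_
    rwa [div_mul_eq_mul_div]) hpig
  rw [← hI] at hX hGI hG
  set W := 4 * (4000 + 2 * κ) with hW
  set m := qexp t μ g (fun θ => frob (Ff p L (2 ^ L) t μ θ)) with hm
  have hfn : ∀ θ, frob (Ff p L (2 ^ L) t μ θ) ≤ n := fun θ =>
    (hCut n p L (2 ^ L) (Aop t μ θ) hp1 hL1 hM0 (symOp_Aop hS θ) fun v => by
      rw [inner_Aop hS]; exact aent_self_nonneg θ v).2.1
  have hbF : Bdd fun θ => frob (Ff p L (2 ^ L) t μ θ) := Bdd.mk' (continuous_frob.comp hFc) (B := n) fun θ => by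
    rw [abs_of_nonneg (frob_nonneg _)]; exact hfn θ
  obtain ⟨hdc, Bd, hBd⟩ := bdd_dd_sq (t := t) hS hR.le hpos.cont hpos.pos
  have hΔn : ∀ θ, ‖Ff p L (2 ^ L) t μ θ (dd t μ g θ)‖ ≤ Bd := fun θ =>
    ((hCut n p L (2 ^ L) (Aop t μ θ) hp1 hL1 hM0 (symOp_Aop hS θ) fun v => by
      rw [inner_Aop hS]; exact aent_self_nonneg θ v).1 _).trans (hBd θ)
  have hmle : m ≤ (16 * (2 * κ * (Cg + 1) * η) * (2 * κ + W) + 12 * η * W) * (t * I) := by
    obtain ⟨ψ', hψd, hψb⟩ := hψ (1 / n) (by positivity)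
    have hc := hCount n μ hprob R hR.le hS hμ K hK0 hF g _ hpos hnorm t ht _ ψ' hψd
      ⟨√(1 / n + n), fun θ => by rw [abs_of_nonneg (Real.sqrt_nonneg _)]; exact Real.sqrt_le_sqrt (by linarith [hfn θ])⟩
      ((Cg + 1) * η / t) (by positivity) fun θ => (hψb θ).trans (by
        have e : Cg * (p : ℝ) ^ 2 * (Cq * log ((n : ℝ) + 2)) / (t * (L : ℝ) ^ 2)
            = Cg * ((p : ℝ) ^ 2 * (Cq * log ((n : ℝ) + 2)) / (L : ℝ) ^ 2) / t := by field_simp
        rw [e]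
        exact div_le_div_of_nonneg_right ((mul_le_mul_of_nonneg_left p1 hCg.le).trans
          (mul_le_mul_of_nonneg_right (by linarith) hη0.le)) ht.le)
    have hsq : (fun θ => √(1 / (n : ℝ) + frob (Ff p L (2 ^ L) t μ θ)) ^ 2)
        = fun θ => 1 / (n : ℝ) + frob (Ff p L (2 ^ L) t μ θ) :=
      funext fun θ => Real.sq_sqrt (add_nonneg (by positivity) (frob_nonneg _))
    simp only [hsq] at hc
    have hm1 : m ≤ qexp t μ g (fun θ => 1 / (n : ℝ) + frob (Ff p L (2 ^ L) t μ θ)) :=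
      qexp_mono hS hR.le hpos.cont hpos.pos hbF ((Bdd.const _).add hbF) fun θ => le_add_of_nonneg_left (by positivity)
    have hb := count_base hCut hS hp1 hL1 hM0 hn1 hFc
      (htail n μ hprob R hR.le hS hμ (cov_le_two hS hsub) t ht (htT.trans (hTle ct (min_le_right _ _))))
    have h3 : exp (-ct / t) ≤ exp (-ct * (n : ℝ) ^ ε / κ) := by
      rw [exp_le_exp, neg_div, neg_mul, neg_div, neg_le_neg_iff, div_le_div_iff₀ hκ ht]
      rw [le_div_iff₀ hnε] at htε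
      have := mul_le_mul_of_nonneg_left htε hct.le
      linarith
    have h4 := mul_le_mul_of_nonneg_left h3 (by linarith : (0:ℝ) ≤ n)
    have h5 : 1 / (n : ℝ) ≤ η := by
      rw [one_div_le (by linarith) hη0]; exact hn_η
    have hKL : Kt K t * ((Cg + 1) * η / t) ≤ 2 * κ * (Cg + 1) * η := by
      refine (mul_le_mul_of_nonneg_right hKt (by positivity)).trans (le_of_eq ?_)
      field_simp
    have h6 : eent t μ (av t μ g) + 1 ≤ (2 * κ + W) * (t * I) := by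
      have := mul_le_mul_of_nonneg_right hKt hI0.le
      linarith
    have hKt0 : 0 ≤ Kt K t * ((Cg + 1) * η / t) := mul_nonneg (by rw [Kt]; positivity) (by positivity)
    have h7 := (mul_le_mul_of_nonneg_left h6 hKt0).trans (mul_le_mul_of_nonneg_right hKL (by positivity))
    have h8 : 12 * η ≤ 12 * η * (W * (t * I)) := le_mul_of_one_le_right (by positivity) hWI
    linarith
  have hbE : Bdd fun θ => frob (Δ' θ) := Bdd.mk' (continuous_frob.comp hΔ.cont') (B := BΔ) fun θ => by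
    rw [abs_of_nonneg (frob_nonneg _)]; exact hBΔ θ
  have hbd : Bdd fun θ => ‖dd t μ g θ‖ ^ 2 := Bdd.mk' (hdc.norm.pow 2) (B := Bd ^ 2) fun θ => by
    rw [abs_of_nonneg (sq_nonneg _)]; exact pow_le_pow_left₀ (norm_nonneg _) (hBd θ) 2
  set P := (p : ℝ) ^ 2 * (Cq * log ((n : ℝ) + 2)) / (L : ℝ) ^ 2 with hP
  have hE : qexp t μ g (fun θ => frob (Δ' θ)) ≤ Cg * P / t * I + Cg / t ^ 2 * m :=
    qexp_le_two hS hR.le hpos.cont hpos.pos hbE hbd hbF _ _ fun θ => by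
      refine (hΔb θ).trans (le_of_eq ?_)
      rw [hP]; field_simp; rfl
  have hKE := grad_numeric ht hI0.le hκ.le hCg.le (qexp_nonneg hS hpos.cont hpos.pos fun θ => frob_nonneg _) hKt p1
    hmle hE (by rw [hW]; exact hη.grad)
  have hKt0 : 0 < Kt K t := by rw [Kt]; positivity
  obtain ⟨hc1, hc2⟩ := hChan n μ hprob R hR.le hS hμ K hK0 hF g _ hpos hnorm t (20 * Kt K t) ht (by positivity)
    _ Δ' hΔ (max Bd BΔ) fun θ => ⟨(hΔn θ).trans (le_max_left _ _), (hBΔ θ).trans (le_max_right _ _)⟩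
  have hpr := hpairing n μ hprob R hR.le hS hμ hsub g _ hpos hnorm t (20 * Kt K t) ht (by positivity)
    _ hΔ.cont Bd hΔn
  have hX0 : 0 ≤ qexp t μ g (fun θ => ‖Ff p L (2 ^ L) t μ θ (dd t μ g θ) - dd t μ g θ‖ ^ 2) :=
    qexp_nonneg hS hpos.cont hpos.pos fun θ => sq_nonneg _
  have hfin := numeric ht hI0 hCw hKt0 hKt hX0 (hX.trans (by linarith)) hG hGI hJt hKE hc1 hc2 hpr
  have h1 : (4000 + 2 * (2 * κ) + Cw) ^ 2 * √t ^ 2 ≤ 1 / 50 := by
    rw [Real.sq_sqrt ht.le]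
    have := mul_le_mul_of_nonneg_left htη (sq_nonneg (4000 + 2 * (2 * κ) + Cw))
    linarith [hη.fin]
  have h2 := pow_le_pow_left₀ (by norm_num) hfin 2
  rw [mul_pow] at h2
  linarith

end Vale.Agent.P245N
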