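import Vale.Agent.P245.Law

open MeasureTheory Real Filter Set
open scoped Topology RealInnerProductSpace

namespace Vale.Agent.P245

variable {n : ℕ} {μ : Measure (Euc n)} [IsProbabilityMeasure μ] {R t : ℝ}

lemma log_mul_mul (r q : ℝ) : r * q * log (r * q) = r * log r * q + r * (q * log q) := by
  rcases eq_or_ne r 0 with h | h
  · simp [h]
  rcases eq_or_ne q 0 with h' | h'
  · simp [h']
  rw [log_mul h h']; ring

lemma continuous_pt₂ (s : ℝ) : Continuous fun z : Euc n × Euc n => pt s z.1 z.2 := by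
  unfold pt; fun_prop

lemma integrable_pair (hS : Supp μ R) {f : Euc n × Euc n → ℝ} (hf : Continuous f) {B : ℝ}
    (hB : ∀ x G, ‖x‖ ≤ R → |f (x, G)| ≤ B) : Integrable f (μ.prod (gam n)) := by
  have h := integrable_prod_gam hS (F := fun x G => f (x, G)) hf (A := B) (c := 0) fun x G hx => by
    simpa using hB x G hx
  exact h

/-- Integrals over the joint law of the point and the parameter, through the fibres. -/
lemma pair_fib (hS : Supp μ R) (ht : 0 ≤ t) {H : Euc n → Euc n → ℝ} (hH : Continuous (Function.uncurry H))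
    {B : ℝ} (hB : ∀ θ y, ‖y‖ ≤ R → |H θ y| ≤ B) (hB0 : 0 ≤ B) :
    ∫ z, H (pt (√t) z.1 z.2) z.1 ∂(μ.prod (gam n)) = elaw t μ fun θ => av t μ (H θ) θ := by
  set H' := fun θ y => max (-B) (min B (H θ y)) with hH'
  have hc' : Continuous (Function.uncurry H') := continuous_const.max (continuous_const.min hH)
  have hb' : ∀ θ y, |H' θ y| ≤ B := fun θ y => by
    rw [abs_le]; exact ⟨le_max_left _ _, max_le (by linarith) (min_le_left _ _)⟩
  have he : ∀ θ y, ‖y‖ ≤ R → H' θ y = H θ y := fun θ y hy => by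
    have h := abs_le.1 (hB θ y hy)
    simp [hH', min_eq_right h.2, max_eq_right h.1]
  have hs : √t ^ 2 = t := Real.sq_sqrt ht
  have hi : Integrable (fun z : Euc n × Euc n => H (pt (√t) z.1 z.2) z.1) (μ.prod (gam n)) :=
    integrable_pair hS (hH.comp ((continuous_pt₂ _).prodMk continuous_fst)) fun x G hx => hB _ x hx
  rw [integral_prod _ hi]
  have h1 := elaw_fib hS (√t) hc' hb'
  rw [hs] at h1
  refine Eq.trans ?_ (h1.trans ?_)
  · refine integral_congr_ae (hS.mono fun x hx => ?_)
    simp only [he _ x hx]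
  · refine integral_congr_ae (Eventually.of_forall fun x => integral_congr_ae (Eventually.of_forall fun G => ?_))
    refine integral_congr_ae ((supp_fib hS _).mono fun y hy => ?_)
    simp only [he _ y hy]

lemma elaw_add (hS : Supp μ R) {h₁ h₂ : Euc n → ℝ} (h1 : Continuous h₁) (h2 : Continuous h₂) {B₁ B₂ : ℝ}
    (hB₁ : ∀ z, |h₁ z| ≤ B₁) (hB₂ : ∀ z, |h₂ z| ≤ B₂) :
    elaw t μ (fun z => h₁ z + h₂ z) = elaw t μ h₁ + elaw t μ h₂ := by
  have i1 : Integrable (fun z : Euc n × Euc n => h₁ (pt (√t) z.1 z.2)) (μ.prod (gam n)) :=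
    integrable_pair hS (h1.comp (continuous_pt₂ _)) fun _ _ _ => hB₁ _
  have i2 : Integrable (fun z : Euc n × Euc n => h₂ (pt (√t) z.1 z.2)) (μ.prod (gam n)) :=
    integrable_pair hS (h2.comp (continuous_pt₂ _)) fun _ _ _ => hB₂ _
  simp only [elaw]
  rw [← integral_prod _ i1, ← integral_prod _ i2,
    ← integral_prod (fun z : Euc n × Euc n => h₁ (pt (√t) z.1 z.2) + h₂ (pt (√t) z.1 z.2)) (i1.add i2),
    ← integral_add i1 i2]

/-- Donsker-Varadhan inequality for the joint law of the point and the parameter, after weighting by a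
function of the parameter. -/
lemma joint_dv (hS : Supp μ R) (hR : 0 ≤ R) {g : Euc n → ℝ} (hg : Continuous g) (hg0 : ∀ x, 0 ≤ g x)
    {p : Euc n → ℝ} (hp : Continuous p) (hp0 : ∀ θ, 0 ≤ p θ) {Bp : ℝ} (hBp : ∀ θ, p θ ≤ Bp)
    {φ : Euc n → Euc n → ℝ} (hφ : Continuous (Function.uncurry φ)) {Bφ : ℝ}
    (hBφ : ∀ θ y, ‖y‖ ≤ R → |φ θ y| ≤ Bφ) (ht : 0 ≤ t) :
    elaw t μ (fun θ => p θ * av t μ (fun y => g y * φ θ y) θ)
      ≤ elaw t μ (fun θ => p θ * av t μ (fun y => g y * log (g y)) θ + p θ * log (p θ) * av t μ g θ)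
        - (elaw t μ fun θ => p θ * av t μ g θ) * log (elaw t μ fun θ => p θ * av t μ g θ)
        + (elaw t μ fun θ => p θ * av t μ g θ) * log (∫ z, exp (φ (pt (√t) z.1 z.2) z.1) ∂(μ.prod (gam n))) := by
  obtain ⟨Bg, hBg0, hBg⟩ := exists_bound hR hg
  obtain ⟨C, hC0, hC⟩ := exists_bound hR (Real.continuous_mul_log.comp hg)
  simp only [norm_eq_abs, Function.comp_apply] at hBg hC
  have hBp0 : 0 ≤ Bp := (hp0 0).trans (hBp 0)
  obtain ⟨D, hD⟩ := (isCompact_Icc (a := (0 : ℝ)) (b := Bp)).exists_bound_of_continuousOn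
    Real.continuous_mul_log.continuousOn
  simp only [norm_eq_abs] at hD
  have hpa : ∀ θ, |p θ| ≤ Bp := fun θ => by rw [abs_of_nonneg (hp0 θ)]; exact hBp θ
  have hpl : ∀ θ, |p θ * log (p θ)| ≤ D := fun θ => hD _ ⟨hp0 θ, hBp θ⟩
  have hD0 : 0 ≤ D := (abs_nonneg _).trans (hpl 0)
  have hBφ0 : 0 ≤ Bφ := (abs_nonneg _).trans (hBφ 0 0 (by simpa using hR))
  have hpp := continuous_pt₂ (n := n) √t
  set P := μ.prod (gam n) with hP
  set θf := fun z : Euc n × Euc n => pt (√t) z.1 z.2 with hθf
  set G := fun z : Euc n × Euc n => g z.1 * p (θf z) with hG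
  set Φ := fun z : Euc n × Euc n => φ (θf z) z.1 with hΦ
  have hGc : Continuous G := (hg.comp continuous_fst).mul (hp.comp hpp)
  have hΦc : Continuous Φ := hφ.comp (hpp.prodMk continuous_fst)
  have hGb : ∀ x y, ‖x‖ ≤ R → |G (x, y)| ≤ Bg * Bp := fun x y hx => by
    rw [hG, abs_mul]; exact mul_le_mul (hBg x hx) (hpa _) (abs_nonneg _) hBg0
  have h := integral_mul_le_ent (μ := P) (g := G) (φ := Φ) (fun z => mul_nonneg (hg0 _) (hp0 _))
    (integrable_pair hS hGc hGb) ?_ ?_ ?_
  · have e1 : ∫ z, G z * Φ z ∂P = elaw t μ fun θ => p θ * av t μ (fun y => g y * φ θ y) θ := by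
      refine (pair_fib hS ht (H := fun θ y => g y * p θ * φ θ y) ?_ (B := Bg * Bp * Bφ) (fun θ y hy => ?_) (by positivity)).trans ?_
      · exact ((hg.comp continuous_snd).mul (hp.comp continuous_fst)).mul hφ
      · rw [abs_mul, abs_mul]
        exact mul_le_mul (mul_le_mul (hBg y hy) (hpa θ) (abs_nonneg _) hBg0) (hBφ θ y hy) (abs_nonneg _) (by positivity)
      · congr 1; funext θ
        rw [av, av, ← integral_const_mul]
        exact integral_congr_ae (Eventually.of_forall fun y => by ring)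
    have e2 : ∫ z, G z ∂P = elaw t μ fun θ => p θ * av t μ g θ := by
      refine (pair_fib hS ht (H := fun θ y => g y * p θ) ((hg.comp continuous_snd).mul (hp.comp continuous_fst))
        (B := Bg * Bp) (fun θ y hy => ?_) (by positivity)).trans ?_
      · rw [abs_mul]; exact mul_le_mul (hBg y hy) (hpa _) (abs_nonneg _) hBg0
      · congr 1; funext θ
        rw [av, integral_mul_const, mul_comm]; rfl
    have e3 : ∫ z, G z * log (G z) ∂P = elaw t μ fun θ => p θ * av t μ (fun y => g y * log (g y)) θ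
        + p θ * log (p θ) * av t μ g θ := by
      simp only [hG, log_mul_mul]
      refine (pair_fib hS ht (H := fun θ y => g y * log (g y) * p θ + g y * (p θ * log (p θ))) ?_
        (B := C * Bp + Bg * D) (fun θ y hy => ?_) (by positivity)).trans ?_
      · exact (((Real.continuous_mul_log.comp hg).comp continuous_snd).mul (hp.comp continuous_fst)).add
          ((hg.comp continuous_snd).mul ((Real.continuous_mul_log.comp hp).comp continuous_fst))
      · refine (abs_add_le _ _).trans (add_le_add ?_ ?_)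
        · rw [abs_mul]; exact mul_le_mul (hC y hy) (hpa _) (abs_nonneg _) hC0
        · rw [abs_mul]; exact mul_le_mul (hBg y hy) (hpl _) (abs_nonneg _) hBg0
      · congr 1; funext θ
        have := isProb_fib (T := t) hS θ
        have hsf := supp_fib (T := t) hS θ
        have hgl : Continuous fun y => g y * log (g y) := Real.continuous_mul_log.comp hg
        simp only [av]
        rw [integral_add ((hsf.integrable hgl).mul_const _) ((hsf.integrable hg).mul_const _),
          integral_mul_const, integral_mul_const]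
        ring
    rw [ent, e1, e2, e3] at h
    exact h
  · exact integrable_pair hS (Real.continuous_mul_log.comp hGc) (B := C * Bp + Bg * D) fun x y hx => by
      simp only [hG, log_mul_mul]
      refine (abs_add_le _ _).trans (add_le_add ?_ ?_)
      · rw [abs_mul]; exact mul_le_mul (hC x hx) (hpa _) (abs_nonneg _) hC0
      · rw [abs_mul]; exact mul_le_mul (hBg x hx) (hpl _) (abs_nonneg _) hBg0
  · exact integrable_pair hS (hGc.mul hΦc) (B := Bg * Bp * Bφ) fun x y hx => by
      rw [abs_mul]; exact mul_le_mul (hGb x y hx) (hBφ _ x hx) (abs_nonneg _) (by positivity)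
  · exact integrable_pair hS hΦc.rexp (B := exp Bφ) fun x y hx => by
      rw [abs_exp, exp_le_exp]; exact (le_abs_self _).trans (hBφ _ x hx)

/-- Donsker-Varadhan inequality for a function of the parameter under the tilted law. -/
lemma elaw_dv (hS : Supp μ R) (hR : 0 ≤ R) {g : Euc n → ℝ} (hg : Continuous g) (hg0 : ∀ x, 0 ≤ g x)
    (hg1 : ∫ x, g x ∂μ = 1) {ψ : Euc n → ℝ} (hψ : Continuous ψ) {B : ℝ} (hB : ∀ θ, |ψ θ| ≤ B) (ht : 0 ≤ t) :
    elaw t μ (fun θ => ψ θ * av t μ g θ) ≤ ent μ g + log (elaw t μ fun θ => exp (ψ θ)) := by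
  have h := joint_dv hS hR hg hg0 (p := fun _ => 1) continuous_const (fun _ => zero_le_one) (Bp := 1)
    (fun _ => le_rfl) (φ := fun θ _ => ψ θ) (hψ.comp continuous_fst) (Bφ := B) (fun θ _ _ => hB θ) ht
  simp only [one_mul, log_one, zero_mul, add_zero] at h
  have e0 : ∀ {f : Euc n → ℝ}, Continuous f → elaw t μ (fun θ => av t μ f θ) = ∫ x, f x ∂μ := fun {f} hf => by
    obtain ⟨Bf, hBf0, hBf⟩ := exists_bound hR hf
    have e := pair_fib hS ht (H := fun _ y => f y) (hf.comp continuous_snd) (fun _ y hy => hBf y hy) hBf0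
    rw [← e, integral_fun_fst]
    simp
  have e3 : ∫ z, exp (ψ (pt (√t) z.1 z.2)) ∂(μ.prod (gam n)) = elaw t μ fun θ => exp (ψ θ) := by
    have hi : Integrable (fun z : Euc n × Euc n => exp (ψ (pt (√t) z.1 z.2))) (μ.prod (gam n)) :=
      integrable_pair hS (hψ.comp (continuous_pt₂ _)).rexp (B := exp B) fun x y _ => by
        rw [abs_exp, exp_le_exp]; exact (le_abs_self _).trans (hB _)
    rw [integral_prod _ hi]
    rfl
  have e4 : ∀ θ, av t μ (fun y => g y * ψ θ) θ = ψ θ * av t μ g θ := fun θ => by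
    rw [av, integral_mul_const, mul_comm]; rfl
  rw [e0 hg, hg1, e0 (Real.continuous_mul_log.comp' hg), e3] at h
  simp only [e4, log_one, mul_zero, sub_zero, one_mul] at h
  rw [ent, hg1, log_one, mul_zero, sub_zero]
  exact h

end Vale.Agent.P245
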