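import Vale.Agent.P245N.Spec
import Vale.Agent.P245N.DV

/-!
The logarithmic Sobolev inequalities applied to the Gaussian channel `z = √r Δ(θ) + G`: in the
parameter for each output `z`, and in the output for the mixture.
-/

open MeasureTheory ProbabilityTheory Real Filter Set
open scoped Topology RealInnerProductSpace

namespace Vale.Agent.P245N.Chan

open Vale.Agent.P245

variable {n : ℕ}

/-! ### Gaussian moments -/

lemma gam_eq : gam n = stdGaussian (Euc n) :=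
  Measure.ext_of_charFun (funext fun w => by rw [charFun_gam, charFun_stdGaussian])

lemma gam_inner (a : Euc n) : ∫ G, ⟪a, G⟫ ∂(gam n) = 0 := by
  rw [gam_eq]; exact integral_strongDual_stdGaussian (innerSL ℝ a)

lemma gam_inner_sq (a : Euc n) : ∫ G, ⟪a, G⟫ ^ 2 ∂(gam n) = ‖a‖ ^ 2 := by
  have h := variance_dual_stdGaussian (innerSL ℝ a)
  rw [variance_of_integral_eq_zero (innerSL ℝ a).continuous.aemeasurable
    (integral_strongDual_stdGaussian _)] at h
  rw [gam_eq]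
  simpa using h

lemma int_inner (a : Euc n) : Integrable (fun G : Euc n => ⟪a, G⟫) (gam n) :=
  expInt_gam.of_growth (by fun_prop) (A := ‖a‖) (c := 1) fun G => by
    have h1 := abs_real_inner_le_norm a G
    have h2 : ‖G‖ ≤ exp (1 * ‖G‖) := by
      rw [one_mul]; linarith [add_one_le_exp ‖G‖]
    rw [norm_eq_abs]
    exact h1.trans (mul_le_mul_of_nonneg_left h2 (norm_nonneg _))

lemma int_inner_sq (a : Euc n) : Integrable (fun G : Euc n => ⟪a, G⟫ ^ 2) (gam n) :=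
  expInt_gam.of_growth (by fun_prop) (A := ‖a‖ ^ 2) (c := 2) fun G => by
    have h1 := abs_real_inner_le_norm a G
    have h2 : ‖G‖ ≤ exp ‖G‖ := by linarith [add_one_le_exp ‖G‖]
    rw [norm_eq_abs, abs_pow, two_mul, exp_add]
    refine (pow_le_pow_left₀ (abs_nonneg _) h1 2).trans ?_
    rw [mul_pow]
    exact mul_le_mul_of_nonneg_left (by rw [sq]; gcongr) (sq_nonneg _)

lemma adj_sq (D : Op n) (v : Euc n) :
    ‖ContinuousLinearMap.adjoint D v‖ ^ 2 = ∑ i, ⟪D (stdb n i), v⟫ ^ 2 := by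
  rw [norm_sq_eq_sum (stdb n)]
  simp only [ContinuousLinearMap.adjoint_inner_right]

lemma norm_adj_le (D : Op n) (v : Euc n) : ‖ContinuousLinearMap.adjoint D v‖ ≤ √(frob D) * ‖v‖ := by
  have h : ‖ContinuousLinearMap.adjoint D v‖ ^ 2 ≤ (√(frob D) * ‖v‖) ^ 2 := by
    rw [adj_sq, mul_pow, sq_sqrt (frob_nonneg D), frob, Finset.sum_mul]
    refine Finset.sum_le_sum fun i _ => ?_
    rw [← mul_pow, ← sq_abs]
    exact pow_le_pow_left₀ (abs_nonneg _) (abs_real_inner_le_norm _ _) 2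
  exact (pow_le_pow_iff_left₀ (norm_nonneg _) (by positivity) two_ne_zero).1 h

lemma gam_adj_sq (D : Op n) : ∫ G, ‖ContinuousLinearMap.adjoint D G‖ ^ 2 ∂(gam n) = frob D := by
  simp only [adj_sq]
  rw [integral_finsetSum _ fun i _ => int_inner_sq _]
  simp only [gam_inner_sq, frob]

/-! ### Functions of at most exponential growth in the output -/

/-- Continuous, with growth at most exponential in the second variable, uniformly in the first. -/
def Gr (F : Euc n → Euc n → ℝ) : Prop :=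
  Continuous (Function.uncurry F) ∧ ∃ A c : ℝ, ∀ θ z, |F θ z| ≤ A * exp (c * ‖z‖)

lemma Gr.of_bdd {f : Euc n → ℝ} (hf : Continuous f) {B : ℝ} (hB : ∀ θ, |f θ| ≤ B) :
    Gr (fun θ (_ : Euc n) => f θ) :=
  ⟨hf.comp continuous_fst, B, 0, fun θ z => by simpa using hB θ⟩

lemma Gr.mul {F F' : Euc n → Euc n → ℝ} (h : Gr F) (h' : Gr F') : Gr (fun θ z => F θ z * F' θ z) := by
  obtain ⟨hc, A, c, hb⟩ := h
  obtain ⟨hc', A', c', hb'⟩ := h'
  refine ⟨hc.mul hc', A * A', c + c', fun θ z => ?_⟩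
  rw [abs_mul, add_mul, exp_add, mul_mul_mul_comm]
  exact mul_le_mul (hb θ z) (hb' θ z) (abs_nonneg _) ((abs_nonneg _).trans (hb θ z))

lemma Gr.add {F F' : Euc n → Euc n → ℝ} (h : Gr F) (h' : Gr F') : Gr (fun θ z => F θ z + F' θ z) := by
  obtain ⟨hc, A, c, hb⟩ := h
  obtain ⟨hc', A', c', hb'⟩ := h'
  have hA : 0 ≤ A := by simpa using (abs_nonneg _).trans (hb 0 0)
  have hA' : 0 ≤ A' := by simpa using (abs_nonneg _).trans (hb' 0 0)
  refine ⟨hc.add hc', A + A', max c c', fun θ z => (abs_add_le _ _).trans ?_⟩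
  rw [add_mul]
  gcongr
  · refine (hb θ z).trans (mul_le_mul_of_nonneg_left (exp_le_exp.2 ?_) hA)
    exact mul_le_mul_of_nonneg_right (le_max_left _ _) (norm_nonneg _)
  · refine (hb' θ z).trans (mul_le_mul_of_nonneg_left (exp_le_exp.2 ?_) hA')
    exact mul_le_mul_of_nonneg_right (le_max_right _ _) (norm_nonneg _)

variable {μ : Measure (Euc n)} [IsProbabilityMeasure μ] {R t : ℝ}

/-- The law of `θ_t`. -/
noncomputable def law (t : ℝ) (μ : Measure (Euc n)) : Measure (Euc n) :=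
  (μ.prod (gam n)).map fun p => pt (√t) p.1 p.2

instance : IsProbabilityMeasure (law t μ) :=
  Measure.isProbabilityMeasure_map (continuous_pt₂ _).aemeasurable

lemma elaw_eq (hS : Supp μ R) {h : Euc n → ℝ} (hh : Continuous h) {B : ℝ} (hB : ∀ θ, |h θ| ≤ B) :
    elaw t μ h = ∫ θ, h θ ∂law t μ := by
  have hi : Integrable (fun p : Euc n × Euc n => h (pt (√t) p.1 p.2)) (μ.prod (gam n)) :=
    integrable_pair hS (hh.comp (continuous_pt₂ _)) fun _ _ _ => hB _
  rw [law, integral_map (continuous_pt₂ _).aemeasurable hh.aestronglyMeasurable, integral_prod _ hi]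
  rfl

lemma Gr.elaw_eq {F : Euc n → Euc n → ℝ} (h : Gr F) (hS : Supp μ R) (z : Euc n) :
    elaw t μ (fun θ => F θ z) = ∫ θ, F θ z ∂law t μ := by
  obtain ⟨hc, A, c, hb⟩ := h
  exact Chan.elaw_eq hS (hc.comp (Continuous.prodMk_left z)) fun θ => hb θ z

lemma Gr.int_fst {F : Euc n → Euc n → ℝ} (h : Gr F) (z : Euc n) {P : Measure (Euc n)}
    [IsFiniteMeasure P] : Integrable (fun θ => F θ z) P := by
  obtain ⟨hc, A, c, hb⟩ := h
  exact Integrable.of_bound (hc.comp (Continuous.prodMk_left z)).aestronglyMeasurable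
    _ (Eventually.of_forall fun θ => hb θ z)

lemma Gr.int_snd {F : Euc n → Euc n → ℝ} (h : Gr F) (θ : Euc n) :
    Integrable (fun z => F θ z) (gam n) := by
  obtain ⟨hc, A, c, hb⟩ := h
  exact expInt_gam.of_growth (hc.comp (Continuous.prodMk_right θ)) fun z => hb θ z

lemma Gr.integrable {F : Euc n → Euc n → ℝ} (h : Gr F) {P : Measure (Euc n)} [IsFiniteMeasure P] :
    Integrable (Function.uncurry F) (P.prod (gam n)) := by
  obtain ⟨hc, A, c, hb⟩ := h
  have h1 : Integrable (fun z : Euc n × Euc n => A * exp (c * ‖z.2‖)) (P.prod (gam n)) :=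
    ((integrable_const (1 : ℝ)).mul_prod (expInt_gam c)).congr
      (Eventually.of_forall fun z => by simp) |>.const_mul A
  exact h1.mono' hc.aestronglyMeasurable (Eventually.of_forall fun z => hb z.1 z.2)

lemma Gr.swap {F : Euc n → Euc n → ℝ} (h : Gr F) {P : Measure (Euc n)} [IsFiniteMeasure P] :
    ∫ z, ∫ θ, F θ z ∂P ∂(gam n) = ∫ θ, ∫ z, F θ z ∂(gam n) ∂P :=
  (integral_integral_swap h.integrable).symm

lemma Gr.cont_int {F : Euc n → Euc n → ℝ} (h : Gr F) {P : Measure (Euc n)} [IsFiniteMeasure P] :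
    Continuous fun z => ∫ θ, F θ z ∂P := by
  obtain ⟨hc, A, c, hb⟩ := h
  have hA : 0 ≤ A := by simpa using (abs_nonneg _).trans (hb 0 0)
  refine continuous_iff_continuousAt.2 fun z₀ => ?_
  refine continuousAt_of_dominated (bound := fun _ => A * exp (|c| * (‖z₀‖ + 1)))
    (Eventually.of_forall fun z => (hc.comp (Continuous.prodMk_left z)).aestronglyMeasurable) ?_
    (integrable_const _)
    (Eventually.of_forall fun θ => (hc.comp (Continuous.prodMk_right θ)).continuousAt)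
  filter_upwards [Metric.ball_mem_nhds z₀ one_pos] with z hz
  refine Eventually.of_forall fun θ => (hb θ z).trans (mul_le_mul_of_nonneg_left (exp_le_exp.2 ?_) hA)
  have h1 : ‖z‖ ≤ ‖z₀‖ + 1 := by
    have := norm_le_norm_add_norm_sub' z z₀
    rw [Metric.mem_ball, dist_eq_norm] at hz
    linarith
  exact (mul_le_mul_of_nonneg_right (le_abs_self c) (norm_nonneg _)).trans
    (mul_le_mul_of_nonneg_left h1 (abs_nonneg c))

/-! ### The channel -/

variable {r B : ℝ} {Δ : Euc n → Euc n} {Δ' : Euc n → Op n}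

/-- Logarithm of the likelihood ratio. -/
noncomputable def lch (r : ℝ) (Δ : Euc n → Euc n) (θ z : Euc n) : ℝ :=
  √r * ⟪Δ θ, z⟫ - r / 2 * ‖Δ θ‖ ^ 2

/-- Gradient in `θ` of `lch`. -/
noncomputable def wgr (r : ℝ) (Δ : Euc n → Euc n) (Δ' : Euc n → Op n) (θ z : Euc n) : Euc n :=
  ContinuousLinearMap.adjoint (Δ' θ) (√r • z - r • Δ θ)

lemma chan_eq (z θ : Euc n) : chan r Δ z θ = exp (lch r Δ θ z) := rfl

lemma lch_bounds (hr : 0 ≤ r) (hΔ : ∀ θ, ‖Δ θ‖ ≤ B) (θ z : Euc n) :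
    -(√r * B * ‖z‖ + r / 2 * B ^ 2) ≤ lch r Δ θ z ∧ lch r Δ θ z ≤ √r * B * ‖z‖ := by
  have h := abs_le.1 ((abs_real_inner_le_norm (Δ θ) z).trans
    (mul_le_mul_of_nonneg_right (hΔ θ) (norm_nonneg _)))
  have h2 : ‖Δ θ‖ ^ 2 ≤ B ^ 2 := pow_le_pow_left₀ (norm_nonneg _) (hΔ θ) 2
  unfold lch
  constructor
  · nlinarith [mul_le_mul_of_nonneg_left h.1 (sqrt_nonneg r), mul_le_mul_of_nonneg_left h2 hr]
  · nlinarith [mul_le_mul_of_nonneg_left h.2 (sqrt_nonneg r), mul_nonneg hr (sq_nonneg ‖Δ θ‖)]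

lemma gr_chan (hc : Continuous Δ) (hr : 0 ≤ r) (hΔ : ∀ θ, ‖Δ θ‖ ≤ B) :
    Gr (fun θ z => chan r Δ z θ) := by
  refine ⟨?_, 1, √r * B, fun θ z => ?_⟩
  · unfold chan; fun_prop
  · dsimp only; rw [one_mul, chan_eq, abs_exp, exp_le_exp]; exact (lch_bounds hr hΔ θ z).2

lemma gr_lch (hc : Continuous Δ) (hr : 0 ≤ r) (hΔ : ∀ θ, ‖Δ θ‖ ≤ B) : Gr (lch r Δ) := by
  refine ⟨?_, √r * B + r / 2 * B ^ 2 + 1, 1, fun θ z => ?_⟩
  · unfold lch; fun_prop
  have hB0 : 0 ≤ B := (norm_nonneg _).trans (hΔ 0)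
  obtain ⟨h1, h2⟩ := lch_bounds hr hΔ θ z
  have he : ‖z‖ + 1 ≤ exp (1 * ‖z‖) := by rw [one_mul]; exact add_one_le_exp _
  have h0 := norm_nonneg z
  refine le_trans ?_ (mul_le_mul_of_nonneg_left he (by positivity))
  have p1 := mul_nonneg (mul_nonneg (sqrt_nonneg r) hB0) h0
  have p2 : 0 ≤ r / 2 * B ^ 2 := by positivity
  rw [abs_le]
  constructor <;> nlinarith [mul_nonneg p2 h0, mul_nonneg (sqrt_nonneg r) hB0]

lemma cont_wgr (hΔ : V1 Δ Δ') : Continuous fun p : Euc n × Euc n => wgr r Δ Δ' p.1 p.2 :=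
  ((ContinuousLinearMap.adjoint.continuous.comp (hΔ.cont'.comp continuous_fst))).clm_apply
    (show Continuous fun p : Euc n × Euc n => √r • p.2 - r • Δ p.1 from
      (continuous_snd.const_smul (√r)).sub ((hΔ.cont.comp continuous_fst).const_smul r))

lemma norm_wgr_le (hr : 0 ≤ r) (hB : ∀ θ, ‖Δ θ‖ ≤ B ∧ frob (Δ' θ) ≤ B) (θ z : Euc n) :
    ‖wgr r Δ Δ' θ z‖ ≤ √B * (√r * ‖z‖ + r * B) := by
  refine (norm_adj_le _ _).trans (mul_le_mul (sqrt_le_sqrt (hB θ).2) ?_ (norm_nonneg _) (sqrt_nonneg _))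
  refine (norm_sub_le _ _).trans ?_
  rw [norm_smul, norm_smul, norm_eq_abs, norm_eq_abs, abs_of_nonneg (sqrt_nonneg r), abs_of_nonneg hr]
  gcongr
  exact (hB θ).1

lemma gr_norm_wgr (hΔ : V1 Δ Δ') (hr : 0 ≤ r) (hB : ∀ θ, ‖Δ θ‖ ≤ B ∧ frob (Δ' θ) ≤ B) :
    Gr (fun θ z => ‖wgr r Δ Δ' θ z‖) := by
  refine ⟨(cont_wgr hΔ).norm, √B * (√r + r * B), 1, fun θ z => ?_⟩
  have hB0 : 0 ≤ B := (norm_nonneg _).trans (hB 0).1
  have h := norm_wgr_le hr hB θ z
  have he : ‖z‖ + 1 ≤ exp (1 * ‖z‖) := by rw [one_mul]; exact add_one_le_exp _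
  rw [abs_norm]
  refine h.trans ?_
  rw [mul_assoc]
  refine mul_le_mul_of_nonneg_left (le_trans ?_ (mul_le_mul_of_nonneg_left he (by positivity))) (sqrt_nonneg _)
  nlinarith [mul_nonneg (mul_nonneg hr hB0) (norm_nonneg z), sqrt_nonneg r]

lemma hasFDerivAt_chan (hΔ : V1 Δ Δ') (z θ : Euc n) :
    HasFDerivAt (chan r Δ z) (innerSL ℝ (chan r Δ z θ • wgr r Δ Δ' θ z)) θ := by
  have h := (((((hΔ.deriv θ).inner ℝ (hasFDerivAt_const z θ)).const_mul (√r)).sub
    ((hΔ.deriv θ).norm_sq.const_mul (r / 2))).exp)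
  refine h.congr_fderiv (ContinuousLinearMap.ext fun v => ?_)
  simp [chan, wgr, fderivInnerCLM_apply, map_sub, real_inner_comm v,
    ContinuousLinearMap.adjoint_inner_right, real_inner_comm (Δ θ)]
  ring

/-- Integrals against the channel are Gaussian integrals around `√r Δ`. -/
lemma chan_shift (hr : 0 ≤ r) (θ : Euc n) (f : Euc n → ℝ) :
    ∫ z, chan r Δ z θ * f z ∂(gam n) = ∫ G, f (G + √r • Δ θ) ∂(gam n) := by
  rw [integral_gam_shift f (√r • Δ θ)]
  refine integral_congr_ae (Eventually.of_forall fun z => ?_)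
  dsimp only
  rw [smul_eq_mul, chan, real_inner_smul_left, norm_smul, norm_eq_abs, mul_pow, sq_abs, sq_sqrt hr]
  ring_nf

lemma chan_int (hr : 0 ≤ r) (θ : Euc n) : ∫ z, chan r Δ z θ ∂(gam n) = 1 := by
  simpa using chan_shift (Δ := Δ) hr θ fun _ => 1

lemma chan_lch (hr : 0 ≤ r) (θ : Euc n) :
    ∫ z, chan r Δ z θ * lch r Δ θ z ∂(gam n) = r / 2 * ‖Δ θ‖ ^ 2 := by
  rw [chan_shift hr θ]
  have e : ∀ G, lch r Δ θ (G + √r • Δ θ) = √r * ⟪Δ θ, G⟫ + r / 2 * ‖Δ θ‖ ^ 2 := fun G => by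
    rw [lch, inner_add_right, real_inner_smul_right, real_inner_self_eq_norm_sq, mul_add, ← mul_assoc,
      mul_self_sqrt hr]
    ring
  simp only [e]
  rw [integral_add ((int_inner _).const_mul _) (integrable_const _), integral_const_mul, gam_inner]
  simp

lemma chan_fis (hr : 0 ≤ r) (θ v : Euc n) (a q : ℝ) :
    ∫ z, chan r Δ z θ * (a + 2 * ⟪v, wgr r Δ Δ' θ z⟫ + q * ‖wgr r Δ Δ' θ z‖ ^ 2) ∂(gam n)
      = a + r * q * frob (Δ' θ) := by
  rw [chan_shift hr θ]
  have e : ∀ G, wgr r Δ Δ' θ (G + √r • Δ θ) = √r • ContinuousLinearMap.adjoint (Δ' θ) G := fun G => by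
    rw [wgr, ← map_smul, smul_add, smul_smul, mul_self_sqrt hr, add_sub_cancel_right]
  simp only [e, real_inner_smul_right, norm_smul, norm_eq_abs, mul_pow, sq_abs, sq_sqrt hr,
    ContinuousLinearMap.adjoint_inner_right]
  have i1 : Integrable (fun G => 2 * (√r * ⟪Δ' θ v, G⟫)) (gam n) := ((int_inner _).const_mul _).const_mul _
  have i2 : Integrable (fun G => q * (r * ‖ContinuousLinearMap.adjoint (Δ' θ) G‖ ^ 2)) (gam n) := by
    simp only [adj_sq]
    exact ((integrable_finsetSum _ fun i _ => int_inner_sq _).const_mul _).const_mul _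
  have i12 : Integrable (fun G => a + 2 * (√r * ⟪Δ' θ v, G⟫)) (gam n) := (integrable_const a).add i1
  rw [integral_add i12 i2, integral_add (integrable_const a) i1,
    integral_const_mul, integral_const_mul, integral_const_mul, integral_const_mul, gam_inner, gam_adj_sq]
  simp
  ring

/-- Fisher information density of `av g · chan`. -/
noncomputable def fun2 (t r : ℝ) (μ : Measure (Euc n)) (g : Euc n → ℝ) (Δ : Euc n → Euc n)
    (Δ' : Euc n → Op n) (θ z : Euc n) : ℝ :=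
  chan r Δ z θ * ((av t μ g θ)⁻¹ * ‖cov t μ g θ‖ ^ 2
    + 2 * ⟪cov t μ g θ, wgr r Δ Δ' θ z⟫ + av t μ g θ * ‖wgr r Δ Δ' θ z‖ ^ 2)

lemma fis_alg (u w : Euc n) {c q : ℝ} (hc : 0 < c) (hq : 0 < q) :
    ‖c • (u + q • w)‖ ^ 2 / (q * c) = c * (q⁻¹ * ‖u‖ ^ 2 + 2 * ⟪u, w⟫ + q * ‖w‖ ^ 2) := by
  rw [norm_smul, mul_pow, norm_eq_abs, sq_abs, norm_add_sq_real, norm_smul, norm_eq_abs, mul_pow,
    sq_abs, real_inner_smul_right]
  field_simp

/-- The standing hypotheses. -/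
structure Ctx (μ : Measure (Euc n)) (R t r B : ℝ) (g : Euc n → ℝ) (g' : Euc n → Euc n)
    (Δ : Euc n → Euc n) (Δ' : Euc n → Op n) : Prop where
  supp : Supp μ R
  rad : 0 ≤ R
  pos : Pos1 g g'
  mass : ∫ x, g x ∂μ = 1
  time : 0 < t
  rate : 0 < r
  v1 : V1 Δ Δ'
  bd : ∀ θ, ‖Δ θ‖ ≤ B ∧ frob (Δ' θ) ≤ B

variable {g : Euc n → ℝ} {g' : Euc n → Euc n}

namespace Ctx

variable (h : Ctx μ R t r B g g' Δ Δ')
include h

omit [IsProbabilityMeasure μ] in
lemma bound_nonneg : 0 ≤ B := (norm_nonneg _).trans (h.bd 0).1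

omit [IsProbabilityMeasure μ] in
lemma nrm : ∀ θ, ‖Δ θ‖ ≤ B := fun θ => (h.bd θ).1

lemma cont_q : Continuous (av t μ g) := continuous_av h.supp h.pos.cont

lemma q_pos (θ : Euc n) : 0 < av t μ g θ := av_pos h.supp h.pos.cont h.pos.pos θ

lemma q_bounds : ∃ a A, 0 < a ∧ ∀ θ, a ≤ av t μ g θ ∧ av t μ g θ ≤ A :=
  av_bounds h.supp h.rad h.pos.cont h.pos.pos

lemma gr_q : Gr (fun θ (_ : Euc n) => av t μ g θ) := by
  obtain ⟨a, A, -, hA⟩ := h.q_bounds
  exact Gr.of_bdd h.cont_q fun θ => by rw [abs_of_pos (h.q_pos θ)]; exact (hA θ).2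

lemma int_q : ∫ θ, av t μ g θ ∂law t μ = 1 := by
  obtain ⟨A, hA0, hA⟩ := exists_bound h.rad h.pos.cont
  simp only [norm_eq_abs] at hA
  rw [← elaw_eq h.supp h.cont_q (fun θ => abs_av_le h.supp hA θ),
    ← pair_fib h.supp h.time.le (H := fun _ y => g y) (h.pos.cont.comp continuous_snd)
      (fun _ y hy => hA y hy) hA0,
    integral_fun_fst, probReal_univ, one_smul, h.mass]

lemma gr_qc : Gr (fun θ z => av t μ g θ * chan r Δ z θ) :=
  h.gr_q.mul (gr_chan h.v1.cont h.rate.le h.nrm)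

lemma cmass_eq (z : Euc n) : cmass r t μ g Δ z = ∫ θ, av t μ g θ * chan r Δ z θ ∂law t μ :=
  h.gr_qc.elaw_eq h.supp z

lemma cont_cmass : Continuous (cmass r t μ g Δ) := by
  rw [funext h.cmass_eq]; exact h.gr_qc.cont_int

lemma cmass_bounds (z : Euc n) :
    exp (-(√r * B * ‖z‖ + r / 2 * B ^ 2)) ≤ cmass r t μ g Δ z ∧ cmass r t μ g Δ z ≤ exp (√r * B * ‖z‖) := by
  have e : ∀ k : ℝ, ∫ θ, av t μ g θ * k ∂law t μ = k := fun k => by
    rw [integral_mul_const, h.int_q, one_mul]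
  have hi := h.gr_q.int_fst (P := law t μ) 0
  have hb : ∀ θ, _ := fun θ => lch_bounds h.rate.le h.nrm θ z
  rw [h.cmass_eq]
  constructor
  · refine (e _).symm.trans_le (integral_mono (hi.mul_const _) (h.gr_qc.int_fst z) fun θ => ?_)
    exact mul_le_mul_of_nonneg_left (by rw [chan_eq, exp_le_exp]; exact (hb θ).1) (h.q_pos θ).le
  · refine (integral_mono (h.gr_qc.int_fst z) (hi.mul_const _) fun θ => ?_).trans_eq (e _)
    exact mul_le_mul_of_nonneg_left (by rw [chan_eq, exp_le_exp]; exact (hb θ).2) (h.q_pos θ).le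

lemma cmass_pos (z : Euc n) : 0 < cmass r t μ g Δ z := (exp_pos _).trans_le (h.cmass_bounds z).1

lemma abs_log_cmass (z : Euc n) :
    |log (cmass r t μ g Δ z)| ≤ r / 2 * B ^ 2 + √r * B * ‖z‖ := by
  obtain ⟨h1, h2⟩ := h.cmass_bounds z
  have h1' := (le_log_iff_exp_le (h.cmass_pos z)).2 h1
  have h2' := (log_le_iff_le_exp (h.cmass_pos z)).2 h2
  have hp : 0 ≤ r / 2 * B ^ 2 := mul_nonneg (by linarith [h.rate]) (sq_nonneg _)
  rw [abs_le]
  constructor <;> linarith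

lemma int_cmass : ∫ z, cmass r t μ g Δ z ∂(gam n) = 1 := by
  simp only [h.cmass_eq]
  rw [h.gr_qc.swap]
  simp only [integral_const_mul, chan_int h.rate.le, mul_one]
  exact h.int_q

lemma gr_qcv (v : Euc n) : Gr (fun θ z => av t μ g θ * chan r Δ z θ * ⟪v, Δ θ⟫) := by
  refine h.gr_qc.mul (Gr.of_bdd (continuous_const.inner h.v1.cont) (B := ‖v‖ * B) fun θ => ?_)
  exact (abs_real_inner_le_norm _ _).trans (mul_le_mul_of_nonneg_left (h.nrm θ) (norm_nonneg _))

lemma inner_cmean (v z : Euc n) : ⟪v, cmean r t μ g Δ z⟫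
    = (cmass r t μ g Δ z)⁻¹ * ∫ θ, av t μ g θ * chan r Δ z θ * ⟪v, Δ θ⟫ ∂law t μ := by
  have e : ∀ a, qexp t μ g (fun θ => chan r Δ z θ * ⟪stdb n a, Δ θ⟫)
      = ∫ θ, av t μ g θ * chan r Δ z θ * ⟪stdb n a, Δ θ⟫ ∂law t μ := fun a => by
    rw [← (h.gr_qcv _).elaw_eq h.supp z]
    simp only [qexp, mul_assoc]
  rw [cmean, real_inner_smul_right, inner_sum]
  simp only [e, real_inner_smul_right, ← integral_mul_const]
  rw [← integral_finsetSum _ fun a _ => ((h.gr_qcv _).int_fst z).mul_const _]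
  congr 1
  refine integral_congr_ae (Eventually.of_forall fun θ => ?_)
  simp only [mul_assoc, ← Finset.mul_sum]
  rw [← (stdb n).sum_inner_mul_inner v (Δ θ)]
  simp only [mul_comm]

lemma norm_cmean_le (z : Euc n) : ‖cmean r t μ g Δ z‖ ≤ B := by
  set m := cmean r t μ g Δ z
  have hM := h.cmass_pos z
  have hsq : ‖m‖ ^ 2 ≤ ‖m‖ * B := by
    rw [← real_inner_self_eq_norm_sq, h.inner_cmean, inv_mul_le_iff₀ hM, mul_comm (cmass r t μ g Δ z),
      h.cmass_eq, ← integral_const_mul]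
    refine integral_mono ((h.gr_qcv _).int_fst z) ((h.gr_qc.int_fst z).const_mul _) fun θ => ?_
    rw [mul_comm (‖m‖ * B)]
    exact mul_le_mul_of_nonneg_left ((real_inner_le_norm _ _).trans
      (mul_le_mul_of_nonneg_left (h.nrm θ) (norm_nonneg _))) (mul_nonneg (h.q_pos θ).le (exp_pos _).le)
  rcases eq_or_lt_of_le (norm_nonneg m) with h0 | h0
  · rw [← h0]; exact h.bound_nonneg
  · nlinarith

lemma cont_cmean : Continuous (cmean r t μ g Δ) := by
  have hi := h.cont_cmass.inv₀ fun z => (h.cmass_pos z).ne'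
  have e : cmean r t μ g Δ = fun z => ∑ a, ((cmass r t μ g Δ z)⁻¹
      * ∫ θ, av t μ g θ * chan r Δ z θ * ⟪stdb n a, Δ θ⟫ ∂law t μ) • stdb n a := funext fun z => by
    conv_lhs => rw [← (stdb n).sum_repr' (cmean r t μ g Δ z)]
    simp only [h.inner_cmean]
  rw [e]
  exact continuous_finsetSum _ fun a _ => (hi.mul (h.gr_qcv _).cont_int).smul continuous_const

/-- Quadratic upper bound on the logarithm of the output density. -/
lemma log_cmass_taylor (z k : Euc n) : log (cmass r t μ g Δ (z + k)) ≤ log (cmass r t μ g Δ z)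
    + ⟪√r • cmean r t μ g Δ z, k⟫ + 4 * r * B ^ 2 * ‖k‖ ^ 2 := by
  set M := cmass r t μ g Δ z with hM
  set m := √r * ⟪k, cmean r t μ g Δ z⟫ with hm
  have hMp := h.cmass_pos z
  have hk : ∀ v, ‖v‖ ≤ B → |√r * ⟪k, v⟫| ≤ √r * B * ‖k‖ := fun v hv => by
    rw [abs_mul, abs_of_nonneg (sqrt_nonneg r), mul_assoc, mul_comm B]
    exact mul_le_mul_of_nonneg_left ((abs_real_inner_le_norm _ _).trans
      (mul_le_mul_of_nonneg_left hv (norm_nonneg _))) (sqrt_nonneg r)
  set E := exp (4 * r * B ^ 2 * ‖k‖ ^ 2) with hE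
  have hpt : ∀ θ, av t μ g θ * chan r Δ (z + k) θ
      ≤ exp m * (√r * (av t μ g θ * chan r Δ z θ * ⟪k, Δ θ⟫) + (E - m) * (av t μ g θ * chan r Δ z θ)) := by
    intro θ
    have hy : exp (√r * ⟪k, Δ θ⟫ - m) ≤ √r * ⟪k, Δ θ⟫ - m + E := by
      refine (exp_le_add_exp_sq _).trans ?_
      gcongr
      have h1 : |√r * ⟪k, Δ θ⟫ - m| ≤ 2 * (√r * B * ‖k‖) :=
        (abs_sub _ _).trans (by linarith [hk _ (h.nrm θ), hk _ (h.norm_cmean_le z)])
      rw [hE, exp_le_exp, ← sq_abs]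
      refine (pow_le_pow_left₀ (abs_nonneg _) h1 2).trans_eq ?_
      simp only [mul_pow, sq_sqrt h.rate.le]; ring
    have e : chan r Δ (z + k) θ = chan r Δ z θ * (exp m * exp (√r * ⟪k, Δ θ⟫ - m)) := by
      rw [chan, chan, ← exp_add, ← exp_add, inner_add_right, real_inner_comm k]; ring_nf
    have hp : 0 ≤ av t μ g θ * chan r Δ z θ * exp m :=
      mul_nonneg (mul_nonneg (h.q_pos θ).le (exp_pos _).le) (exp_pos _).le
    rw [e]
    linarith [mul_le_mul_of_nonneg_left hy hp]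
  have i1 := (h.gr_qcv k).int_fst (P := law t μ) z
  have i2 := h.gr_qc.int_fst (P := law t μ) z
  have hle : cmass r t μ g Δ (z + k) ≤ exp m * (E * M) := by
    rw [h.cmass_eq]
    refine (integral_mono (h.gr_qc.int_fst _) (((i1.const_mul _).add (i2.const_mul _)).const_mul _) hpt).trans_eq ?_
    simp only [Pi.add_apply]
    rw [integral_const_mul, integral_add (i1.const_mul _) (i2.const_mul _), integral_const_mul,
      integral_const_mul, ← h.cmass_eq z]
    have hj : √r * ∫ θ, av t μ g θ * chan r Δ z θ * ⟪k, Δ θ⟫ ∂law t μ = m * M := by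
      have hMne : M ≠ 0 := hMp.ne'
      rw [hm, h.inner_cmean, ← hM]; field_simp [hMne]
    rw [hj]; ring
  have hl := log_le_log (h.cmass_pos (z + k)) hle
  rw [log_mul (exp_pos _).ne' (mul_pos (exp_pos _) hMp).ne', log_mul (exp_pos _).ne' hMp.ne',
    log_exp, log_exp] at hl
  rw [real_inner_smul_left, real_inner_comm]
  linarith

/-- The Gaussian inequality applied to the output density. -/
lemma out_lsi : ∫ z, cmass r t μ g Δ z * log (cmass r t μ g Δ z) ∂(gam n) ≤ r / 2 * cw2 r t μ g Δ := by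
  have := h.rate
  have hB0 := h.bound_nonneg
  have hl := ent_exp_le_slc one_pos isLC_gam expInt_gam (fun z => log (cmass r t μ g Δ z))
    (fun z => √r • cmean r t μ g Δ z) (A := r / 2 * B ^ 2) (G := √r * B) (M := 4 * r * B ^ 2)
    (h.cont_cmass.log fun z => (h.cmass_pos z).ne') (h.cont_cmean.const_smul (√r))
    (fun z => by
      rw [norm_smul, norm_eq_abs, abs_of_nonneg (sqrt_nonneg r)]
      exact mul_le_mul_of_nonneg_left (h.norm_cmean_le z) (sqrt_nonneg r))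
    h.abs_log_cmass (by positivity) h.log_cmass_taylor
  simp only [ent, exp_log (h.cmass_pos _), h.int_cmass, log_one, mul_zero, sub_zero] at hl
  refine hl.trans_eq ?_
  rw [cw2, ← integral_const_mul, ← integral_const_mul]
  refine integral_congr_ae (Eventually.of_forall fun z => ?_)
  simp only [norm_smul, norm_eq_abs, mul_pow, sq_abs, sq_sqrt h.rate.le]
  ring

lemma gr_ent : Gr (fun θ z => av t μ g θ * log (av t μ g θ) * chan r Δ z θ
    + av t μ g θ * (chan r Δ z θ * lch r Δ θ z)) := by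
  obtain ⟨a, A, -, hA⟩ := h.q_bounds
  obtain ⟨C, hC⟩ := (isCompact_Icc (a := (0 : ℝ)) (b := A)).exists_bound_of_continuousOn
    Real.continuous_mul_log.continuousOn
  simp only [norm_eq_abs] at hC
  exact ((Gr.of_bdd (Real.continuous_mul_log.comp h.cont_q)
      fun θ => hC _ ⟨(h.q_pos θ).le, (hA θ).2⟩).mul (gr_chan h.v1.cont h.rate.le h.nrm)).add
    (h.gr_q.mul ((gr_chan h.v1.cont h.rate.le h.nrm).mul (gr_lch h.v1.cont h.rate.le h.nrm)))

lemma eent_eq (z : Euc n) : eent t μ (fun θ => av t μ g θ * chan r Δ z θ)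
    = (∫ θ, av t μ g θ * log (av t μ g θ) * chan r Δ z θ
        + av t μ g θ * (chan r Δ z θ * lch r Δ θ z) ∂law t μ)
      - cmass r t μ g Δ z * log (cmass r t μ g Δ z) := by
  rw [← h.gr_ent.elaw_eq h.supp z, eent]
  congr 2
  funext θ
  rw [chan_eq, log_mul (h.q_pos θ).ne' (exp_pos _).ne', log_exp]
  ring

lemma int_mlm : Integrable (fun z => cmass r t μ g Δ z * log (cmass r t μ g Δ z)) (gam n) := by
  refine expInt_gam.of_growth (h.cont_cmass.mul (h.cont_cmass.log fun z => (h.cmass_pos z).ne'))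
    (A := exp (r / 2 * B ^ 2)) (c := √r * B + √r * B) fun z => ?_
  rw [norm_eq_abs, abs_mul, abs_of_pos (h.cmass_pos z), ← exp_add]
  have h1 := (h.abs_log_cmass z).trans (by linarith [add_one_le_exp (r / 2 * B ^ 2 + √r * B * ‖z‖)] :
    r / 2 * B ^ 2 + √r * B * ‖z‖ ≤ exp (r / 2 * B ^ 2 + √r * B * ‖z‖))
  refine (mul_le_mul (h.cmass_bounds z).2 h1 (abs_nonneg _) (exp_pos _).le).trans (le_of_eq ?_)
  rw [← exp_add]; ring_nf

/-- Lower bound on the entropy of the joint law. -/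
lemma cent_ge : qexp t μ g (fun θ => ‖Δ θ‖ ^ 2) - cw2 r t μ g Δ ≤ 2 / r * cent r t μ g Δ := by
  have hr := h.rate
  obtain ⟨a, A, -, hA⟩ := h.q_bounds
  obtain ⟨C, hC⟩ := (isCompact_Icc (a := (0 : ℝ)) (b := A)).exists_bound_of_continuousOn
    Real.continuous_mul_log.continuousOn
  simp only [norm_eq_abs] at hC
  have iq : Integrable (fun θ => av t μ g θ * log (av t μ g θ)) (law t μ) :=
    Integrable.of_bound (Real.continuous_mul_log.comp h.cont_q).aestronglyMeasurable C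
      (Eventually.of_forall fun θ => hC _ ⟨(h.q_pos θ).le, (hA θ).2⟩)
  have gΔ : Gr (fun θ (_ : Euc n) => av t μ g θ * ‖Δ θ‖ ^ 2) :=
    h.gr_q.mul (Gr.of_bdd (h.v1.cont.norm.pow 2) (B := B ^ 2) fun θ => by
      rw [abs_pow, abs_norm]; exact pow_le_pow_left₀ (norm_nonneg _) (h.nrm θ) 2)
  have hQ : qexp t μ g (fun θ => ‖Δ θ‖ ^ 2) = ∫ θ, av t μ g θ * ‖Δ θ‖ ^ 2 ∂law t μ :=
    gΔ.elaw_eq h.supp 0
  have hc : cent r t μ g Δ = (∫ θ, av t μ g θ * log (av t μ g θ) ∂law t μ)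
      + r / 2 * qexp t μ g (fun θ => ‖Δ θ‖ ^ 2)
      - ∫ z, cmass r t μ g Δ z * log (cmass r t μ g Δ z) ∂(gam n) := by
    simp only [cent, h.eent_eq]
    have ie : Integrable (fun z => ∫ θ, av t μ g θ * log (av t μ g θ) * chan r Δ z θ
        + av t μ g θ * (chan r Δ z θ * lch r Δ θ z) ∂law t μ) (gam n) :=
      h.gr_ent.integrable.integral_prod_right
    rw [integral_sub ie h.int_mlm, h.gr_ent.swap]
    congr 1
    rw [hQ, ← integral_const_mul, ← integral_add iq (((gΔ.int_fst 0)).const_mul _)]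
    refine integral_congr_ae (Eventually.of_forall fun θ => ?_)
    have i1 := (gr_chan h.v1.cont h.rate.le h.nrm).int_snd θ
    have i2 := ((gr_chan h.v1.cont h.rate.le h.nrm).mul (gr_lch h.v1.cont h.rate.le h.nrm)).int_snd θ
    simp only
    rw [integral_add (i1.const_mul _) (i2.const_mul _), integral_const_mul, integral_const_mul,
      chan_int h.rate.le, chan_lch h.rate.le]
    ring
  have hD : 0 ≤ ∫ θ, av t μ g θ * log (av t μ g θ) ∂law t μ := by
    have hi : Integrable (fun θ => av t μ g θ - 1) (law t μ) :=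
      (h.gr_q.int_fst 0).sub (integrable_const _)
    refine le_trans (le_of_eq ?_) (integral_mono hi iq fun θ => ?_)
    · rw [integral_sub (h.gr_q.int_fst 0) (integrable_const _), h.int_q]; simp
    · have := mul_log_sub_ge (av t μ g θ) (h.q_pos θ).le one_pos
      rw [log_one, mul_zero, sub_zero] at this
      linarith
  rw [div_mul_eq_mul_div, le_div_iff₀ hr]
  linarith [h.out_lsi, hc]

/-- Growth of the Fisher information density. -/
lemma gr_fis : Gr (fun2 t r μ g Δ Δ') := by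
  obtain ⟨a, A, ha, hA⟩ := h.q_bounds
  obtain ⟨C, hC0, hC⟩ := exists_bound h.rad h.pos.cont
  simp only [norm_eq_abs] at hC
  have hcov : ∀ θ, ‖cov t μ g θ‖ ≤ 2 * C * R := norm_cov_le h.supp h.rad hC
  have cc := continuous_cov (T := t) h.supp h.pos.cont
  have g1 : Gr (fun θ (_ : Euc n) => (av t μ g θ)⁻¹ * ‖cov t μ g θ‖ ^ 2) :=
    Gr.of_bdd ((h.cont_q.inv₀ fun θ => (h.q_pos θ).ne').mul (cc.norm.pow 2)) (B := a⁻¹ * (2 * C * R) ^ 2)
      fun θ => by
        rw [abs_mul, abs_inv, abs_of_pos (h.q_pos θ), abs_pow, abs_norm]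
        exact mul_le_mul (inv_anti₀ ha (hA θ).1) (pow_le_pow_left₀ (norm_nonneg _) (hcov θ) 2)
          (sq_nonneg _) (inv_nonneg.2 ha.le)
  have gw := gr_norm_wgr h.v1 h.rate.le h.bd
  have g2 : Gr (fun θ z => 2 * ⟪cov t μ g θ, wgr r Δ Δ' θ z⟫) := by
    obtain ⟨-, A', c', hb⟩ := gw
    refine ⟨continuous_const.mul ((cc.comp continuous_fst).inner (cont_wgr h.v1)),
      2 * (2 * C * R) * A', c', fun θ z => ?_⟩
    have h1 := hb θ z
    rw [abs_norm] at h1
    rw [abs_mul, abs_two, mul_assoc 2, mul_assoc 2, mul_assoc (2 * C * R)]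
    refine mul_le_mul_of_nonneg_left ((abs_real_inner_le_norm _ _).trans ?_) zero_le_two
    exact mul_le_mul (hcov θ) h1 (norm_nonneg _) ((norm_nonneg _).trans (hcov θ))
  unfold fun2
  simp only [sq ‖wgr r Δ Δ' _ _‖]
  exact (gr_chan h.v1.cont h.rate.le h.nrm).mul ((g1.add g2).add (h.gr_q.mul (gw.mul gw)))

lemma norm_cov_bd : ∃ C, ∀ θ, ‖cov t μ g θ‖ ≤ C := by
  obtain ⟨C, -, hC⟩ := exists_bound h.rad h.pos.cont
  simp only [norm_eq_abs] at hC
  exact ⟨2 * C * R, norm_cov_le h.supp h.rad hC⟩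

lemma pos1_qc (z : Euc n) : Pos1 (fun θ => av t μ g θ * chan r Δ z θ)
    (fun θ => chan r Δ z θ • (cov t μ g θ + av t μ g θ • wgr r Δ Δ' θ z)) := by
  have cw : Continuous fun θ => wgr r Δ Δ' θ z :=
    Continuous.comp (g := fun p : Euc n × Euc n => wgr r Δ Δ' p.1 p.2) (f := fun θ => (θ, z))
      (cont_wgr h.v1) (continuous_id.prodMk continuous_const)
  have cch : Continuous (chan r Δ z) := by
    have := h.v1.cont
    unfold chan; fun_prop
  refine ⟨fun θ => mul_pos (h.q_pos θ) (exp_pos _), fun θ => ?_,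
    cch.smul ((continuous_cov (T := t) h.supp h.pos.cont).add (h.cont_q.smul cw))⟩
  refine ((hasFDerivAt_av (T := t) h.supp h.pos.cont θ).mul (hasFDerivAt_chan h.v1 z θ)).congr_fderiv ?_
  ext v
  simp
  ring

/-- The inequality in the parameter for one output. -/
lemma eent_le (hP : PtLsiStmt) (hμ : IsLC 0 μ) {K : ℝ} (hK : 0 < K) (hF : Fisi μ K) (z : Euc n) :
    eent t μ (fun θ => av t μ g θ * chan r Δ z θ) ≤ Kt K t * ∫ θ, fun2 t r μ g Δ Δ' θ z ∂law t μ := by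
  obtain ⟨a, A, ha, hA⟩ := h.q_bounds
  obtain ⟨C, hC⟩ := h.norm_cov_bd
  set e := √r * B * ‖z‖
  set W := √B * (√r * ‖z‖ + r * B)
  have hb : ∀ θ, a * exp (-(e + r / 2 * B ^ 2)) ≤ av t μ g θ * chan r Δ z θ ∧
      av t μ g θ * chan r Δ z θ ≤ max (A * exp e) (exp e * (C + A * W)) ∧
      ‖chan r Δ z θ • (cov t μ g θ + av t μ g θ • wgr r Δ Δ' θ z)‖ ≤ max (A * exp e) (exp e * (C + A * W)) :=
    fun θ => by
    obtain ⟨l1, l2⟩ := lch_bounds h.rate.le h.nrm θ z
    have c2 : chan r Δ z θ ≤ exp e := exp_le_exp.2 l2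
    refine ⟨mul_le_mul (hA θ).1 (exp_le_exp.2 l1) (exp_pos _).le (h.q_pos θ).le,
      le_max_of_le_left (mul_le_mul (hA θ).2 c2 (exp_pos _).le ((h.q_pos θ).le.trans (hA θ).2)),
      le_max_of_le_right ?_⟩
    rw [norm_smul, norm_eq_abs, abs_of_pos (show 0 < chan r Δ z θ from exp_pos _)]
    refine mul_le_mul c2 ((norm_add_le _ _).trans (add_le_add (hC θ) ?_)) (norm_nonneg _) (exp_pos _).le
    rw [norm_smul, norm_eq_abs, abs_of_pos (h.q_pos θ)]
    exact mul_le_mul (hA θ).2 (norm_wgr_le h.rate.le h.bd θ z) (norm_nonneg _) ((h.q_pos θ).le.trans (hA θ).2)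
  refine (hP n μ inferInstance R h.rad h.supp hμ K hK hF t h.time _ _ (h.pos1_qc z) _ _
    (mul_pos ha (exp_pos _)) hb).trans_eq ?_
  rw [← h.gr_fis.elaw_eq h.supp z]
  congr 2
  funext θ
  exact fis_alg _ _ (exp_pos _) (h.q_pos θ)

/-- Upper bound on the entropy of the joint law. -/
lemma cent_le (hP : PtLsiStmt) (hμ : IsLC 0 μ) {K : ℝ} (hK : 0 < K) (hF : Fisi μ K) :
    cent r t μ g Δ ≤ Kt K t * (info t μ g + r * qexp t μ g (fun θ => frob (Δ' θ))) := by
  obtain ⟨a, A, ha, hA⟩ := h.q_bounds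
  obtain ⟨C, hC⟩ := h.norm_cov_bd
  have cc := continuous_cov (T := t) h.supp h.pos.cont
  have ie : Integrable (fun z => eent t μ (fun θ => av t μ g θ * chan r Δ z θ)) (gam n) := by
    simp only [h.eent_eq]; exact h.gr_ent.integrable.integral_prod_right.sub h.int_mlm
  have iF : Integrable (fun z => ∫ θ, fun2 t r μ g Δ Δ' θ z ∂law t μ) (gam n) :=
    h.gr_fis.integrable.integral_prod_right
  refine (integral_mono ie (iF.const_mul _) (h.eent_le hP hμ hK hF)).trans_eq ?_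
  rw [integral_const_mul, h.gr_fis.swap]
  congr 1
  simp only [fun2, chan_fis h.rate.le]
  have g1 : Gr (fun θ (_ : Euc n) => (av t μ g θ)⁻¹ * ‖cov t μ g θ‖ ^ 2) :=
    Gr.of_bdd ((h.cont_q.inv₀ fun θ => (h.q_pos θ).ne').mul (cc.norm.pow 2)) (B := a⁻¹ * C ^ 2)
      fun θ => by
        rw [abs_mul, abs_inv, abs_of_pos (h.q_pos θ), abs_pow, abs_norm]
        exact mul_le_mul (inv_anti₀ ha (hA θ).1) (pow_le_pow_left₀ (norm_nonneg _) (hC θ) 2)
          (sq_nonneg _) (inv_nonneg.2 ha.le)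
  have g3 : Gr (fun θ (_ : Euc n) => av t μ g θ * frob (Δ' θ)) :=
    h.gr_q.mul (Gr.of_bdd (f := fun θ => frob (Δ' θ)) (continuous_frob.comp h.v1.cont') (B := B) fun θ => by
      rw [abs_of_nonneg (frob_nonneg _)]; exact (h.bd θ).2)
  have e1 : info t μ g = ∫ θ, (av t μ g θ)⁻¹ * ‖cov t μ g θ‖ ^ 2 ∂law t μ := by
    rw [← g1.elaw_eq h.supp 0, info, qexp]
    congr 1
    funext θ
    have hq := (h.q_pos θ).ne'
    simp only [dd, norm_smul, norm_eq_abs, mul_pow, sq_abs]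
    field_simp
  have e3 : qexp t μ g (fun θ => frob (Δ' θ)) = ∫ θ, av t μ g θ * frob (Δ' θ) ∂law t μ :=
    g3.elaw_eq h.supp 0
  simp only [mul_assoc r]
  rw [integral_add (g1.int_fst 0) ((g3.int_fst 0).const_mul r), integral_const_mul, e1, e3]

end Ctx

end Vale.Agent.P245N.Chan

namespace Vale.Agent.P245N

open Vale.Agent.P245 MeasureTheory

/-- Logarithmic Sobolev inequalities applied to the Gaussian channel. -/
theorem channel (hP : PtLsiStmt) : ChannelStmt := fun n μ hμp R hR hS hμ K hK hF g g' hg hm t r ht hr Δ Δ' hΔ B hB => by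
  have h : Chan.Ctx μ R t r B g g' Δ Δ' := ⟨hS, hR, hg, hm, ht, hr, hΔ, hB⟩
  exact ⟨h.cent_le hP hμ hK hF, h.cent_ge⟩

end Vale.Agent.P245N
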