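import Vale.Agent.P245N.Assembly

/-! Iterating the halving step down from the bound `C n^(1/4)`. -/

open MeasureTheory Real Filter Set
open scoped Topology RealInnerProductSpace

namespace Vale.Agent.P245N

open Vale.Agent.P245

theorem coreEps (hHL : HopfLaxStmt) (hTi : TightenStmt) (hTail : TailStmt) (hPM : PoinMainStmt) (hQV : QVarStmt)
    (hInfo : InfoStmt) (hPig : PigeonStmt) (hCut : CutStmt) (hRes : ResStmt) (hGrad : GradStmt) (hCount : CountStmt)
    (hChan : ChannelStmt) (hPair : PairingStmt) : CoreEpsStmt := by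
  intro ε hε _
  obtain ⟨Cq, hCq, hq⟩ := fisi_quarter
  refine ⟨1, one_pos, ?_⟩
  filter_upwards [halve hHL hTi hTail hPM hQV hInfo hPig hCut hRes hGrad hCount hChan hPair hε, hq,
    eventually_ge_atTop 1] with n hstep hquart hn μ R hprob hset
  have hnε : 0 < (n : ℝ) ^ ε := rpow_pos_of_pos (by exact_mod_cast hn) ε
  set K₀ := Cq * (n : ℝ) ^ (1 / 4 : ℝ) with hK₀
  have key : ∀ j : ℕ, Fisi μ (max ((n : ℝ) ^ ε) (K₀ / 2 ^ j)) := fun j => by
    induction j with
    | zero => exact fisi_mono (hquart μ R hprob hset) (by simp [hK₀])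
    | succ j ih =>
      refine fisi_mono (hstep μ R hprob hset _ (le_max_left _ _) ih) ?_
      rw [div_le_iff₀ two_pos]
      refine max_le ?_ ?_
      · linarith [le_max_left ((n : ℝ) ^ ε) (K₀ / 2 ^ (j + 1))]
      · have e : K₀ / 2 ^ j = K₀ / 2 ^ (j + 1) * 2 := by rw [pow_succ]; field_simp
        rw [e]
        exact mul_le_mul_of_nonneg_right (le_max_right _ _) two_pos.le
  obtain ⟨j, hj⟩ := pow_unbounded_of_one_lt (K₀ / (n : ℝ) ^ ε) (one_lt_two (α := ℝ))
  refine fisi_mono (key j) (le_of_eq ?_)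
  rw [one_mul, max_eq_left]
  rw [div_lt_iff₀ hnε] at hj
  rw [div_le_iff₀ (by positivity)]
  linarith

end Vale.Agent.P245N
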