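import Vale.Agent.P245.Concord

open MeasureTheory Real Filter Set
open scoped Topology RealInnerProductSpace

namespace Vale.Agent.P245

variable {n : ℕ}

/-- A function of a symmetric operator. -/
noncomputable def fop (f : ℝ → ℝ) (M : Op n) : Op n :=
  open scoped Classical in
  if h : SymOp M then
    ∑ i, f (h.exists_eigen.choose_spec.choose i) •
      (innerSL ℝ (h.exists_eigen.choose i)).smulRight (h.exists_eigen.choose i)
  else 0

/-- The trace of a function of a symmetric operator. -/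
noncomputable def trf (f : ℝ → ℝ) (M : Op n) : ℝ := ∑ a, ⟪stdb n a, fop f M (stdb n a)⟫

section

variable {M N : Op n} {b c : OrthonormalBasis (Fin n) ℝ (Euc n)} {l k : Fin n → ℝ} {f : ℝ → ℝ}

lemma cross_eigen (hN : SymOp N) (hl : ∀ i, M (b i) = l i • b i) (hk : ∀ j, N (c j) = k j • c j) (i j : Fin n) :
    ⟪c j, (N - M) (b i)⟫ = (k j - l i) * ⟪c j, b i⟫ := by
  rw [sub_apply, inner_sub_right, ← hN, hk, hl, real_inner_smul_left, inner_smul_right]
  ring

lemma eigen_agree (hM : SymOp M) (hl : ∀ i, M (b i) = l i • b i) (hk : ∀ j, M (c j) = k j • c j) (i j : Fin n)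
    (h : ⟪c j, b i⟫ ≠ 0) : k j = l i := by
  have e := cross_eigen hM hl hk i j
  rw [sub_self, zero_apply, inner_zero_right, eq_comm, mul_eq_zero] at e
  exact sub_eq_zero.1 (e.resolve_right h)

lemma fop_apply_eigen (hM : SymOp M) (hl : ∀ i, M (b i) = l i • b i) (i : Fin n) :
    fop f M (b i) = f (l i) • b i := by
  rw [fop, dif_pos hM]
  set c := hM.exists_eigen.choose with hc
  set k := hM.exists_eigen.choose_spec.choose with hk'
  have hk : ∀ j, M (c j) = k j • c j := hM.exists_eigen.choose_spec.choose_spec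
  conv_rhs => rw [← c.sum_repr' (b i), Finset.smul_sum]
  simp only [sum_apply, smul_apply, ContinuousLinearMap.smulRight_apply, innerSL_apply_apply]
  refine Finset.sum_congr rfl fun j _ => ?_
  by_cases h : ⟪c j, b i⟫ = 0
  · rw [h, zero_smul, smul_zero, smul_zero]
  · rw [eigen_agree hM hl hk i j h]

lemma symOp_of_eigen {T : Op n} (h : ∀ i, T (b i) = l i • b i) : SymOp T := fun u v => by
  have key : ∀ x y : Euc n, ⟪T x, y⟫ = ∑ i, l i * (⟪b i, x⟫ * ⟪b i, y⟫) := fun x y => by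
    conv_lhs => rw [← b.sum_repr' x]
    simp only [map_sum, map_smul, h, sum_inner, real_inner_smul_left]
    exact Finset.sum_congr rfl fun i _ => by ring
  rw [key, real_inner_comm (T v) u, key]
  exact Finset.sum_congr rfl fun i _ => by ring

lemma symOp_fop (hM : SymOp M) : SymOp (fop f M) := by
  obtain ⟨b, l, hl⟩ := hM.exists_eigen
  exact symOp_of_eigen fun i => fop_apply_eigen hM hl i

lemma trf_eq (hM : SymOp M) (hl : ∀ i, M (b i) = l i • b i) : trf f M = ∑ i, f (l i) := by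
  have h := hs_basis (1 : Op n) (fop f M) b
  simp only [one_apply_eq_self] at h
  rw [trf, h]
  refine Finset.sum_congr rfl fun i _ => ?_
  rw [fop_apply_eigen hM hl, inner_smul_right, real_inner_self_eq_norm_sq, b.orthonormal.1 i]; simp

lemma frob_sub_eigen (hN : SymOp N) (hl : ∀ i, M (b i) = l i • b i) (hk : ∀ j, N (c j) = k j • c j) :
    frob (N - M) = ∑ i, ∑ j, (k j - l i) ^ 2 * ⟪c j, b i⟫ ^ 2 := by
  rw [frob_basis _ b]
  refine Finset.sum_congr rfl fun i _ => ?_
  rw [norm_sq_eq_sum c]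
  exact Finset.sum_congr rfl fun j _ => by rw [cross_eigen hN hl hk, mul_pow]

/-- A Lipschitz function of a symmetric operator is Lipschitz for the Hilbert-Schmidt norm. -/
lemma frob_fop_sub (hM : SymOp M) (hN : SymOp N) {L : ℝ} (hL : ∀ x y, |f y - f x| ≤ L * |y - x|) :
    frob (fop f N - fop f M) ≤ L ^ 2 * frob (N - M) := by
  obtain ⟨b, l, hl⟩ := hM.exists_eigen
  obtain ⟨c, k, hk⟩ := hN.exists_eigen
  rw [frob_sub_eigen hN hl hk, frob_sub_eigen (symOp_fop hN) (fun i => fop_apply_eigen hM hl i)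
    (fun j => fop_apply_eigen hN hk j), Finset.mul_sum]
  refine Finset.sum_le_sum fun i _ => ?_
  rw [Finset.mul_sum]
  refine Finset.sum_le_sum fun j _ => ?_
  rw [← mul_assoc]
  refine mul_le_mul_of_nonneg_right ?_ (sq_nonneg _)
  have := pow_le_pow_left₀ (abs_nonneg _) (hL (l i) (k j)) 2
  rwa [sq_abs, mul_pow, sq_abs] at this

/-- Second order Taylor bound for the trace of a function of a symmetric operator. -/
lemma trf_taylor (hM : SymOp M) (hN : SymOp N) (hl : ∀ i, M (b i) = l i • b i) {f' : ℝ → ℝ} {L : ℝ}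
    (hf : ∀ x y, |f y - f x - f' x * (y - x)| ≤ L * (y - x) ^ 2) :
    |trf f N - trf f M - ∑ i, f' (l i) * (⟪b i, N (b i)⟫ - l i)| ≤ L * frob (N - M) := by
  obtain ⟨c, k, hk⟩ := hN.exists_eigen
  have hb1 : ∀ i, ∑ j, ⟪c j, b i⟫ ^ 2 = 1 := fun i => by rw [← norm_sq_eq_sum c, b.orthonormal.1 i, one_pow]
  have hc1 : ∀ j, ∑ i, ⟪c j, b i⟫ ^ 2 = 1 := fun j => by
    simp only [real_inner_comm (b _) (c j)]
    rw [← norm_sq_eq_sum b, c.orthonormal.1 j, one_pow]
  have e : trf f N - trf f M - ∑ i, f' (l i) * (⟪b i, N (b i)⟫ - l i)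
      = ∑ i, ∑ j, (f (k j) - f (l i) - f' (l i) * (k j - l i)) * ⟪c j, b i⟫ ^ 2 := by
    have e1 : trf f N = ∑ i, ∑ j, f (k j) * ⟪c j, b i⟫ ^ 2 := by
      rw [trf_eq hN hk, Finset.sum_comm]
      exact Finset.sum_congr rfl fun j _ => by rw [← Finset.mul_sum, hc1, mul_one]
    have e2 : trf f M = ∑ i, ∑ j, f (l i) * ⟪c j, b i⟫ ^ 2 := by
      rw [trf_eq hM hl]
      exact Finset.sum_congr rfl fun i _ => by rw [← Finset.mul_sum, hb1, mul_one]
    have e3 : ∀ i, ⟪b i, N (b i)⟫ - l i = ∑ j, (k j - l i) * ⟪c j, b i⟫ ^ 2 := fun i => by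
      simp only [sub_mul, Finset.sum_sub_distrib]
      rw [← Finset.mul_sum, hb1, mul_one, quad_eigen hk]
    rw [e1, e2]
    simp only [e3, Finset.mul_sum]
    rw [← Finset.sum_sub_distrib, ← Finset.sum_sub_distrib]
    refine Finset.sum_congr rfl fun i _ => ?_
    rw [← Finset.sum_sub_distrib, ← Finset.sum_sub_distrib]
    exact Finset.sum_congr rfl fun j _ => by ring
  rw [e, frob_sub_eigen hN hl hk, Finset.mul_sum]
  refine (Finset.abs_sum_le_sum_abs _ _).trans (Finset.sum_le_sum fun i _ => ?_)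
  rw [Finset.mul_sum]
  refine (Finset.abs_sum_le_sum_abs _ _).trans (Finset.sum_le_sum fun j _ => ?_)
  rw [abs_mul, abs_of_nonneg (sq_nonneg ⟪c j, b i⟫), ← mul_assoc]
  exact mul_le_mul_of_nonneg_right (hf _ _) (sq_nonneg _)

end

/-! The logarithmic cut-off above a level. -/

/-- The profile `log (1 + (x - 1)₊²)²`. -/
noncomputable def cutF (x : ℝ) : ℝ := log (1 + max 0 (x - 1) ^ 2) ^ 2

/-- Derivative of `cutF`. -/
noncomputable def cutD (x : ℝ) : ℝ :=
  4 * log (1 + max 0 (x - 1) ^ 2) * (max 0 (x - 1) / (1 + max 0 (x - 1) ^ 2))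

lemma cutF_nonneg (x : ℝ) : 0 ≤ cutF x := sq_nonneg _

lemma cutF_eq_zero {x : ℝ} (h : x ≤ 1) : cutF x = 0 := by
  rw [cutF, max_eq_left (by linarith)]; simp

lemma cutD_eq_zero {x : ℝ} (h : x ≤ 1) : cutD x = 0 := by
  rw [cutD, max_eq_left (by linarith)]; simp

lemma hasDerivAt_cutF (x : ℝ) : HasDerivAt cutF (cutD x) x := by
  have hW : ∀ u : ℝ, HasDerivAt (fun u : ℝ => log (1 + u ^ 2) ^ 2) (4 * log (1 + u ^ 2) * (u / (1 + u ^ 2))) u :=
    fun u => by
    have h := ((((hasDerivAt_id u).pow 2).const_add 1).log (by simp only [Pi.pow_apply, id_eq]; positivity)).fun_pow 2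
    convert! h using 1
    simp; ring
  have hmax : ∀ u : ℝ, HasDerivAt (fun u : ℝ => log (1 + max 0 u ^ 2) ^ 2)
      (4 * log (1 + max 0 u ^ 2) * (max 0 u / (1 + max 0 u ^ 2))) u := fun u => by
    rcases lt_trichotomy u 0 with hu | hu | hu
    · rw [max_eq_left hu.le]
      have : (fun u : ℝ => log (1 + max 0 u ^ 2) ^ 2) =ᶠ[𝓝 u] fun _ => (0 : ℝ) :=
        Filter.eventually_of_mem (Iio_mem_nhds hu) fun y hy => by
          show log (1 + max 0 y ^ 2) ^ 2 = 0
          rw [max_eq_left (le_of_lt hy)]; simp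
      simpa using (hasDerivAt_const u (0 : ℝ)).congr_of_eventuallyEq this
    · subst hu
      have h0 := hW 0
      simp only [max_self]
      rw [hasDerivAt_iff_isLittleO] at h0 ⊢
      refine (Asymptotics.IsBigO.of_bound 1 (Eventually.of_forall fun y => ?_)).trans_isLittleO h0
      simp only [max_self, sub_zero, ne_eq, OfNat.ofNat_ne_zero, not_false_eq_true, zero_pow, add_zero,
        log_one, norm_eq_abs, one_mul]
      rcases le_total y 0 with hy | hy
      · rw [max_eq_left hy]; simp; positivity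
      · rw [max_eq_right hy]
    · rw [max_eq_right hu.le]
      exact (hW u).congr_of_eventuallyEq (Filter.eventually_of_mem (Ioi_mem_nhds hu) fun y hy => by
        show log (1 + max 0 y ^ 2) ^ 2 = log (1 + y ^ 2) ^ 2
        rw [max_eq_right (le_of_lt hy)])
  exact (hmax (x - 1)).comp_sub_const x 1

lemma abs_cutD_sub_le (x y : ℝ) : |cutD y - cutD x| ≤ 6 * |y - x| := by
  set G := fun v : ℝ => 4 * log (1 + v ^ 2) * (v / (1 + v ^ 2)) with hG
  have hd : ∀ v : ℝ, HasDerivAt G (4 * (2 * v ^ 2 / (1 + v ^ 2) ^ 2 + log (1 + v ^ 2) * (1 - v ^ 2) / (1 + v ^ 2) ^ 2)) v :=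
    fun v => by
    have hne : (1 : ℝ) + v ^ 2 ≠ 0 := by positivity
    have h1 := ((((hasDerivAt_id v).pow 2).const_add 1).log (by simpa using hne)).const_mul 4
    have h2 := (hasDerivAt_id v).fun_div (((hasDerivAt_id v).pow 2).const_add 1) (by simpa using hne)
    convert! h1.fun_mul h2 using 1
    simp only [id_eq, Pi.pow_apply]
    field_simp
    push_cast
    ring
  have hb : ∀ v : ℝ, ‖4 * (2 * v ^ 2 / (1 + v ^ 2) ^ 2 + log (1 + v ^ 2) * (1 - v ^ 2) / (1 + v ^ 2) ^ 2)‖ ≤ 6 := fun v => by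
    have h0 : 0 < (1 + v ^ 2) ^ 2 := by positivity
    have hl := log_le_sub_one_of_pos (show (0 : ℝ) < 1 + v ^ 2 by positivity)
    have hl0 : 0 ≤ log (1 + v ^ 2) := log_nonneg (by nlinarith)
    have h1 : 0 ≤ 2 * v ^ 2 / (1 + v ^ 2) ^ 2 := by positivity
    have h2 : 2 * v ^ 2 / (1 + v ^ 2) ^ 2 ≤ 1 / 2 := by
      rw [div_le_iff₀ h0]; nlinarith [sq_nonneg (1 - v ^ 2)]
    have h3 : |log (1 + v ^ 2) * (1 - v ^ 2) / (1 + v ^ 2) ^ 2| ≤ 1 := by
      rw [abs_div, abs_of_pos h0, div_le_one h0, abs_mul, abs_of_nonneg hl0]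
      calc log (1 + v ^ 2) * |1 - v ^ 2| ≤ (1 + v ^ 2) * (1 + v ^ 2) := by
            refine mul_le_mul (by linarith) ?_ (abs_nonneg _) (by positivity)
            rw [abs_le]; constructor <;> nlinarith
        _ = _ := by ring
    rw [norm_eq_abs, abs_le]
    have := abs_le.1 h3
    constructor <;> linarith
  have h := convex_univ.norm_image_sub_le_of_norm_hasDerivWithin_le (f := G)
    (fun v _ => (hd v).hasDerivWithinAt) (fun v _ => hb v) (mem_univ (max 0 (x - 1))) (mem_univ (max 0 (y - 1)))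
  rw [norm_eq_abs, norm_eq_abs] at h
  refine h.trans (mul_le_mul_of_nonneg_left ?_ (by norm_num))
  rw [max_comm 0 (y - 1), max_comm 0 (x - 1)]
  refine (abs_max_sub_max_le_abs (y - 1) (x - 1) 0).trans (le_of_eq ?_)
  ring_nf
  
/-- The cut-off above level `a`. -/
noncomputable def fcut (a x : ℝ) : ℝ := cutF (x / a)

/-- Derivative of `fcut`. -/
noncomputable def dcut (a x : ℝ) : ℝ := cutD (x / a) / a

lemma fcut_nonneg (a x : ℝ) : 0 ≤ fcut a x := cutF_nonneg _

section

variable {a x : ℝ} (ha : 0 < a)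
include ha

lemma fcut_eq_zero (h : x ≤ a) : fcut a x = 0 := cutF_eq_zero (by rwa [div_le_one ha])

lemma dcut_eq_zero (h : x ≤ a) : dcut a x = 0 := by
  rw [dcut, cutD_eq_zero (by rwa [div_le_one ha]), zero_div]

lemma abs_dcut_sub_le (y : ℝ) : |dcut a y - dcut a x| ≤ 6 / a ^ 2 * |y - x| := by
  rw [dcut, dcut, ← sub_div, abs_div, abs_of_pos ha, div_le_iff₀ ha]
  refine (abs_cutD_sub_le _ _).trans (le_of_eq ?_)
  rw [← sub_div, abs_div, abs_of_pos ha]
  field_simp

lemma fcut_taylor (y : ℝ) : |fcut a y - fcut a x - dcut a x * (y - x)| ≤ 6 / a ^ 2 * (y - x) ^ 2 := by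
  have hd : ∀ z, HasDerivAt (fun z => fcut a z - fcut a x - dcut a x * (z - x)) (dcut a z - dcut a x) z := fun z => by
    have h1 := ((hasDerivAt_cutF (z / a)).comp z ((hasDerivAt_id z).div_const a))
    have h2 := (h1.sub_const (fcut a x)).fun_sub (((hasDerivAt_id z).sub_const x).const_mul (dcut a x))
    convert! h2 using 1
    simp [dcut]; ring
  have hb : ∀ z ∈ uIcc x y, ‖dcut a z - dcut a x‖ ≤ 6 / a ^ 2 * |y - x| := fun z hz => by
    rw [norm_eq_abs]
    exact (abs_dcut_sub_le ha z).trans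
      (mul_le_mul_of_nonneg_left (abs_sub_left_of_mem_uIcc hz) (by positivity))
  have h := (convex_uIcc x y).norm_image_sub_le_of_norm_hasDerivWithin_le
    (fun z _ => (hd z).hasDerivWithinAt) hb left_mem_uIcc right_mem_uIcc
  simp only [norm_eq_abs, sub_self, mul_zero, sub_zero] at h
  refine h.trans (le_of_eq ?_)
  rw [mul_assoc, ← sq, sq_abs]

omit ha in
lemma sq_mul_dcut_le : (dcut a x * x) ^ 2 ≤ 36 * fcut a x := by
  rw [dcut, div_mul_eq_mul_div, mul_div_assoc]
  simp only [fcut, cutF, cutD]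
  set y := x / a
  set v := max 0 (y - 1) with hv
  rcases le_or_gt y 1 with hy | hy
  · rw [hv, max_eq_left (by linarith)]; simp
  · have hv' : v = y - 1 := max_eq_right (by linarith)
    set L := log (1 + v ^ 2)
    have h1 : 0 ≤ v / (1 + v ^ 2) * y := by
      have : 0 < v := by linarith
      positivity
    have h2 : v / (1 + v ^ 2) * y ≤ 3 / 2 := by
      rw [div_mul_eq_mul_div, div_le_iff₀ (by positivity), show y = v + 1 by linarith]
      nlinarith [sq_nonneg (v - 1)]
    calc (4 * L * (v / (1 + v ^ 2)) * y) ^ 2 = L ^ 2 * (16 * (v / (1 + v ^ 2) * y) ^ 2) := by ring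
      _ ≤ L ^ 2 * (16 * (3 / 2) ^ 2) :=
          mul_le_mul_of_nonneg_left (by have := pow_le_pow_left₀ h1 h2 2; linarith) (sq_nonneg _)
      _ = 36 * L ^ 2 := by ring

lemma fcut_le_sq (hx : 0 ≤ x) : fcut a x ≤ (x / a) ^ 2 := by
  have hy : 0 ≤ x / a := div_nonneg hx ha.le
  have hlog : ∀ v : ℝ, 0 ≤ v → log (1 + v ^ 2) ≤ v := fun v hv => by
    rw [log_le_iff_le_exp (by positivity)]
    have h1 : v / 2 + 1 ≤ exp (v / 2) := add_one_le_exp _
    have h2 : (v / 2 + 1) ^ 2 ≤ exp v := by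
      refine (pow_le_pow_left₀ (by positivity) h1 2).trans (le_of_eq ?_)
      rw [← exp_nat_mul]; push_cast; ring_nf
    rcases le_or_gt v (4 / 3) with h | h
    · nlinarith
    · have h3 : v ^ 3 / 6 + v ^ 2 / 2 + v + 1 ≤ exp v := by
        have := Real.sum_le_exp_of_nonneg hv 4
        norm_num [Finset.sum_range_succ, Nat.factorial] at this
        linarith
      nlinarith [sq_nonneg (v - 3 / 2)]
  refine pow_le_pow_left₀ (log_nonneg (by nlinarith)) ((hlog _ (le_max_left _ _)).trans ?_) 2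
  exact max_le hy (by linarith)

lemma log_sq_le_fcut (hx : 2 * a ≤ x) : 4 * log (x / (2 * a)) ^ 2 ≤ fcut a x := by
  have hy : 2 ≤ x / a := by rw [le_div_iff₀ ha]; linarith
  have e : x / (2 * a) = x / a / 2 := by field_simp
  rw [fcut, cutF, max_eq_right (by linarith), e]
  set y := x / a
  have h0 : 0 ≤ log (y / 2) := log_nonneg (by linarith)
  have h1 : 2 * log (y / 2) ≤ log (1 + (y - 1) ^ 2) := by
    rw [show (2 : ℝ) = ((2 : ℕ) : ℝ) by norm_num, ← log_pow]
    exact log_le_log (by positivity) (by push_cast; nlinarith)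
  calc 4 * log (y / 2) ^ 2 = (2 * log (y / 2)) ^ 2 := by ring
    _ ≤ _ := pow_le_pow_left₀ (by positivity) h1 2

end

end Vale.Agent.P245
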