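import Vale.Agent.P245N.DV
import Vale.Agent.P245N.Trf
import Vale.Agent.P245.Conc

open MeasureTheory Real Filter Set
open scoped Topology RealInnerProductSpace

namespace Vale.Agent.P245

variable {n : ℕ}

lemma opNorm_le_frob (T : Op n) : ‖T‖ ≤ (n : ℝ) * √(frob T) := by
  refine ContinuousLinearMap.opNorm_le_bound _ (by positivity) fun u => ?_
  conv_lhs => rw [← (stdb n).sum_repr' u, map_sum]
  refine (norm_sum_le _ _).trans ?_
  have h : ∀ a, ‖T (⟪stdb n a, u⟫ • stdb n a)‖ ≤ √(frob T) * ‖u‖ := fun a => by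
    rw [map_smul, norm_smul, norm_eq_abs, mul_comm (√(frob T))]
    refine mul_le_mul ?_ ?_ (norm_nonneg _) (norm_nonneg _)
    · refine (abs_real_inner_le_norm _ _).trans (le_of_eq ?_)
      rw [(stdb n).orthonormal.1 a, one_mul]
    · rw [← Real.sqrt_sq (norm_nonneg (T (stdb n a)))]
      exact Real.sqrt_le_sqrt (Finset.single_le_sum (f := fun a => ‖T (stdb n a)‖ ^ 2)
        (fun b _ => sq_nonneg _) (Finset.mem_univ a))
  refine (Finset.sum_le_sum fun a _ => h a).trans (le_of_eq ?_)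
  rw [Finset.sum_const, Finset.card_univ, Fintype.card_fin, nsmul_eq_mul, mul_assoc]

lemma continuous_fop {f : ℝ → ℝ} {L : ℝ} (hL : 0 ≤ L) (hf : ∀ x y, |f y - f x| ≤ L * |y - x|) {X : Type*}
    [TopologicalSpace X] {A : X → Op n} (hA : Continuous A) (hs : ∀ x, SymOp (A x)) :
    Continuous fun x => fop f (A x) := by
  refine continuous_iff_continuousAt.2 fun x₀ => ?_
  rw [ContinuousAt, tendsto_iff_norm_sub_tendsto_zero]
  have hc : Continuous fun x => (n : ℝ) * (L * √(frob (A x - A x₀))) :=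
    (continuous_const.mul (continuous_const.mul (continuous_frob.comp (hA.sub continuous_const)).sqrt))
  have h0 := hc.tendsto x₀
  simp only [sub_self, frob, zero_apply, norm_zero, ne_eq, OfNat.ofNat_ne_zero, not_false_eq_true, zero_pow,
    Finset.sum_const_zero, Real.sqrt_zero, mul_zero] at h0
  refine squeeze_zero (fun _ => norm_nonneg _) (fun x => (opNorm_le_frob _).trans ?_) h0
  refine mul_le_mul_of_nonneg_left ?_ n.cast_nonneg
  refine (Real.sqrt_le_sqrt (frob_fop_sub (hs x₀) (hs x) hf)).trans (le_of_eq ?_)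
  rw [Real.sqrt_mul (sq_nonneg _), Real.sqrt_sq hL]
  rfl

/-- Trace of the cut-off of the fibre covariance above level `a`. -/
noncomputable def bigTr (t : ℝ) (μ : Measure (Euc n)) (a : ℝ) (θ : Euc n) : ℝ := trf (fcut a) (Aop t μ θ)

/-- Gradient of `bigTr`. -/
noncomputable def bigGrad (t : ℝ) (μ : Measure (Euc n)) (a : ℝ) (θ : Euc n) : Euc n :=
  ∫ x, ⟪cen t μ θ x, fop (dcut a) (Aop t μ θ) (cen t μ θ x)⟫ • cen t μ θ x ∂(fib t μ θ)

/-- Fibre variance bound for diagonal quadratic forms carried by the eigenvalues above `a`. -/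
def QuadVar (t : ℝ) (μ : Measure (Euc n)) (a C : ℝ) : Prop :=
  ∀ (θ : Euc n) (b : OrthonormalBasis (Fin n) ℝ (Euc n)) (l w : Fin n → ℝ),
    (∀ i, Aop t μ θ (b i) = l i • b i) → (∀ i, l i ≤ a → w i = 0) →
    ∫ x, (∑ i, w i * ⟪b i, cen t μ θ x⟫ ^ 2 - ∑ i, w i * l i) ^ 2 ∂(fib t μ θ) ≤ C * ∑ i, (w i * l i) ^ 2

section

variable {μ : Measure (Euc n)} [IsProbabilityMeasure μ] {R t : ℝ}

lemma bigGrad_eigen (hS : Supp μ R) {a : ℝ} (θ : Euc n) {b : OrthonormalBasis (Fin n) ℝ (Euc n)} {l : Fin n → ℝ}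
    (he : ∀ i, Aop t μ θ (b i) = l i • b i) :
    bigGrad t μ a θ = ∑ i, dcut a (l i) • wvec t μ θ (b i) (b i) := by
  have := isProb_fib (T := t) hS θ
  have hsf := supp_fib (T := t) hS θ
  simp only [bigGrad, wvec, ← integral_smul]
  rw [← integral_finsetSum _ fun i _ => hsf.integrable (by fun_prop)]
  refine integral_congr_ae (Eventually.of_forall fun x => ?_)
  simp only [quad_eigen (fun i => fop_apply_eigen (symOp_Aop hS θ) he i), Finset.sum_smul, smul_smul]
  exact Finset.sum_congr rfl fun i _ => by ring_nf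

lemma d1_bigTr (hS : Supp μ R) {a : ℝ} (ha : 0 < a) : D1 (bigTr t μ a) (bigGrad t μ a) := by
  refine ⟨fun θ => ?_, ?_⟩
  · obtain ⟨b, l, he⟩ := (symOp_Aop (t := t) hS θ).exists_eigen
    obtain ⟨L, hL, -⟩ := hasFDerivAt_Aop (t := t) hS θ
    have hdiag : ∀ θ' i, ⟪b i, Aop t μ θ' (b i)⟫ = aent t μ θ' (b i) (b i) := fun θ' i => inner_Aop hS θ' _ _
    have hl : ∀ i, l i = aent t μ θ (b i) (b i) := fun i => by
      rw [← hdiag, he, inner_smul_right, real_inner_self_eq_norm_sq, b.orthonormal.1 i]; simp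
    set G := fun θ' => bigTr t μ a θ' - ∑ i, dcut a (l i) * aent t μ θ' (b i) (b i) with hG
    set H := fun θ' => ∑ c, ‖(Aop t μ θ' - Aop t μ θ) (stdb n c)‖ ^ 2 with hH
    have hH0 : HasFDerivAt H (0 : Euc n →L[ℝ] ℝ) θ := by
      have h1 : ∀ c, HasFDerivAt (fun θ' => (Aop t μ θ' - Aop t μ θ) (stdb n c))
          ((ContinuousLinearMap.apply ℝ (Euc n) (stdb n c)).comp L) θ := fun c =>
        ((ContinuousLinearMap.apply ℝ (Euc n) (stdb n c)).hasFDerivAt).comp θ (hL.sub_const _)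
      have h2 := HasFDerivAt.fun_sum (u := Finset.univ) fun c _ => (h1 c).norm_sq
      refine h2.congr_fderiv (ContinuousLinearMap.ext fun v => ?_)
      simp
    have hbound : ∀ θ', ‖G θ' - G θ‖ ≤ 6 / a ^ 2 * ‖H θ'‖ := fun θ' => by
      have h := trf_taylor (f := fcut a) (symOp_Aop (t := t) hS θ) (symOp_Aop (t := t) hS θ') he
        (fun x y => fcut_taylor ha (x := x) y)
      have h0 : 0 ≤ H θ' := Finset.sum_nonneg fun c _ => sq_nonneg _
      rw [norm_eq_abs, norm_eq_abs, abs_of_nonneg h0]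
      refine le_trans (le_of_eq ?_) h
      simp only [hG, bigTr, hdiag, mul_sub, Finset.sum_sub_distrib]
      simp only [← hl]
      ring_nf
    have hGd : HasFDerivAt G (0 : Euc n →L[ℝ] ℝ) θ := by
      rw [hasFDerivAt_iff_isLittleO] at hH0 ⊢
      have e : H θ = 0 := by simp [hH]
      simp only [zero_apply, sub_zero, e] at hH0 ⊢
      exact (Asymptotics.IsBigO.of_bound _ (Eventually.of_forall hbound)).trans_isLittleO hH0
    have hsum := HasFDerivAt.fun_sum (u := Finset.univ) fun i _ =>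
      (hasFDerivAt_aent (t := t) hS θ (b i) (b i)).const_mul (dcut a (l i))
    have h := hGd.fun_add hsum
    simp only [hG, sub_add_cancel] at h
    refine h.congr_fderiv ?_
    rw [zero_add, bigGrad_eigen hS θ he, map_sum]
    simp only [map_smul]
  · have hT : Continuous fun θ => fop (dcut a) (Aop t μ θ) :=
      continuous_fop (L := 6 / a ^ 2) (by positivity) (fun x y => abs_dcut_sub_le ha (x := x) y) (continuous_Aop hS)
        fun θ => symOp_Aop hS θ
    exact continuous_fib_integral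
      (F := fun θ x => ⟪cen t μ θ x, fop (dcut a) (Aop t μ θ) (cen t μ θ x)⟫ • cen t μ θ x) hS
      (((continuous_cen (t := t) hS).inner (𝕜 := ℝ) ((hT.comp continuous_fst).clm_apply (continuous_cen (t := t) hS))).smul
        (continuous_cen (t := t) hS))

lemma bigTr_nonneg (hS : Supp μ R) (a : ℝ) (θ : Euc n) : 0 ≤ bigTr t μ a θ := by
  obtain ⟨b, l, he⟩ := (symOp_Aop (t := t) hS θ).exists_eigen
  rw [bigTr, trf_eq (symOp_Aop hS θ) he]
  exact Finset.sum_nonneg fun i _ => fcut_nonneg _ _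

lemma eig_le_inv (hS : Supp μ R) (hR : 0 ≤ R) (hμ : IsLC 0 μ) (ht : 0 < t) (θ : Euc n)
    {b : OrthonormalBasis (Fin n) ℝ (Euc n)} {l : Fin n → ℝ} (he : ∀ i, Aop t μ θ (b i) = l i • b i) (i : Fin n) :
    l i ≤ 1 / t := by
  have h := aent_le_inv hS hR hμ ht θ (b i)
  rw [← inner_Aop hS, he, inner_smul_right, real_inner_self_eq_norm_sq, b.orthonormal.1 i] at h
  simpa using h

lemma bigTr_le (hS : Supp μ R) (hR : 0 ≤ R) (hμ : IsLC 0 μ) (ht : 0 < t) {a : ℝ} (ha : 0 < a) (θ : Euc n) :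
    bigTr t μ a θ ≤ n / (t * a) ^ 2 := by
  obtain ⟨b, l, he⟩ := (symOp_Aop (t := t) hS θ).exists_eigen
  rw [bigTr, trf_eq (symOp_Aop hS θ) he]
  refine (Finset.sum_le_sum fun i _ => ?_).trans (le_of_eq (b := ∑ _i : Fin n, (1 / (t * a)) ^ 2) rfl) |>.trans ?_
  · have hl := eig_Aop_nonneg hS θ he i
    refine (fcut_le_sq ha hl).trans (pow_le_pow_left₀ (by positivity) ?_ 2)
    refine (div_le_div_of_nonneg_right (eig_le_inv hS hR hμ ht θ he i) ha.le).trans (le_of_eq ?_)
    field_simp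
  · rw [Finset.sum_const, Finset.card_univ, Fintype.card_fin, nsmul_eq_mul]
    exact le_of_eq (by ring)

/-- No eigenvalue exceeds `a` where `phi` is not small. -/
lemma bigTr_eq_zero (hS : Supp μ R) {a : ℝ} (ha : 0 < a) {j : ℕ} {c₀ : ℝ} (hc : 0 < c₀) (hac : 4 / c₀ ^ 2 ≤ a)
    {θ : Euc n} (hθ : c₀ / 2 ≤ phi t μ (j + 1) θ) : bigTr t μ a θ = 0 := by
  obtain ⟨b, l, he⟩ := (symOp_Aop (t := t) hS θ).exists_eigen
  rw [bigTr, trf_eq (symOp_Aop hS θ) he]
  refine Finset.sum_eq_zero fun i _ => fcut_eq_zero ha ?_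
  have h := aent_le_phi hS t (m := j + 1) (by omega) θ (b i)
  rw [← inner_Aop hS, he, inner_smul_right, real_inner_self_eq_norm_sq, b.orthonormal.1 i] at h
  simp only [one_pow, mul_one] at h
  refine h.trans (le_trans ?_ hac)
  rw [show 4 / c₀ ^ 2 = ((c₀ / 2) ^ 2)⁻¹ by field_simp; norm_num]
  gcongr

/-- Self-bounding gradient of `bigTr`. -/
lemma norm_bigGrad_sq_le (hS : Supp μ R) (hR : 0 ≤ R) (hμ : IsLC 0 μ) (ht : 0 < t) {a C : ℝ} (ha : 0 < a)
    (hC : 0 ≤ C) (hq : QuadVar t μ a C) (θ : Euc n) :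
    ‖bigGrad t μ a θ‖ ^ 2 ≤ 36 * C / t * bigTr t μ a θ := by
  obtain ⟨b, l, he⟩ := (symOp_Aop (t := t) hS θ).exists_eigen
  have := isProb_fib (T := t) hS θ
  have hsf := supp_fib (T := t) hS θ
  set w := fun i => dcut a (l i) with hw
  set u := bigGrad t μ a θ with hu
  have hvar := hq θ b l w he fun i hi => dcut_eq_zero ha hi
  have hsum : ∑ i, (w i * l i) ^ 2 ≤ 36 * bigTr t μ a θ := by
    rw [bigTr, trf_eq (symOp_Aop hS θ) he, Finset.mul_sum]
    exact Finset.sum_le_sum fun i _ => sq_mul_dcut_le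
  have e : ‖u‖ ^ 2 = ∫ x, ⟪u, cen t μ θ x⟫ *
      (∑ i, w i * ⟪b i, cen t μ θ x⟫ ^ 2 - ∑ i, w i * l i) ∂(fib t μ θ) := by
    have e1 : ∀ x, ⟪u, cen t μ θ x⟫ * (∑ i, w i * ⟪b i, cen t μ θ x⟫ ^ 2 - ∑ i, w i * l i)
        = (∑ i, w i * ⟪b i, cen t μ θ x⟫ ^ 2) * ⟪u, cen t μ θ x⟫ - (∑ i, w i * l i) * ⟪u, cen t μ θ x⟫ :=
      fun x => by ring
    rw [integral_congr_ae (Eventually.of_forall e1), integral_sub (hsf.integrable (by fun_prop))
      (hsf.integrable (by fun_prop)), integral_const_mul, integral_cen hS, mul_zero, sub_zero,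
      ← real_inner_self_eq_norm_sq]
    nth_rw 2 [hu]
    rw [bigGrad, ← integral_inner ((hsf.integrable (by fun_prop)))]
    refine integral_congr_ae (Eventually.of_forall fun x => ?_)
    simp only [inner_smul_right, quad_eigen (fun i => fop_apply_eigen (symOp_Aop hS θ) he i), hw]
  have hcs := cs_integral (μ := fib t μ θ) (f := fun x => ⟪u, cen t μ θ x⟫)
    (g := fun x => ∑ i, w i * ⟪b i, cen t μ θ x⟫ ^ 2 - ∑ i, w i * l i) (hsf.integrable (by fun_prop))
    (hsf.integrable (by fun_prop)) (hsf.integrable (by fun_prop))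
  have ha2 : ∫ x, ⟪u, cen t μ θ x⟫ ^ 2 ∂(fib t μ θ) ≤ ‖u‖ ^ 2 / t := by
    have h := aent_le_inv hS hR hμ ht θ u
    simp only [aent, ← sq] at h
    exact h
  rw [← e] at hcs
  have h2 : (‖u‖ ^ 2) ^ 2 ≤ ‖u‖ ^ 2 / t * (C * (36 * bigTr t μ a θ)) :=
    hcs.trans (mul_le_mul ha2 (hvar.trans (mul_le_mul_of_nonneg_left hsum hC)) (integral_nonneg fun x => sq_nonneg _)
      (by positivity))
  rcases (sq_nonneg ‖u‖).eq_or_lt with h0 | h0
  · rw [← h0]; exact mul_nonneg (by positivity) (bigTr_nonneg hS a θ)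
  · refine le_of_mul_le_mul_left ?_ h0
    refine le_trans (le_of_eq (by ring)) (h2.trans (le_of_eq ?_))
    ring

/-- Concentration of a Lipschitz function of the parameter. -/
lemma elaw_mgf_lip (hS : Supp μ R) {K : ℝ} (hK : 0 ≤ K) (hF : Fisi μ K) (ht : 0 ≤ t) {u : Euc n → ℝ}
    {u' : Euc n → Euc n} (hu : D1 u u') {B G : ℝ} (hB : ∀ θ, |u θ| ≤ B) (hG : ∀ θ, ‖u' θ‖ ≤ G) (l : ℝ) :
    elaw t μ (fun θ => exp (l * u θ)) ≤ exp (l * elaw t μ u + G ^ 2 * (K * t ^ 2 + t / 2) * l ^ 2) := by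
  set s := √t with hs
  have hs0 : 0 ≤ s := Real.sqrt_nonneg _
  have hst : s ^ 2 = t := Real.sq_sqrt ht
  have hG0 : 0 ≤ G := (norm_nonneg _).trans (hG 0)
  have hp := continuous_pt₂ (n := n) s
  set U := fun x => ∫ z, u (pt s x z) ∂(gam n) with hU
  set U' := fun x => t • ∫ z, u' (pt s x z) ∂(gam n) with hU'
  have hg : ∀ x, ∫ z, exp (l * u (pt s x z)) ∂(gam n) ≤ exp (l * U x + G ^ 2 * t * l ^ 2 / 2) := fun x => by
    have hd : D1 (fun z => u (pt s x z)) (fun z => s • u' (pt s x z)) := by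
      refine ⟨fun z => ?_, (hu.cont'.comp (continuous_pt s x)).const_smul s⟩
      have h1 : HasFDerivAt (pt s x) (s • ContinuousLinearMap.id ℝ (Euc n)) z :=
        ((hasFDerivAt_id z).const_smul s).const_add _
      convert! (hu.deriv (pt s x z)).comp z h1 using 1
      ext v; simp
    have h := herbst_gam hd (B := B) (G := G * s) (fun z => hB _) (fun z => by
      rw [norm_smul, norm_eq_abs, abs_of_nonneg hs0, mul_comm G]
      exact mul_le_mul_of_nonneg_left (hG _) hs0) l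
    refine h.trans (le_of_eq ?_)
    rw [mul_pow, hst]
  have hi : ∀ x, Integrable (fun z => u' (pt s x z)) (gam n) := fun x =>
    Integrable.of_bound (hu.cont'.comp (continuous_pt s x)).aestronglyMeasurable G (Eventually.of_forall fun z => hG _)
  have hd : D1 U U' := by
    refine ⟨fun x => ?_, ?_⟩
    · have hd' : ∀ z y, HasFDerivAt (fun y => u (pt s y z)) (innerSL ℝ (t • u' (pt s y z))) y := fun z y => by
        have h1 : HasFDerivAt (fun y => pt s y z) (s ^ 2 • ContinuousLinearMap.id ℝ (Euc n)) y :=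
          ((hasFDerivAt_id y).const_smul (s ^ 2)).add_const _
        rw [hst] at h1
        convert! (hu.deriv (pt s y z)).comp y h1 using 1
        ext v; simp
      have := hasFDerivAt_integral_of_dominated_of_fderiv_le (μ := gam n)
        (F := fun y z => u (pt s y z)) (F' := fun y z => innerSL ℝ (t • u' (pt s y z)))
        (bound := fun _ => t * G) (s := Metric.ball x 1) (Metric.ball_mem_nhds x one_pos)
        (Eventually.of_forall fun y => (hu.cont.comp (continuous_pt s y)).aestronglyMeasurable)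
        (integrable_gam_bdd (hu.cont.comp (continuous_pt s x)) fun z => hB _)
        ((innerSL ℝ).continuous.comp ((hu.cont'.comp (continuous_pt s x)).const_smul t)).aestronglyMeasurable
        (Eventually.of_forall fun z y _ => by
          rw [innerSL_apply_norm, norm_smul, norm_eq_abs, abs_of_nonneg ht]
          exact mul_le_mul_of_nonneg_left (hG _) ht)
        (integrable_const _) (Eventually.of_forall fun z y _ => hd' z y)
      rw [ContinuousLinearMap.integral_comp_comm (innerSL ℝ) (φ := fun z => t • u' (pt s x z)) ((hi x).smul t),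
        integral_smul] at this
      exact this
    · exact (continuous_of_dominated (bound := fun _ => G)
        (fun x => (hu.cont'.comp (continuous_pt s x)).aestronglyMeasurable)
        (fun x => Eventually.of_forall fun z => hG _) (integrable_const _)
        (Eventually.of_forall fun z => hu.cont'.comp (hp.comp (Continuous.prodMk_left z)))).const_smul t
  have hU'b : ∀ x, ‖U' x‖ ≤ G * t := fun x => by
    rw [hU', norm_smul, norm_eq_abs, abs_of_nonneg ht, mul_comm G]
    refine mul_le_mul_of_nonneg_left ?_ ht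
    simpa using norm_integral_le_of_norm_le_const (μ := gam n) (f := fun z => u' (pt s x z)) (C := G)
      (Eventually.of_forall fun z => hG _)
  have h := herbst_mgf hK hS hF hd (fun x _ => hU'b x) l
  simp only [mul_sub, exp_sub] at h
  rw [integral_div, div_le_iff₀ (exp_pos _), ← exp_add] at h
  have hcg := continuous_gint (H := fun x z => exp (l * u (pt s x z))) ((hu.cont.comp hp).const_mul l).rexp
    (B := exp (|l| * B)) fun x z => by
      rw [abs_exp, exp_le_exp]
      exact (le_abs_self _).trans ((abs_mul _ _).le.trans (mul_le_mul_of_nonneg_left (hB _) (abs_nonneg _)))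
  refine (integral_mono (hS.integrable hcg)
    (hS.integrable (f := fun x => exp (l * U x + G ^ 2 * t * l ^ 2 / 2))
      ((hd.cont.const_mul l).add continuous_const).rexp) hg).trans ?_
  have e : ∀ x, exp (l * U x + G ^ 2 * t * l ^ 2 / 2) = exp (G ^ 2 * t * l ^ 2 / 2) * exp (l * U x) :=
    fun x => by rw [← exp_add, add_comm]
  rw [integral_congr_ae (Eventually.of_forall e), integral_const_mul]
  refine (mul_le_mul_of_nonneg_left h (exp_pos _).le).trans (le_of_eq ?_)
  rw [← exp_add, show elaw t μ u = ∫ x, U x ∂μ from rfl]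
  ring_nf

/-- A Gaussian tail gives an exponential moment of the square. -/
lemma elaw_exp_sq_le (hS : Supp μ R) {u : Euc n → ℝ} (hu : Continuous u) {B c m : ℝ} (hB : ∀ θ, |u θ| ≤ B)
    (hc : 0 < c) (hmgf : ∀ l, elaw t μ (fun θ => exp (l * u θ)) ≤ exp (l * m + c * l ^ 2)) :
    elaw t μ (fun θ => exp (u θ ^ 2 / (16 * c))) ≤ exp (1 / 2 + m ^ 2 / (4 * c)) := by
  set e : Euc 1 := stdb 1 0 with he
  have he1 : ‖e‖ = 1 := (stdb 1).orthonormal.1 0
  set r := √(1 / (8 * c)) with hr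
  have hr2 : r ^ 2 = 1 / (8 * c) := Real.sq_sqrt (by positivity)
  set h := fun θ z => exp (r * u θ * ⟪e, z⟫) with hh
  set P := μ.prod (gam n) with hP
  have key : ∀ θ, exp (u θ ^ 2 / (16 * c)) = ∫ z, h θ z ∂(gam 1) := fun θ => by
    have := integral_gam_exp_inner ((r * u θ) • e)
    simp only [real_inner_smul_left] at this
    rw [hh, this, norm_smul, he1, mul_one, norm_eq_abs, sq_abs, mul_pow, hr2]
    congr 1; field_simp; ring
  have hc' : Continuous fun w : (Euc n × Euc n) × Euc 1 => h (pt (√t) w.1.1 w.1.2) w.2 :=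
    ((continuous_const.mul (hu.comp ((continuous_pt₂ _).comp continuous_fst))).mul
      ((continuous_const.inner continuous_id).comp continuous_snd)).rexp
  have hb : ∀ θ z, h θ z ≤ exp (|r| * B * ‖z‖) := fun θ z => exp_le_exp.2 <| by
    refine (le_abs_self _).trans ?_
    rw [abs_mul, abs_mul]
    refine mul_le_mul (mul_le_mul_of_nonneg_left (hB θ) (abs_nonneg _)) ?_ (abs_nonneg _)
      (mul_nonneg (abs_nonneg _) ((abs_nonneg _).trans (hB θ)))
    exact (abs_real_inner_le_norm e z).trans (le_of_eq (by rw [he1, one_mul]))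
  have hi : Integrable (fun w : (Euc n × Euc n) × Euc 1 => h (pt (√t) w.1.1 w.1.2) w.2) (P.prod (gam 1)) :=
    ((expInt_gam (n := 1) (|r| * B)).comp_snd P).mono' hc'.aestronglyMeasurable
      (Eventually.of_forall fun w => by rw [norm_eq_abs, abs_exp]; exact hb _ _)
  have e1 : ∀ z, ∫ y, h (pt (√t) y.1 y.2) z ∂P = elaw t μ fun θ => h θ z := fun z => by
    have hiz : Integrable (fun y : Euc n × Euc n => h (pt (√t) y.1 y.2) z) P :=
      integrable_pair hS (hc'.comp (Continuous.prodMk_left z)) (B := exp (|r| * B * ‖z‖)) fun x G _ => by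
        rw [abs_exp]; exact hb _ _
    rw [hP, integral_prod _ hiz]; rfl
  have hi16 : Integrable (fun y : Euc n × Euc n => exp (u (pt (√t) y.1 y.2) ^ 2 / (16 * c))) P :=
    integrable_pair hS (((hu.comp (continuous_pt₂ _)).pow 2).div_const _).rexp (B := exp (B ^ 2 / (16 * c)))
      fun x G _ => by
        rw [abs_exp, exp_le_exp]
        refine div_le_div_of_nonneg_right ?_ (by positivity)
        rw [← sq_abs]; exact pow_le_pow_left₀ (abs_nonneg _) (hB _) 2
  have e2 : elaw t μ (fun θ => exp (u θ ^ 2 / (16 * c))) = ∫ y, exp (u (pt (√t) y.1 y.2) ^ 2 / (16 * c)) ∂P := by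
    rw [hP, integral_prod _ hi16]; rfl
  rw [e2]
  simp only [key]
  rw [integral_integral_swap hi]
  simp only [e1]
  have hi4 : Integrable (fun z : Euc 1 => exp (‖z‖ ^ 2 / 4)) (gam 1) := by
    rw [gam, integrable_tilted_iff integrable_gauss]
    refine (integrable_exp_neg_sq (n := 1) (b := 1 / 4) (by norm_num)).congr (Eventually.of_forall fun x => ?_)
    simp only [smul_eq_mul, ← exp_add]; ring_nf
  refine (integral_mono_of_nonneg (Eventually.of_forall fun z => integral_nonneg fun x => integral_nonneg fun G =>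
      (exp_pos _).le) (hi4.const_mul (exp (m ^ 2 / (4 * c)))) (Eventually.of_forall fun z => ?_)).trans ?_
  · have h1 := hmgf (r * ⟪e, z⟫)
    refine le_trans (le_of_eq ?_) (h1.trans ?_)
    · exact integral_congr_ae (Eventually.of_forall fun x => integral_congr_ae (Eventually.of_forall fun G => by
        simp only [hh]; ring_nf))
    simp only
    rw [← exp_add, exp_le_exp, mul_pow, hr2, show c * (1 / (8 * c) * ⟪e, z⟫ ^ 2) = ⟪e, z⟫ ^ 2 / 8 by field_simp]
    have h2 : ⟪e, z⟫ ^ 2 ≤ ‖z‖ ^ 2 := by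
      rw [← sq_abs]
      refine pow_le_pow_left₀ (abs_nonneg _) ((abs_real_inner_le_norm e z).trans (le_of_eq ?_)) 2
      rw [he1, one_mul]
    have h3 : r * ⟪e, z⟫ * m ≤ 2 * (r * m) ^ 2 + ⟪e, z⟫ ^ 2 / 8 := by
      linarith [sq_nonneg (2 * (r * m) - ⟪e, z⟫ / 2), show (2 * (r * m) - ⟪e, z⟫ / 2) ^ 2
        = 4 * (r * m) ^ 2 - 2 * (r * ⟪e, z⟫ * m) + ⟪e, z⟫ ^ 2 / 4 by ring]
    rw [mul_pow, hr2] at h3
    have e3 : 2 * (1 / (8 * c) * m ^ 2) = m ^ 2 / (4 * c) := by field_simp; ring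
    linarith
  · rw [integral_const_mul]
    refine (mul_le_mul_of_nonneg_left integral_gam_exp_sq_le (exp_pos _).le).trans (le_of_eq ?_)
    rw [← exp_add]; push_cast; ring_nf

/-- The fibre covariance is rarely large. -/
lemma elaw_exp_bad_le (hS : Supp μ R) (hμ : IsLC 0 μ) {K κ : ℝ} (hK : 0 ≤ K) (hF : Fisi μ K) (ht : 0 < t)
    (hκ : K * t ≤ κ) {j : ℕ} {c₀ : ℝ} (hc : 0 < c₀) (hmean : c₀ ≤ elaw t μ (phi t μ (j + 1))) :
    elaw t μ (fun θ => exp (c₀ / (4 * (5625 * ((κ + 1 / 2) * t))) * (c₀ / 2 - phi t μ (j + 1) θ)))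
      ≤ exp (-(c₀ ^ 2 / (16 * (5625 * ((κ + 1 / 2) * t))))) := by
  set V := 5625 * ((κ + 1 / 2) * t) with hV
  have hκ0 : 0 ≤ κ := le_trans (by positivity) hκ
  have hV0 : 0 < V := by positivity
  set l := c₀ / (4 * V) with hl
  have hl0 : 0 ≤ l := by positivity
  have hb : ∀ θ, |exp (-l * phi t μ (j + 1) θ)| ≤ 1 := fun θ => by
    rw [abs_exp, exp_le_one_iff, neg_mul, neg_nonpos]
    exact mul_nonneg hl0 (phi_pos t _ θ).le
  have e : ∀ θ, exp (l * (c₀ / 2 - phi t μ (j + 1) θ)) = exp (l * (c₀ / 2)) * exp (-l * phi t μ (j + 1) θ) + 0 :=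
    fun θ => by rw [← exp_add, add_zero]; ring_nf
  simp only [e]
  rw [elaw_affine hS ((continuous_phi hS t _).const_mul _).rexp hb, add_zero]
  refine (mul_le_mul_of_nonneg_left (elaw_mgf_phi hS hμ hK hF ht.le j (-l)) (exp_pos _).le).trans ?_
  rw [← exp_add, exp_le_exp]
  have h1 : 5625 * (K * t ^ 2 + t / 2) ≤ V := by
    have := mul_le_mul_of_nonneg_right hκ ht.le
    rw [hV]; linarith
  have h2 := mul_le_mul_of_nonneg_right h1 (sq_nonneg l)
  have h3 := mul_le_mul_of_nonneg_left hmean hl0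
  have e2 : -(l * (c₀ / 2)) + V * l ^ 2 = -(c₀ ^ 2 / (16 * V)) := by rw [hl]; field_simp; ring
  rw [neg_sq]
  linarith

/-- Item E: few large eigenvalues under the tilted law. -/
theorem count_bad (hS : Supp μ R) (hR : 0 ≤ R) (hμ : IsLC 0 μ) {K κ : ℝ} (hK : 0 ≤ K) (hF : Fisi μ K)
    (ht : 0 < t) (hκ : K * t ≤ κ) {a C : ℝ} (ha : 0 < a) (hC : 1 ≤ C) (hq : QuadVar t μ a C) {j : ℕ} {c₀ : ℝ}
    (hc : 0 < c₀) (hmean : c₀ ≤ elaw t μ (phi t μ (j + 1))) (hac : 4 / c₀ ^ 2 ≤ a)
    (hsmall : √n / (t * a) * exp (-(c₀ ^ 2 / (16 * (5625 * ((κ + 1 / 2) * t))))) ≤ 1)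
    {g : Euc n → ℝ} (hg : Continuous g) (hg0 : ∀ x, 0 ≤ g x) (hg1 : ∫ x, g x ∂μ = 1) :
    elaw t μ (fun θ => bigTr t μ a θ * av t μ g θ) ≤ 288 * C * (κ + 1 / 2) *
      (ent μ g + 2 * exp (-(c₀ ^ 2 / (32 * (5625 * ((κ + 1 / 2) * t)))))) := by
  have hκ0 : 0 ≤ κ := le_trans (by positivity) hκ
  set B := c₀ ^ 2 / (16 * (5625 * ((κ + 1 / 2) * t))) with hB
  set T := bigTr t μ a with hT
  set β := c₀ / (4 * (5625 * ((κ + 1 / 2) * t))) with hβ
  set E := fun θ => exp (β * (c₀ / 2 - phi t μ (j + 1) θ)) with hE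
  have hβ0 : 0 ≤ β := by positivity
  have hEc : Continuous E := ((continuous_const.sub (continuous_phi hS t _)).const_mul β).rexp
  have hEb : ∀ θ, |E θ| ≤ exp (β * (c₀ / 2)) := fun θ => by
    rw [abs_exp, exp_le_exp]
    exact mul_le_mul_of_nonneg_left (by linarith [phi_pos (μ := μ) t (j + 1) θ]) hβ0
  have hbad : elaw t μ E ≤ exp (-B) := elaw_exp_bad_le hS hμ hK hF ht hκ hc hmean
  have hdT := d1_bigTr (t := t) hS ha
  have hT0 : ∀ θ, 0 ≤ T θ := bigTr_nonneg hS a
  have hTb : ∀ θ, T θ ≤ n / (t * a) ^ 2 := bigTr_le hS hR hμ ht ha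
  have hTa : ∀ θ, |T θ| ≤ n / (t * a) ^ 2 := fun θ => by rw [abs_of_nonneg (hT0 θ)]; exact hTb θ
  have hTz : ∀ θ, c₀ / 2 ≤ phi t μ (j + 1) θ → T θ = 0 := fun θ => bigTr_eq_zero hS ha hc hac
  -- the square root
  set S := fun θ => √(1 + T θ) with hSdef
  set S' := fun θ => (1 / (2 * S θ)) • bigGrad t μ a θ with hS'
  have hS1 : ∀ θ, 1 ≤ S θ := fun θ => Real.one_le_sqrt.2 (by linarith [hT0 θ])
  have hS2 : ∀ θ, S θ ^ 2 = 1 + T θ := fun θ => Real.sq_sqrt (by linarith [hT0 θ])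
  have hSc : Continuous S := (continuous_const.add hdT.cont).sqrt
  have hdS : D1 S S' := by
    refine ⟨fun θ => ?_, (continuous_const.div (hSc.const_mul 2) fun θ => by linarith [hS1 θ]).smul hdT.cont'⟩
    refine (((hdT.deriv θ).const_add 1).sqrt (by linarith [hT0 θ])).congr_fderiv ?_
    rw [hS', map_smul]
  set M := √n / (t * a) with hM
  have hM0 : 0 ≤ M := by positivity
  have hST : ∀ θ, S θ ≤ M * E θ + 1 := fun θ => by
    rcases le_or_gt (c₀ / 2) (phi t μ (j + 1) θ) with h | h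
    · simp only [hSdef, hTz θ h, add_zero, Real.sqrt_one]
      exact le_add_of_nonneg_left (mul_nonneg hM0 (exp_pos _).le)
    · refine le_trans ?_ (add_le_add (le_mul_of_one_le_right hM0 (one_le_exp (mul_nonneg hβ0 (by linarith)))) le_rfl)
      rw [hSdef, Real.sqrt_le_left (by positivity)]
      have : M ^ 2 = n / (t * a) ^ 2 := by rw [hM, div_pow, Real.sq_sqrt n.cast_nonneg]
      linarith [hTb θ, show (M + 1) ^ 2 = M ^ 2 + 2 * M + 1 by ring]
  set BS := √(1 + n / (t * a) ^ 2) with hBS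
  have hSb : ∀ θ, |S θ| ≤ BS := fun θ => by
    rw [abs_of_nonneg (Real.sqrt_nonneg _)]; exact Real.sqrt_le_sqrt (by linarith [hTb θ])
  set G := √(9 * C / t) with hG
  have hC0 : 0 ≤ C := le_trans zero_le_one hC
  have hG2 : G ^ 2 = 9 * C / t := Real.sq_sqrt (by positivity)
  have hSg : ∀ θ, ‖S' θ‖ ≤ G := fun θ => by
    refine (pow_le_pow_iff_left₀ (norm_nonneg _) (Real.sqrt_nonneg _) two_ne_zero).1 ?_
    rw [hG2, hS', norm_smul, mul_pow, norm_eq_abs, sq_abs, div_pow, one_pow, mul_pow, hS2]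
    refine (mul_le_mul_of_nonneg_left (norm_bigGrad_sq_le hS hR hμ ht ha hC0 hq θ)
      (by have := hT0 θ; positivity)).trans ?_
    have h0 := hT0 θ
    rw [show 1 / ((2 : ℝ) ^ 2 * (1 + T θ)) * (36 * C / t * T θ) = 9 * C / t * (T θ / (1 + T θ)) by field_simp; ring]
    exact mul_le_of_le_one_right (by positivity) ((div_le_one (by linarith)).2 (by linarith))
  set c := 9 * C * (κ + 1 / 2) with hcdef
  have hc4 : 9 / 2 ≤ c := by
    have := mul_le_mul hC (show (1 / 2 : ℝ) ≤ κ + 1 / 2 by linarith) (by norm_num) hC0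
    rw [hcdef]; linarith
  have hc0 : 0 < c := by linarith
  have hmean0 : 0 ≤ elaw t μ S := integral_nonneg fun x => integral_nonneg fun z => Real.sqrt_nonneg _
  have hmean2 : elaw t μ S ≤ 2 := by
    refine (elaw_mono hS (h₂ := fun θ => M * E θ + 1) hdS.cont ((hEc.const_mul M).add continuous_const) hSb
      (B₂ := M * exp (β * (c₀ / 2)) + 1) (fun θ => (abs_add_le _ _).trans (add_le_add
        (by rw [abs_mul, abs_of_nonneg hM0]; exact mul_le_mul_of_nonneg_left (hEb θ) hM0) (le_of_eq abs_one)))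
      hST).trans ?_
    rw [elaw_affine hS hEc hEb]
    linarith [mul_le_mul_of_nonneg_left hbad hM0]
  have hsq : elaw t μ (fun θ => exp (S θ ^ 2 / (16 * c))) ≤ 3 := by
    refine (elaw_exp_sq_le hS hdS.cont hSb hc0 (m := elaw t μ S) fun l => ?_).trans ?_
    · refine (elaw_mgf_lip hS hK hF ht.le hdS hSb hSg l).trans (exp_le_exp.2 ?_)
      refine add_le_add le_rfl (mul_le_mul_of_nonneg_right ?_ (sq_nonneg l))
      rw [hG2, show 9 * C / t * (K * t ^ 2 + t / 2) = 9 * C * (K * t + 1 / 2) by field_simp, hcdef]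
      exact mul_le_mul_of_nonneg_left (by linarith) (by positivity)
    · have h1 : elaw t μ S ^ 2 / (4 * c) ≤ 1 / 2 := by
        rw [div_le_iff₀ (by positivity)]
        have := pow_le_pow_left₀ hmean0 hmean2 2
        linarith
      refine (exp_le_exp.2 (show 1 / 2 + elaw t μ S ^ 2 / (4 * c) ≤ 1 by linarith)).trans ?_
      linarith [Real.exp_one_lt_d9]
  -- the exponential moment
  set q := exp (-(B / 2)) with hqdef
  have hq0 : 0 < q := exp_pos _
  have hqq : q * q = exp (-B) := by rw [hqdef, ← exp_add]; ring_nf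
  set l := 1 / (32 * c) with hl
  have hl0 : 0 < l := by positivity
  have hpt : ∀ θ, exp (l * T θ) ≤ q / 2 * exp (S θ ^ 2 / (16 * c)) + (1 / (2 * q)) * E θ + 1 := fun θ => by
    have h1 : exp (l * T θ) * exp (l * T θ) ≤ exp (S θ ^ 2 / (16 * c)) := by
      rw [← exp_add, exp_le_exp, hS2, show l * T θ + l * T θ = T θ / (16 * c) by rw [hl]; field_simp; ring]
      exact div_le_div_of_nonneg_right (by linarith) (by positivity)
    rcases le_or_gt (c₀ / 2) (phi t μ (j + 1) θ) with h | h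
    · rw [hTz θ h, mul_zero, exp_zero]
      have : 0 ≤ q / 2 * exp (S θ ^ 2 / (16 * c)) + 1 / (2 * q) * E θ := by positivity
      linarith
    · have hE1 : 1 ≤ E θ := one_le_exp (mul_nonneg hβ0 (by linarith))
      have h2 : exp (l * T θ) ≤ q / 2 * (exp (l * T θ) * exp (l * T θ)) + 1 / (2 * q) * 1 := by
        have e : q / 2 * (exp (l * T θ) * exp (l * T θ)) + 1 / (2 * q) * 1
            = (q * exp (l * T θ) - 1) ^ 2 / (2 * q) + exp (l * T θ) := by field_simp; ring
        rw [e]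
        exact le_add_of_nonneg_left (by positivity)
      have h3 := mul_le_mul_of_nonneg_left h1 (by positivity : 0 ≤ q / 2)
      have h4 := mul_le_mul_of_nonneg_left hE1 (by positivity : 0 ≤ 1 / (2 * q))
      linarith
  have hSq : ∀ θ, |exp (S θ ^ 2 / (16 * c))| ≤ exp (BS ^ 2 / (16 * c)) := fun θ => by
    rw [abs_exp, exp_le_exp]
    refine div_le_div_of_nonneg_right ?_ (by positivity)
    rw [← sq_abs]; exact pow_le_pow_left₀ (abs_nonneg _) (hSb θ) 2
  have hc1 : Continuous fun θ => exp (S θ ^ 2 / (16 * c)) := ((hSc.pow 2).div_const _).rexp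
  have hc2 : Continuous fun θ => 1 / (2 * q) * E θ + 1 := (hEc.const_mul _).add continuous_const
  have hb2 : ∀ θ, |1 / (2 * q) * E θ + 1| ≤ 1 / (2 * q) * exp (β * (c₀ / 2)) + 1 := fun θ => by
    refine (abs_add_le _ _).trans (add_le_add ?_ (le_of_eq abs_one))
    rw [abs_mul, abs_of_pos (by positivity : 0 < 1 / (2 * q))]
    exact mul_le_mul_of_nonneg_left (hEb θ) (by positivity)
  have hc3 : Continuous fun θ => exp (l * T θ) := (hdT.cont.const_mul l).rexp
  have hmgf : elaw t μ (fun θ => exp (l * T θ)) ≤ 1 + 2 * q := by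
    have h := elaw_mono hS (t := t) (h₁ := fun θ => exp (l * T θ))
      (h₂ := fun θ => q / 2 * exp (S θ ^ 2 / (16 * c)) + (1 / (2 * q) * E θ + 1)) hc3
      ((hc1.const_mul _).add hc2) (B₁ := exp (l * (n / (t * a) ^ 2)))
      (B₂ := q / 2 * exp (BS ^ 2 / (16 * c)) + (1 / (2 * q) * exp (β * (c₀ / 2)) + 1))
      (fun θ => by rw [abs_exp, exp_le_exp]; exact mul_le_mul_of_nonneg_left (hTb θ) hl0.le)
      (fun θ => (abs_add_le _ _).trans (add_le_add (by
        rw [abs_mul, abs_of_pos (by positivity : 0 < q / 2)]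
        exact mul_le_mul_of_nonneg_left (hSq θ) (by positivity)) (hb2 θ)))
      (fun θ => (hpt θ).trans (le_of_eq (by ring)))
    rw [elaw_add hS (hc1.const_mul _) hc2 (B₁ := q / 2 * exp (BS ^ 2 / (16 * c))) (fun θ => by
        rw [abs_mul, abs_of_pos (by positivity : 0 < q / 2)]
        exact mul_le_mul_of_nonneg_left (hSq θ) (by positivity)) hb2,
      elaw_affine hS hEc hEb] at h
    have e := elaw_affine (t := t) hS hc1 hSq (q / 2) 0
    simp only [add_zero] at e
    rw [e] at h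
    have h1 := mul_le_mul_of_nonneg_left hsq (by positivity : 0 ≤ q / 2)
    have h2 := mul_le_mul_of_nonneg_left hbad (by positivity : 0 ≤ 1 / (2 * q))
    have e2 : 1 / (2 * q) * exp (-B) = q / 2 := by rw [← hqq]; field_simp
    linarith
  have hdv := elaw_dv hS hR hg hg0 hg1 (ψ := fun θ => l * T θ) (hdT.cont.const_mul l)
    (B := l * (n / (t * a) ^ 2)) (fun θ => by
      rw [abs_mul, abs_of_pos hl0]; exact mul_le_mul_of_nonneg_left (hTa θ) hl0.le) ht.le
  have hpos : 0 < elaw t μ (fun θ => exp (l * T θ)) := by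
    have h := elaw_mono hS (t := t) (h₁ := fun _ => (1 : ℝ)) (h₂ := fun θ => exp (l * T θ)) continuous_const hc3
      (B₁ := 1) (B₂ := exp (l * (n / (t * a) ^ 2))) (fun _ => by simp)
      (fun θ => by rw [abs_exp, exp_le_exp]; exact mul_le_mul_of_nonneg_left (hTb θ) hl0.le)
      (fun θ => one_le_exp (mul_nonneg hl0.le (hT0 θ)))
    rw [elaw_const] at h
    linarith
  have hlog : log (elaw t μ (fun θ => exp (l * T θ))) ≤ 2 * q := by
    have := log_le_sub_one_of_pos hpos
    linarith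
  obtain ⟨Bg, -, hBg⟩ := exists_bound hR hg
  have e := elaw_affine (t := t) hS (hdT.cont.mul (continuous_av (T := t) hS hg))
    (B := n / (t * a) ^ 2 * Bg) (fun θ => by
      rw [Pi.mul_apply, abs_mul]
      exact mul_le_mul (hTa θ) (abs_av_le hS hBg θ) (abs_nonneg _) (by positivity)) l 0
  simp only [Pi.mul_apply, add_zero, ← mul_assoc] at e
  rw [e] at hdv
  have h : l * elaw t μ (fun θ => T θ * av t μ g θ) ≤ ent μ g + 2 * q := by
    change l * elaw t μ (bigTr t μ a * av t μ g) ≤ _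
    linarith
  rw [← le_div_iff₀' hl0] at h
  refine h.trans (le_of_eq ?_)
  rw [hl, hqdef, hB, hcdef]
  have e4 : c₀ ^ 2 / (16 * (5625 * ((κ + 1 / 2) * t))) / 2 = c₀ ^ 2 / (32 * (5625 * ((κ + 1 / 2) * t))) := by
    rw [div_div]; ring_nf
  rw [e4]
  field_simp
  ring

/-- Item E in the form used by the trace test: the traces of even powers of `t A` under the tilted law. -/
theorem count_pow (hS : Supp μ R) (hR : 0 ≤ R) (hμ : IsLC 0 μ) {K κ : ℝ} (hK : 0 ≤ K) (hF : Fisi μ K)
    (ht : 0 < t) (hκ : K * t ≤ κ) {a C : ℝ} (ha : 0 < a) (hC : 1 ≤ C) (hq : QuadVar t μ a C) {j : ℕ} {c₀ : ℝ}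
    (hc : 0 < c₀) (hmean : c₀ ≤ elaw t μ (phi t μ (j + 1))) (hac : 4 / c₀ ^ 2 ≤ a)
    (hsmall : √n / (t * a) * exp (-(c₀ ^ 2 / (16 * (5625 * ((κ + 1 / 2) * t))))) ≤ 1)
    {δ : ℝ} (hδ : 2 * (t * a) < δ)
    {g : Euc n → ℝ} (hg : Continuous g) (hg0 : ∀ x, 0 ≤ g x) (hg1 : ∫ x, g x ∂μ = 1) (p : ℕ) :
    elaw t μ (fun θ => t ^ (2 * p) * strace t μ p θ * av t μ g θ) ≤ n * δ ^ (2 * p) +
      72 * C * (κ + 1 / 2) / log (δ / (2 * (t * a))) ^ 2 *
        (ent μ g + 2 * exp (-(c₀ ^ 2 / (32 * (5625 * ((κ + 1 / 2) * t)))))) := by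
  set L := log (δ / (2 * (t * a))) with hL
  have hta : 0 < 2 * (t * a) := by positivity
  have hL0 : 0 < L := log_pos (by rw [one_lt_div hta]; exact hδ)
  have hδ0 : 0 < δ := hta.trans hδ
  set T := bigTr t μ a with hT
  have hdT := d1_bigTr (t := t) hS ha
  have hT0 : ∀ θ, 0 ≤ T θ := bigTr_nonneg hS a
  have hpt : ∀ θ, t ^ (2 * p) * strace t μ p θ ≤ n * δ ^ (2 * p) + 1 / (4 * L ^ 2) * T θ := fun θ => by
    obtain ⟨b, l, he⟩ := (symOp_Aop (t := t) hS θ).exists_eigen
    rw [strace, frob_pow he, hT, bigTr, trf_eq (symOp_Aop hS θ) he, Finset.mul_sum, Finset.mul_sum,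
      show (n : ℝ) * δ ^ (2 * p) = ∑ _i : Fin n, δ ^ (2 * p) by simp, ← Finset.sum_add_distrib]
    refine Finset.sum_le_sum fun i _ => ?_
    have h0 := eig_Aop_nonneg hS θ he i
    rw [← mul_pow]
    rcases le_or_gt (t * l i) δ with h | h
    · exact (pow_le_pow_left₀ (by positivity) h _).trans
        (le_add_of_nonneg_right (mul_nonneg (by positivity) (fcut_nonneg _ _)))
    · have h1 : t * l i ≤ 1 := by
        have := eig_le_inv hS hR hμ ht θ he i
        rw [le_div_iff₀ ht] at this; linarith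
      have hx : 2 * a ≤ l i := le_of_lt (lt_of_mul_lt_mul_left (show t * (2 * a) < t * l i by linarith) ht.le)
      have h2 := log_sq_le_fcut ha hx
      have h3 : L ≤ log (l i / (2 * a)) := by
        refine log_le_log (by positivity) ?_
        rw [div_le_div_iff₀ hta (by positivity)]
        have := mul_le_mul_of_nonneg_right h.le (by positivity : 0 ≤ 2 * a)
        linarith
      have h4 : 1 ≤ 1 / (4 * L ^ 2) * fcut a (l i) := by
        rw [one_div_mul_eq_div, le_div_iff₀ (by positivity)]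
        linarith [pow_le_pow_left₀ hL0.le h3 2]
      exact (pow_le_one₀ (by positivity) h1).trans (h4.trans (le_add_of_nonneg_left (by positivity)))
  obtain ⟨Bg, -, hBg⟩ := exists_bound hR hg
  have hav := continuous_av (T := t) hS hg
  have hag := abs_av_le (T := t) hS (g := g) hBg
  have hTb : ∀ θ, |T θ| ≤ n / (t * a) ^ 2 := fun θ => by
    rw [abs_of_nonneg (hT0 θ)]; exact bigTr_le hS hR hμ ht ha θ
  have hc1 : Continuous fun θ => (n * δ ^ (2 * p)) * av t μ g θ := hav.const_mul _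
  have hc2 : Continuous fun θ => 1 / (4 * L ^ 2) * (T θ * av t μ g θ) := (hdT.cont.mul hav).const_mul _
  have hb1 : ∀ θ, |(n * δ ^ (2 * p)) * av t μ g θ| ≤ n * δ ^ (2 * p) * Bg := fun θ => by
    rw [abs_mul, abs_of_nonneg (by positivity)]; exact mul_le_mul_of_nonneg_left (hag θ) (by positivity)
  have hb2' : ∀ θ, |T θ * av t μ g θ| ≤ n / (t * a) ^ 2 * Bg := fun θ => by
    rw [abs_mul]; exact mul_le_mul (hTb θ) (hag θ) (abs_nonneg _) (by positivity)
  have hb2 : ∀ θ, |1 / (4 * L ^ 2) * (T θ * av t μ g θ)| ≤ 1 / (4 * L ^ 2) * (n / (t * a) ^ 2 * Bg) := fun θ => by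
    rw [abs_mul, abs_of_nonneg (by positivity)]; exact mul_le_mul_of_nonneg_left (hb2' θ) (by positivity)
  have h := elaw_mono (t := t) hS (h₁ := fun θ => t ^ (2 * p) * strace t μ p θ * av t μ g θ)
    (h₂ := fun θ => n * δ ^ (2 * p) * av t μ g θ + 1 / (4 * L ^ 2) * (T θ * av t μ g θ))
    (((continuous_strace hS t p).const_mul _).mul hav) (hc1.add hc2)
    (B₁ := t ^ (2 * p) * (n * (4 * R ^ 2) ^ (2 * p)) * Bg)
    (B₂ := n * δ ^ (2 * p) * Bg + 1 / (4 * L ^ 2) * (n / (t * a) ^ 2 * Bg))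
    (fun θ => by
      rw [abs_mul, abs_mul, abs_of_nonneg (pow_nonneg ht.le _), abs_of_nonneg (strace_nonneg _ _ _)]
      exact mul_le_mul (mul_le_mul_of_nonneg_left (strace_le hS _ _ _) (pow_nonneg ht.le _)) (hag θ) (abs_nonneg _)
        (by positivity))
    (fun θ => (abs_add_le _ _).trans (add_le_add (hb1 θ) (hb2 θ)))
    (fun θ => (mul_le_mul_of_nonneg_right (hpt θ) (integral_nonneg hg0)).trans (le_of_eq (by simp only [av]; ring)))
  rw [elaw_add hS hc1 hc2 hb1 hb2] at h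
  refine h.trans (add_le_add ?_ ?_)
  · have e := elaw_affine (t := t) hS hav hag (n * δ ^ (2 * p)) 0
    simp only [add_zero] at e
    have e1 : elaw t μ (fun θ => av t μ g θ) = 1 := by
      obtain ⟨Bf, hBf0, hBf⟩ := exists_bound hR hg
      have e2 := pair_fib hS ht.le (H := fun _ y => g y) (hg.comp continuous_snd) (fun _ y hy => hBf y hy) hBf0
      rw [← e2, integral_fun_fst (fun y => g y)]
      simp [hg1]
    rw [e, show elaw t μ (av t μ g) = 1 from e1, mul_one]
  · have e := elaw_affine (t := t) hS (hdT.cont.mul hav) hb2' (1 / (4 * L ^ 2)) 0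
    simp only [Pi.mul_apply, add_zero] at e
    rw [e]
    refine (mul_le_mul_of_nonneg_left
      (count_bad hS hR hμ hK hF ht hκ ha hC hq hc hmean hac hsmall hg hg0 hg1) (by positivity)).trans (le_of_eq ?_)
    ring

end

end Vale.Agent.P245
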