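import Vale.Agent.P245N.Spec
import Vale.Agent.P245N.Count

/-!
Second moment of a Lipschitz function of `θ_t` under the tilted law: concentration of the law of `θ_t` and the
variational formula of entropy.
-/

open MeasureTheory Real Filter Set
open scoped Topology RealInnerProductSpace

namespace Vale.Agent.P245N

open Vale.Agent.P245

variable {n : ℕ} {μ : Measure (Euc n)} [IsProbabilityMeasure μ] {R t : ℝ}

/-- Variational formula for the law of `θ_t`. -/
lemma eent_dv (hS : Supp μ R) {h φ : Euc n → ℝ} (hh : Continuous h) (hφ : Continuous φ) (h0 : ∀ θ, 0 ≤ h θ)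
    {B Bφ : ℝ} (hB : ∀ θ, h θ ≤ B) (hBφ : ∀ θ, |φ θ| ≤ Bφ) :
    elaw t μ (fun θ => h θ * φ θ) ≤ eent t μ h + elaw t μ h * log (elaw t μ fun θ => exp (φ θ)) := by
  have hpp := continuous_pt₂ (n := n) √t
  obtain ⟨D, hD⟩ := (isCompact_Icc (a := (0 : ℝ)) (b := B)).exists_bound_of_continuousOn
    Real.continuous_mul_log.continuousOn
  have hB0 : 0 ≤ B := (h0 0).trans (hB 0)
  have hha : ∀ θ, |h θ| ≤ B := fun θ => by rw [abs_of_nonneg (h0 θ)]; exact hB θ
  have hl : Continuous fun θ => h θ * log (h θ) := Real.continuous_mul_log.comp hh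
  have key : ∀ {f : Euc n → ℝ}, Continuous f → ∀ C : ℝ, (∀ θ, |f θ| ≤ C) →
      Integrable (fun z : Euc n × Euc n => f (pt √t z.1 z.2)) (μ.prod (gam n)) ∧
      ∫ z, f (pt √t z.1 z.2) ∂(μ.prod (gam n)) = elaw t μ f := fun {f} hf C hC => by
    have hi : Integrable (fun z : Euc n × Euc n => f (pt √t z.1 z.2)) (μ.prod (gam n)) :=
      integrable_pair hS (hf.comp hpp) fun _ _ _ => hC _
    exact ⟨hi, by rw [integral_prod _ hi]; rfl⟩
  have k1 := key hh B hha
  have k2 := key hl D fun θ => hD _ ⟨h0 θ, hB θ⟩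
  have k3 := key (hh.mul hφ) (B * Bφ) fun θ => by
    rw [Pi.mul_apply, abs_mul]; exact mul_le_mul (hha θ) (hBφ θ) (abs_nonneg _) hB0
  have k4 := key hφ.rexp (exp Bφ) fun θ => by rw [abs_exp, exp_le_exp]; exact (le_abs_self _).trans (hBφ θ)
  have h1 := integral_mul_le_ent (μ := μ.prod (gam n)) (g := fun z => h (pt √t z.1 z.2))
    (φ := fun z => φ (pt √t z.1 z.2)) (fun z => h0 _) k1.1 k2.1 k3.1 k4.1
  rw [ent, k1.2, k2.2, k4.2] at h1
  exact le_of_eq_of_le k3.2.symm h1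

theorem count : CountStmt := by
  intro n μ hμp R hR hS _hμ K hK hF g g' hg hg1 t ht ψ ψ' hψ hψb Lip hLip hψ'
  obtain ⟨Bψ, hBψ⟩ := hψb
  obtain ⟨a, B, ha, hab⟩ := av_bounds (T := t) hS hR hg.cont hg.pos
  set G := √Lip with hG
  have hG2 : G ^ 2 = Lip := Real.sq_sqrt hLip.le
  have hGb : ∀ θ, ‖ψ' θ‖ ≤ G := fun θ => by
    rw [hG, ← Real.sqrt_sq (norm_nonneg (ψ' θ))]; exact Real.sqrt_le_sqrt (hψ' θ)
  set c := Kt K t * Lip with hc
  have hc0 : 0 < c := mul_pos (by rw [Kt]; positivity) hLip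
  set m := elaw t μ ψ with hm
  have hmgf : ∀ l, elaw t μ (fun θ => exp (l * ψ θ)) ≤ exp (l * m + c * l ^ 2) := fun l => by
    refine (elaw_mgf_lip hS hK.le hF ht.le hψ hBψ hGb l).trans (le_of_eq ?_)
    rw [hG2, hc, Kt, ← hm]; ring_nf
  have hexp := elaw_exp_sq_le (t := t) hS hψ.cont hBψ hc0 hmgf
  have hsq : ∀ θ, |ψ θ ^ 2 / (16 * c)| ≤ Bψ ^ 2 / (16 * c) := fun θ => by
    rw [abs_of_nonneg (by positivity)]
    refine div_le_div_of_nonneg_right ?_ (by positivity)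
    rw [← sq_abs]; exact pow_le_pow_left₀ (abs_nonneg _) (hBψ θ) 2
  have hdv := eent_dv (t := t) (h := av t μ g) (φ := fun θ => ψ θ ^ 2 / (16 * c)) hS (continuous_av hS hg.cont)
    ((hψ.cont.pow 2).div_const _) (fun θ => (ha.trans_le (hab θ).1).le) (fun θ => (hab θ).2) hsq
  have e1 : elaw t μ (av t μ g) = 1 := by
    obtain ⟨Bf, hBf0, hBf⟩ := exists_bound hR hg.cont
    rw [← hg1]
    refine (pair_fib hS ht.le (H := fun _ y => g y) (hg.cont.comp continuous_snd)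
      (fun _ y hy => hBf y hy) hBf0).symm.trans ?_
    rw [integral_fun_fst]; simp
  rw [e1, one_mul] at hdv
  have hpos : 0 < elaw t μ fun θ => exp (ψ θ ^ 2 / (16 * c)) := by
    refine lt_of_lt_of_le one_pos ?_
    have h1 := elaw_mono (t := t) hS (h₁ := fun _ => (1 : ℝ)) (h₂ := fun θ => exp (ψ θ ^ 2 / (16 * c)))
      continuous_const ((hψ.cont.pow 2).div_const _).rexp (B₁ := 1) (B₂ := exp (Bψ ^ 2 / (16 * c)))
      (fun _ => by simp) (fun θ => by rw [abs_exp, exp_le_exp]; exact (le_abs_self _).trans (hsq θ))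
      fun θ => one_le_exp (by positivity)
    rwa [elaw_const] at h1
  have h1 := hdv.trans (add_le_add le_rfl ((log_le_log hpos hexp).trans_eq (log_exp _)))
  have hlin : elaw t μ (fun θ => av t μ g θ * (ψ θ ^ 2 / (16 * c))) = qexp t μ g (fun θ => ψ θ ^ 2) / (16 * c) := by
    have hb : ∀ θ, |av t μ g θ * ψ θ ^ 2| ≤ B * Bψ ^ 2 := fun θ => by
      rw [abs_mul, abs_of_pos (ha.trans_le (hab θ).1), abs_pow]
      exact mul_le_mul (hab θ).2 (pow_le_pow_left₀ (abs_nonneg _) (hBψ θ) 2) (by positivity)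
        ((ha.trans_le (hab θ).1).le.trans (hab θ).2)
    have h := elaw_affine (t := t) (h := fun θ => av t μ g θ * ψ θ ^ 2) hS
      ((continuous_av hS hg.cont).mul (hψ.cont.pow 2)) hb (1 / (16 * c)) 0
    rw [add_zero] at h
    simp only [add_zero] at h
    rw [qexp, div_eq_inv_mul, ← one_div, ← h]
    refine congrArg (elaw t μ) (funext fun θ => ?_)
    ring
  rw [hlin] at h1
  have hm2 : m ^ 2 ≤ elaw t μ fun θ => ψ θ ^ 2 := by
    have hb : ∀ θ, |ψ θ ^ 2| ≤ Bψ ^ 2 := fun θ => by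
      rw [abs_pow]; exact pow_le_pow_left₀ (abs_nonneg _) (hBψ θ) 2
    have h := elaw_mono (t := t) hS (h₁ := fun θ => 2 * m * ψ θ + -(m ^ 2)) (h₂ := fun θ => ψ θ ^ 2)
      ((hψ.cont.const_mul _).add continuous_const) (hψ.cont.pow 2) (B₁ := |2 * m| * Bψ + m ^ 2) (B₂ := Bψ ^ 2)
      (fun θ => (abs_add_le _ _).trans (add_le_add (by
        rw [abs_mul]; exact mul_le_mul_of_nonneg_left (hBψ θ) (abs_nonneg _))
        (le_of_eq (by rw [abs_neg, abs_of_nonneg (sq_nonneg m)])))) hb fun θ => by nlinarith [sq_nonneg (ψ θ - m)]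
    rw [elaw_affine hS hψ.cont hBψ, ← hm] at h
    linarith
  rw [div_le_iff₀ (by positivity)] at h1
  have e2 : (eent t μ (av t μ g) + (1 / 2 + m ^ 2 / (4 * c))) * (16 * c)
      = 16 * c * eent t μ (av t μ g) + 8 * c + 4 * m ^ 2 := by field_simp; ring
  rw [e2] at h1
  linarith

end Vale.Agent.P245N
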