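import Vale.Agent.P245N.Spec

/-!
# P245N: the cutoff built from rational steps, in one eigenbasis
-/

open MeasureTheory Real Filter Set
open scoped Topology RealInnerProductSpace

namespace Vale.Agent.P245N

open Vale.Agent.P245

variable {n : ℕ} {A : Op n} {b : OrthonormalBasis (Fin n) ℝ (Euc n)} {l : Fin n → ℝ}

/-- two operators agreeing on a basis are equal -/
lemma op_ext {S T : Op n} (h : ∀ i, S (b i) = T (b i)) : S = T :=
  ContinuousLinearMap.coe_injective (b.toBasis.ext fun i => by simpa using h i)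

/-- coordinates of a diagonal operator -/
lemma inner_apply_eigen (he : ∀ i, A (b i) = l i • b i) (i : Fin n) (v : Euc n) :
    ⟪b i, A v⟫ = l i * ⟪b i, v⟫ := by
  conv_lhs => rw [← b.sum_repr' v]
  simp only [map_sum, map_smul, he, inner_sum, inner_smul_right, b.inner_eq_ite, mul_ite, mul_one,
    mul_zero, Finset.sum_ite_eq, Finset.mem_univ, if_true]
  ring

lemma isUnit_shift (he : ∀ i, A (b i) = l i • b i) {M : ℝ} (h : ∀ i, l i + M ≠ 0) :
    IsUnit (A + M • (1 : Op n)) := by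
  set N : Op n := ∑ i, (l i + M)⁻¹ • (innerSL ℝ (b i)).smulRight (b i)
  have hN : ∀ j, N (b j) = (l j + M)⁻¹ • b j := fun j => by
    simp [N, b.inner_eq_ite, ite_smul]
  have hT : ∀ j, (A + M • (1 : Op n)) (b j) = (l j + M) • b j := fun j => by
    simp [he, add_smul]
  refine ⟨⟨A + M • (1 : Op n), N, op_ext (b := b) fun j => ?_, op_ext (b := b) fun j => ?_⟩, rfl⟩
  · rw [ContinuousLinearMap.mul_def, ContinuousLinearMap.comp_apply, hN, map_smul, hT, smul_smul,
      inv_mul_cancel₀ (h j)]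
    simp
  · rw [ContinuousLinearMap.mul_def, ContinuousLinearMap.comp_apply, hT, map_smul, hN, smul_smul,
      mul_inv_cancel₀ (h j)]
    simp

/-- the resolvent acts diagonally -/
lemma inverse_apply_eigen (he : ∀ i, A (b i) = l i • b i) {M : ℝ} (h : ∀ i, l i + M ≠ 0) (i : Fin n) :
    Ring.inverse (A + M • (1 : Op n)) (b i) = (l i + M)⁻¹ • b i := by
  have h1 := congrArg (fun T : Op n => T (b i)) (Ring.inverse_mul_cancel _ (isUnit_shift he h))
  simp only [ContinuousLinearMap.mul_def, ContinuousLinearMap.comp_apply, add_apply, smul_apply,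
    one_apply_eq_self, he, ← add_smul, map_smul] at h1
  rw [← inv_smul_smul₀ (h i) (Ring.inverse (A + M • (1 : Op n)) (b i)), h1]

lemma Sv_apply_eigen (he : ∀ i, A (b i) = l i • b i) {M : ℝ} (h : ∀ i, l i + M ≠ 0) (i : Fin n) :
    Sv M A (b i) = (l i / (l i + M)) • b i := by
  rw [Sv, ContinuousLinearMap.mul_def, ContinuousLinearMap.comp_apply, inverse_apply_eigen he h, map_smul,
    he, smul_smul, mul_comm, div_eq_mul_inv]

lemma Sv_pow_apply_eigen (he : ∀ i, A (b i) = l i • b i) {M : ℝ} (h : ∀ i, l i + M ≠ 0) (p : ℕ) (i : Fin n) :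
    (Sv M A ^ p) (b i) = (l i / (l i + M)) ^ p • b i :=
  pow_apply_eigen (fun j => Sv_apply_eigen he h j) p i

/-- the eigenvalues of the cutoff -/
noncomputable def fcut (p L : ℕ) (M x : ℝ) : ℝ :=
  (L : ℝ)⁻¹ * ∑ k ∈ Finset.range L, (x / (x + M * 2 ^ k)) ^ p

lemma Fc_apply_eigen (he : ∀ i, A (b i) = l i • b i) {M : ℝ} (hM : 0 < M) (hl : ∀ i, 0 ≤ l i) (p L : ℕ)
    (i : Fin n) : Fc p L M A (b i) = fcut p L M (l i) • b i := by
  rw [Fc, fcut, smul_apply, sum_apply, ← smul_smul, Finset.sum_smul]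
  congr 1
  refine Finset.sum_congr rfl fun k _ => Sv_pow_apply_eigen he (fun j => ?_) p i
  have := hl j
  positivity

section scalar

variable {p L : ℕ} {M x : ℝ}

lemma step_mem (hM : 0 < M) (hx : 0 ≤ x) : 0 ≤ x / (x + M) ∧ x / (x + M) ≤ 1 :=
  ⟨by positivity, div_le_one_of_le₀ (by linarith) (by linarith)⟩

lemma fcut_mem (hL : 1 ≤ L) (hM : 0 < M) (hx : 0 ≤ x) : 0 ≤ fcut p L M x ∧ fcut p L M x ≤ 1 := by
  have h := fun k : ℕ => step_mem (show 0 < M * 2 ^ k by positivity) hx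
  refine ⟨mul_nonneg (by positivity) (Finset.sum_nonneg fun k _ => pow_nonneg (h k).1 p), ?_⟩
  rw [fcut, inv_mul_le_iff₀ (by exact_mod_cast hL), mul_one]
  exact (Finset.sum_le_sum fun k _ => pow_le_one₀ (h k).1 (h k).2).trans_eq (by simp)

lemma fcut_le_ratio (hL : 1 ≤ L) (hM : 0 < M) (hx : 0 ≤ x) {B : ℝ} (hxB : x ≤ B) :
    fcut p L M x ≤ (B / M) ^ p := by
  rw [fcut, inv_mul_le_iff₀ (by exact_mod_cast hL)]
  refine (Finset.sum_le_sum fun k _ => pow_le_pow_left₀ (step_mem (show 0 < M * 2 ^ k by positivity) hx).1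
    (?_ : x / (x + M * 2 ^ k) ≤ B / M) p).trans_eq (by simp)
  exact div_le_div₀ (hx.trans hxB) hxB hM
    (le_add_of_nonneg_of_le hx (le_mul_of_one_le_right hM.le (one_le_pow₀ one_le_two)))

lemma fcut_near_one (hL : 1 ≤ L) (hM : 0 < M) (hx : 0 ≤ x) {τ : ℝ} (hτ : 0 < τ) (hy : τ * x ≤ 1) :
    (1 - fcut p L M x) ^ 2 ≤ 2 * (1 - τ * x) + 4 * p * (τ * M * 2 ^ L) / L := by
  obtain ⟨f0, f1⟩ := fcut_mem (p := p) hL hM hx
  have hsq : (1 - fcut p L M x) ^ 2 ≤ 1 - fcut p L M x := by nlinarith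
  have hnn : 0 ≤ 4 * (p:ℝ) * (τ * M * 2 ^ L) / L := by positivity
  rcases lt_or_ge (τ * x) (1 / 2) with h | h
  · linarith
  have hx0 : 0 < x := by
    by_contra h0
    nlinarith [not_lt.1 h0]
  have hs : ∀ k : ℕ, 1 - (x / (x + M * 2 ^ k)) ^ p ≤ 2 * p * τ * M * 2 ^ k := fun k => by
    have hm : 0 < M * 2 ^ k := by positivity
    obtain ⟨s0, s1⟩ := step_mem hm hx
    have hb := one_add_mul_le_pow (a := x / (x + M * 2 ^ k) - 1) (by linarith) p
    rw [add_sub_cancel] at hb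
    have h2 : 1 - x / (x + M * 2 ^ k) ≤ 2 * τ * (M * 2 ^ k) := by
      rw [one_sub_div (by positivity), add_sub_cancel_left]
      refine (div_le_div_of_nonneg_left hm.le hx0 (by linarith)).trans ?_
      rw [div_le_iff₀ hx0]
      nlinarith
    have h3 := mul_le_mul_of_nonneg_left h2 (Nat.cast_nonneg (α := ℝ) p)
    linarith
  have hgeo : ∀ K : ℕ, ∑ k ∈ Finset.range K, (2:ℝ) ^ k ≤ 2 ^ K := fun K => by
    induction K with
    | zero => simp
    | succ K ih => rw [Finset.sum_range_succ, pow_succ]; linarith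
  have hmain : 1 - fcut p L M x ≤ 2 * p * τ * M * 2 ^ L / L := by
    have hL' : (0:ℝ) < L := Nat.cast_pos.2 hL
    have e : 1 - fcut p L M x = (∑ k ∈ Finset.range L, (1 - (x / (x + M * 2 ^ k)) ^ p)) / L := by
      rw [Finset.sum_sub_distrib, fcut, sub_div, inv_mul_eq_div]
      simp [hL'.ne']
    rw [e]
    refine div_le_div_of_nonneg_right ((Finset.sum_le_sum fun k _ => hs k).trans ?_) hL'.le
    rw [← Finset.mul_sum]
    exact mul_le_mul_of_nonneg_left (hgeo L) (by positivity)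
  have e2 : 2 * (p:ℝ) * τ * M * 2 ^ L / L * 2 = 4 * p * (τ * M * 2 ^ L) / L := by ring
  linarith

end scalar

theorem cut : CutStmt := by
  intro n p L M A _ hL hM hA hpos
  obtain ⟨b, l, he⟩ := hA.exists_eigen
  have hb : ∀ i, ‖b i‖ = 1 := b.orthonormal.1
  have hl : ∀ i, 0 ≤ l i := fun i => by
    have h := hpos (b i)
    rwa [he, inner_smul_right, real_inner_self_eq_norm_sq, hb, one_pow, mul_one] at h
  have hF := fun i => Fc_apply_eigen he hM hl p L i
  have hm := fun i => fcut_mem (p := p) hL hM (hl i)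
  have hfr : frob (Fc p L M A) = ∑ i, fcut p L M (l i) ^ 2 := by
    rw [frob_basis _ b]
    refine Finset.sum_congr rfl fun i _ => ?_
    rw [hF, norm_smul, hb, mul_one, norm_eq_abs, sq_abs]
  refine ⟨fun v => ?_, ?_, ?_, fun τ hτ hτA v => ?_⟩
  · rw [← pow_le_pow_iff_left₀ (norm_nonneg _) (norm_nonneg _) two_ne_zero,
      norm_sq_eq_sum b (Fc p L M A v), norm_sq_eq_sum b v]
    refine Finset.sum_le_sum fun i _ => ?_
    rw [inner_apply_eigen hF, mul_pow]
    exact mul_le_of_le_one_left (sq_nonneg _) (pow_le_one₀ (hm i).1 (hm i).2)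
  · rw [hfr]
    exact (Finset.sum_le_sum fun i _ => pow_le_one₀ (hm i).1 (hm i).2).trans_eq (by simp)
  · rw [hfr]
    refine (Finset.sum_le_sum fun i _ => (?_ : fcut p L M (l i) ^ 2 ≤ (‖A‖ / M) ^ (2 * p))).trans_eq (by simp)
    rw [mul_comm 2 p, pow_mul]
    refine pow_le_pow_left₀ (hm i).1 (fcut_le_ratio hL hM (hl i) ?_) 2
    have h := A.le_opNorm (b i)
    rwa [he, norm_smul, hb, mul_one, mul_one, norm_eq_abs, abs_of_nonneg (hl i)] at h
  · have hy : ∀ i, τ * l i ≤ 1 := fun i => by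
      have h := hτA (b i)
      rwa [he, inner_smul_right, real_inner_self_eq_norm_sq, hb, one_pow, mul_one] at h
    have e : ∀ i, ⟪b i, v - Fc p L M A v⟫ = (1 - fcut p L M (l i)) * ⟪b i, v⟫ := fun i => by
      rw [inner_sub_right, inner_apply_eigen hF]; ring
    rw [norm_sq_eq_sum b (v - Fc p L M A v), norm_sq_eq_sum b v, quad_eigen he, Finset.mul_sum,
      ← Finset.sum_sub_distrib, Finset.mul_sum, Finset.mul_sum, ← Finset.sum_add_distrib]
    refine Finset.sum_le_sum fun i _ => ?_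
    rw [e, mul_pow]
    refine (mul_le_mul_of_nonneg_right (fcut_near_one hL hM (hl i) hτ (hy i)) (sq_nonneg _)).trans_eq ?_
    ring

end Vale.Agent.P245N
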