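import Vale.Agent.P245.Quarter

/-!
Shared definitions for the route to `K_n ≤ C_ε n^ε` (see `notes/P245_helper55_v2.md`).
-/

open MeasureTheory Real Filter Set
open scoped Topology RealInnerProductSpace

namespace Vale.Agent.P245N

open Vale.Agent.P245

variable {n : ℕ}

/-- Upper quadratic bound at every point, `φ'` being the gradient. -/
def SC (a : ℝ) (φ : Euc n → ℝ) (φ' : Euc n → Euc n) : Prop :=
  ∀ x y, φ y ≤ φ x + ⟪φ' x, y - x⟫ + a / 2 * ‖y - x‖ ^ 2

/-- Defective logarithmic Sobolev inequality on normalised exponentials of semiconcave functions. -/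
def Semi (μ : Measure (Euc n)) (K z a : ℝ) : Prop :=
  ∀ (φ : Euc n → ℝ) (φ' : Euc n → Euc n), D1 φ φ' → SC a φ φ' → ∫ x, exp (φ x) ∂μ = 1 →
    ent μ (fun x => exp (φ x)) ≤ K * ∫ x, ‖φ' x‖ ^ 2 * exp (φ x) ∂μ + z

/-- A continuously differentiable vector field with its derivative. -/
structure V1 (Δ : Euc n → Euc n) (Δ' : Euc n → Op n) : Prop where
  deriv : ∀ x, HasFDerivAt Δ (Δ' x) x
  cont' : Continuous Δ'

lemma V1.cont {Δ : Euc n → Euc n} {Δ' : Euc n → Op n} (h : V1 Δ Δ') : Continuous Δ :=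
  continuous_iff_continuousAt.2 fun x => (h.deriv x).continuousAt

/-- Time constant of the law of the localisation parameter. -/
noncomputable def Kt (K t : ℝ) : ℝ := t ^ 2 * K + t / 2

/-- Score `cov / av`, the difference of the tilted and plain fibre barycentres. -/
noncomputable def dd (t : ℝ) (μ : Measure (Euc n)) (g : Euc n → ℝ) (θ : Euc n) : Euc n :=
  (av t μ g θ)⁻¹ • cov t μ g θ

/-- Expectation of `h (θ_t)` under the tilted law. -/
noncomputable def qexp (t : ℝ) (μ : Measure (Euc n)) (g h : Euc n → ℝ) : ℝ :=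
  elaw t μ fun θ => av t μ g θ * h θ

/-- Entropy with respect to the law of `θ_t`. -/
noncomputable def eent (t : ℝ) (μ : Measure (Euc n)) (h : Euc n → ℝ) : ℝ :=
  elaw t μ (fun θ => h θ * log (h θ)) - elaw t μ h * log (elaw t μ h)

/-- Fisher information at time `t`. -/
noncomputable def info (t : ℝ) (μ : Measure (Euc n)) (g : Euc n → ℝ) : ℝ :=
  qexp t μ g fun θ => ‖dd t μ g θ‖ ^ 2

/-- Likelihood ratio of the Gaussian channel `z = √r Δ(θ) + G`. -/
noncomputable def chan (r : ℝ) (Δ : Euc n → Euc n) (z θ : Euc n) : ℝ :=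
  exp (√r * ⟪Δ θ, z⟫ - r / 2 * ‖Δ θ‖ ^ 2)

/-- Density of the channel output. -/
noncomputable def cmass (r t : ℝ) (μ : Measure (Euc n)) (g : Euc n → ℝ) (Δ : Euc n → Euc n) (z : Euc n) : ℝ :=
  qexp t μ g (chan r Δ z)

/-- Conditional expectation of `Δ` given the channel output. -/
noncomputable def cmean (r t : ℝ) (μ : Measure (Euc n)) (g : Euc n → ℝ) (Δ : Euc n → Euc n) (z : Euc n) : Euc n :=
  (cmass r t μ g Δ z)⁻¹ • ∑ a, qexp t μ g (fun θ => chan r Δ z θ * ⟪stdb n a, Δ θ⟫) • stdb n a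

/-- Second moment of the conditional expectation. -/
noncomputable def cw2 (r t : ℝ) (μ : Measure (Euc n)) (g : Euc n → ℝ) (Δ : Euc n → Euc n) : ℝ :=
  ∫ z, cmass r t μ g Δ z * ‖cmean r t μ g Δ z‖ ^ 2 ∂(gam n)

/-- Entropy of the joint law of `(θ, z)`, namely `D_t` plus the mutual information. -/
noncomputable def cent (r t : ℝ) (μ : Measure (Euc n)) (g : Euc n → ℝ) (Δ : Euc n → Euc n) : ℝ :=
  ∫ z, eent t μ (fun θ => av t μ g θ * chan r Δ z θ) ∂(gam n)

/-- Smoothed indicator of operators of norm larger than `C`. -/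
noncomputable def big (C : ℝ) (A : Op n) : ℝ := max 0 (min 1 (‖A‖ - C))

/-- The quantity `tr (Hᵀ A H A)`. -/
noncomputable def qv2 (A H : Op n) : ℝ := ∑ i, ⟪A (H (stdb n i)), H (A (stdb n i))⟫

/-- Variance bound `Q · tr (Hᵀ A H A)` for all quadratic forms under one fibre. -/
def QV (Q t : ℝ) (μ : Measure (Euc n)) (θ : Euc n) : Prop :=
  ∀ H : Op n, ∫ x, (⟪cen t μ θ x, H (cen t μ θ x)⟫
      - ∫ y, ⟪cen t μ θ y, H (cen t μ θ y)⟫ ∂(fib t μ θ)) ^ 2 ∂(fib t μ θ)
    ≤ Q * qv2 (Aop t μ θ) H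

/-- The rational step `A (A + M)⁻¹`. -/
noncomputable def Sv (M : ℝ) (A : Op n) : Op n := A * Ring.inverse (A + M • (1 : Op n))

/-- Dyadic average of powers of rational steps. -/
noncomputable def Fc (p L : ℕ) (M : ℝ) (A : Op n) : Op n :=
  (L : ℝ)⁻¹ • ∑ k ∈ Finset.range L, Sv (M * 2 ^ k) A ^ p

/-- The cutoff at the fibre covariance. -/
noncomputable def Ff (p L : ℕ) (M t : ℝ) (μ : Measure (Euc n)) (θ : Euc n) : Op n := Fc p L M (Aop t μ θ)

end Vale.Agent.P245N
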