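import Vale.Agent.P245N.DV

open MeasureTheory Real Filter Set
open scoped Topology RealInnerProductSpace

namespace Vale.Agent.P245

variable {n : ℕ}

/-- Density, relative to the Gaussian law, of the channel `z = a θ + noise`. -/
noncomputable def chd (a : Euc n → Euc n) (θ z : Euc n) : ℝ := exp (⟪a θ, z⟫ - ‖a θ‖ ^ 2 / 2)

/-- Density of the channel output under the tilted law. -/
noncomputable def chm (t : ℝ) (μ : Measure (Euc n)) (g : Euc n → ℝ) (a : Euc n → Euc n) (z : Euc n) : ℝ :=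
  elaw t μ fun θ => chd a θ z * av t μ g θ

/-- Mutual information between the parameter, under the tilted law, and the channel output. -/
noncomputable def chMI (t : ℝ) (μ : Measure (Euc n)) (g : Euc n → ℝ) (a : Euc n → Euc n) : ℝ :=
  ∫ z, (elaw t μ (fun θ => chd a θ z * log (chd a θ z) * av t μ g θ)
    - chm t μ g a z * log (chm t μ g a z)) ∂(gam n)

lemma chd_pos (a : Euc n → Euc n) (θ z : Euc n) : 0 < chd a θ z := exp_pos _

lemma continuous_chd {a : Euc n → Euc n} (ha : Continuous a) :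
    Continuous (Function.uncurry (chd a)) := by
  unfold chd Function.uncurry; fun_prop

lemma chd_le {a : Euc n → Euc n} {A : ℝ} (hA : ∀ θ, ‖a θ‖ ≤ A) (θ z : Euc n) :
    chd a θ z ≤ exp (A * ‖z‖) := by
  rw [chd, exp_le_exp]
  have h1 := (real_inner_le_norm (a θ) z).trans (mul_le_mul_of_nonneg_right (hA θ) (norm_nonneg _))
  linarith [sq_nonneg ‖a θ‖]

lemma integral_chd (a : Euc n → Euc n) (θ : Euc n) : ∫ z, chd a θ z ∂(gam n) = 1 := by
  simp only [chd, exp_sub]
  rw [integral_div, integral_gam_exp_inner, div_self (exp_ne_zero _)]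

lemma abs_mul_log_le {r : ℝ} (hr : 0 ≤ r) : |r * log r| ≤ 1 + r ^ 2 := by
  rcases hr.eq_or_lt with h | h
  · simp [← h]
  have h1 := log_le_sub_one_of_pos h
  have h2 := mul_log_sub_ge r (c := 1) hr one_pos
  rw [log_one, mul_zero, sub_zero] at h2
  rw [abs_le]
  constructor <;> nlinarith [mul_le_mul_of_nonneg_left h1 hr]

section

variable {μ : Measure (Euc n)} [IsProbabilityMeasure μ] {R t : ℝ}

/-- Subgaussian bound for the centred joint exponential moment. -/
lemma exp_shift_le (hS : Supp μ R) {C : ℝ} {m₀ : Euc n}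
    (hsub : ∀ v, ∫ x, exp ⟪v, x⟫ ∂μ ≤ exp (⟪v, m₀⟫ + C * ‖v‖ ^ 2))
    (ht : 0 ≤ t) (v : Euc n) :
    ∫ z, exp (⟪v, z.1⟫ - ⟪v, bary t μ (pt (√t) z.1 z.2)⟫) ∂(μ.prod (gam n)) ≤ exp (4 * C * ‖v‖ ^ 2) := by
  have hb : Continuous fun z : Euc n × Euc n => bary t μ (pt (√t) z.1 z.2) :=
    (continuous_bary hS).comp (continuous_pt₂ _)
  set c := ⟪v, m₀⟫ with hc₀
  set u : Euc n := (-2 : ℝ) • v with hu
  have hu2 : ‖u‖ ^ 2 = 4 * ‖v‖ ^ 2 := by rw [hu, norm_smul, mul_pow]; norm_num
  have hv2 : ‖(2 : ℝ) • v‖ ^ 2 = 4 * ‖v‖ ^ 2 := by rw [norm_smul, mul_pow]; norm_num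
  have i1 : Integrable (fun z : Euc n × Euc n => exp ⟪(2 : ℝ) • v, z.1⟫) (μ.prod (gam n)) :=
    integrable_pair hS (by fun_prop) (B := exp (‖(2 : ℝ) • v‖ * R)) fun x G hx => by
      rw [abs_exp, exp_le_exp]
      exact (real_inner_le_norm _ _).trans (mul_le_mul_of_nonneg_left hx (norm_nonneg _))
  have hbb : ∀ θ, exp ⟪u, bary t μ θ⟫ ≤ exp (‖u‖ * R) := fun θ => exp_le_exp.2
    ((real_inner_le_norm _ _).trans (mul_le_mul_of_nonneg_left (norm_bary_le hS _) (norm_nonneg _)))
  have i2 : Integrable (fun z : Euc n × Euc n => exp ⟪u, bary t μ (pt (√t) z.1 z.2)⟫) (μ.prod (gam n)) :=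
    integrable_pair hS (by fun_prop) (B := exp (‖u‖ * R)) fun x G hx => by
      rw [abs_exp]; exact hbb _
  have h1 : ∫ z : Euc n × Euc n, exp ⟪(2 : ℝ) • v, z.1⟫ ∂(μ.prod (gam n)) ≤ exp (2 * c + 4 * C * ‖v‖ ^ 2) := by
    rw [integral_fun_fst (fun x => exp ⟪(2 : ℝ) • v, x⟫)]
    simp only [probReal_univ, one_smul]
    exact (hsub _).trans (le_of_eq (by rw [hv2, real_inner_smul_left, ← hc₀]; ring_nf))
  have h2 : ∫ z : Euc n × Euc n, exp ⟪u, bary t μ (pt (√t) z.1 z.2)⟫ ∂(μ.prod (gam n))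
      ≤ exp (-2 * c + 4 * C * ‖v‖ ^ 2) := by
    have hc : Continuous fun y : Euc n => exp ⟪u, y⟫ := by fun_prop
    have hbnd : ∀ _θ y : Euc n, ‖y‖ ≤ R → |exp ⟪u, y⟫| ≤ exp (‖u‖ * R) := fun _ y hy => by
      rw [abs_exp, exp_le_exp]
      exact (real_inner_le_norm _ _).trans (mul_le_mul_of_nonneg_left hy (norm_nonneg _))
    have e := pair_fib hS ht (H := fun _ y => exp ⟪u, y⟫) (hc.comp continuous_snd) hbnd (exp_pos _).le
    have e2 := pair_fib hS ht (H := fun θ _ => exp ⟪u, bary t μ θ⟫)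
      ((continuous_exp.comp ((continuous_const.inner (𝕜 := ℝ) (continuous_bary hS)))).comp continuous_fst)
      (B := exp (‖u‖ * R)) (fun θ _ _ => by rw [abs_exp]; exact hbb θ) (exp_pos _).le
    have e3 : ∀ θ, av t μ (fun _ => exp ⟪u, bary t μ θ⟫) θ = exp ⟪u, bary t μ θ⟫ := fun θ => av_const hS _ _
    simp only [e3] at e2
    rw [e2]
    refine le_trans (elaw_mono hS (B₁ := exp (‖u‖ * R)) (B₂ := exp (‖u‖ * R))
      (continuous_exp.comp (continuous_const.inner (𝕜 := ℝ) (continuous_bary hS))) (continuous_av (T := t) hS hc)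
      (fun θ => by rw [abs_exp]; exact hbb θ)
      (fun θ => abs_av_le hS (fun y hy => hbnd θ y hy) θ) fun θ => ?_) ?_
    · have := isProb_fib (T := t) hS θ
      have hsf := supp_fib (T := t) hS θ
      have h := integral_le_log_integral_exp (μ := fib t μ θ) (φ := fun y => ⟪u, y⟫) (hsf.integrable (by fun_prop))
        (hsf.integrable hc)
      rw [inner_bary hS] at h
      exact (exp_le_exp.2 h).trans (le_of_eq (exp_log (integral_exp_pos (hsf.integrable hc))))
    · rw [← e, integral_fun_fst (fun x => exp ⟪u, x⟫)]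
      simp only [probReal_univ, one_smul]
      exact (hsub _).trans (le_of_eq (by rw [hu2, hu, real_inner_smul_left, ← hc₀]; ring_nf))
  refine (integral_mono_of_nonneg (Eventually.of_forall fun z => (exp_pos _).le)
    (((i1.const_mul (exp (-2 * c))).add (i2.const_mul (exp (2 * c)))).div_const 2)
    (Eventually.of_forall fun z => ?_)).trans ?_
  · simp only [Pi.add_apply, hu, real_inner_smul_left]
    set a := ⟪v, z.1⟫
    set b := ⟪v, bary t μ (pt (√t) z.1 z.2)⟫
    have e1 : exp (-2 * c) * exp (2 * a) = exp (a - c) * exp (a - c) := by rw [← exp_add, ← exp_add]; ring_nf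
    have e2 : exp (2 * c) * exp (-2 * b) = exp (c - b) * exp (c - b) := by rw [← exp_add, ← exp_add]; ring_nf
    rw [e1, e2, show a - b = (a - c) + (c - b) by ring, exp_add]
    nlinarith [sq_nonneg (exp (a - c) - exp (c - b))]
  · simp only [Pi.add_apply]
    rw [integral_div, integral_add (i1.const_mul _) (i2.const_mul _), integral_const_mul, integral_const_mul]
    have k1 := mul_le_mul_of_nonneg_left h1 (exp_pos (-2 * c)).le
    have k2 := mul_le_mul_of_nonneg_left h2 (exp_pos (2 * c)).le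
    rw [← exp_add] at k1 k2
    rw [show -2 * c + (2 * c + 4 * C * ‖v‖ ^ 2) = 4 * C * ‖v‖ ^ 2 by ring] at k1
    rw [show 2 * c + (-2 * c + 4 * C * ‖v‖ ^ 2) = 4 * C * ‖v‖ ^ 2 by ring] at k2
    linarith

/-- Exchange of the output variable and the parameter. -/
lemma swap_gam (hS : Supp μ R) {h : Euc n → Euc n → ℝ} (hh : Continuous (Function.uncurry h)) {B c : ℝ}
    (hB : ∀ θ z, |h θ z| ≤ B * exp (c * ‖z‖)) :
    Integrable (fun z => elaw t μ fun θ => h θ z) (gam n) ∧
      ∫ z, elaw t μ (fun θ => h θ z) ∂(gam n) = elaw t μ fun θ => ∫ z, h θ z ∂(gam n) := by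
  set P := μ.prod (gam n) with hP
  have hc : Continuous fun w : Euc n × (Euc n × Euc n) => h (pt (√t) w.2.1 w.2.2) w.1 :=
    hh.comp (((continuous_pt₂ _).comp continuous_snd).prodMk continuous_fst)
  have hi : Integrable (fun w : Euc n × (Euc n × Euc n) => h (pt (√t) w.2.1 w.2.2) w.1) ((gam n).prod P) :=
    (((expInt_gam (n := n) c).const_mul B).comp_fst P).mono' hc.aestronglyMeasurable
      (Eventually.of_forall fun w => hB _ _)
  have e : ∀ z, elaw t μ (fun θ => h θ z) = ∫ y, h (pt (√t) y.1 y.2) z ∂P := fun z => by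
    have hiz : Integrable (fun y : Euc n × Euc n => h (pt (√t) y.1 y.2) z) P :=
      integrable_pair hS (hh.comp ((continuous_pt₂ _).prodMk continuous_const)) (B := B * exp (c * ‖z‖))
        fun x G _ => hB _ z
    rw [hP, integral_prod _ hiz]
    rfl
  simp only [e]
  refine ⟨hi.integral_prod_left, ?_⟩
  rw [integral_integral_swap hi]
  have hr := hi.integral_prod_right
  rw [hP, integral_prod _ hr]
  rfl

/-- A channel output which is correlated with the score costs entropy. -/
theorem final_channel (hS : Supp μ R) (hR : 0 ≤ R) {C : ℝ}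
    {m₀ : Euc n}
    (hsub : ∀ v, ∫ x, exp ⟪v, x⟫ ∂μ ≤ exp (⟪v, m₀⟫ + C * ‖v‖ ^ 2)) {g : Euc n → ℝ} (hg : Continuous g)
    (hg0 : ∀ x, 0 ≤ g x) (hg1 : ∫ x, g x ∂μ = 1) (ht : 0 ≤ t) {a : Euc n → Euc n} (ha : Continuous a) {A : ℝ}
    (hA : ∀ θ, ‖a θ‖ ≤ A) {w : Euc n → Euc n} (hw : Continuous w) {W : ℝ} (hW : ∀ z, ‖w z‖ ≤ W) (l : ℝ) :
    l * ∫ z, elaw t μ (fun θ => chd a θ z * ⟪w z, cov t μ g θ⟫) ∂(gam n)
      ≤ ent μ g + chMI t μ g a + 4 * C * l ^ 2 * ∫ z, chm t μ g a z * ‖w z‖ ^ 2 ∂(gam n) := by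
  obtain ⟨Bg, hBg0, hBg⟩ := exists_bound hR hg
  have hgl : Continuous fun y => g y * log (g y) := Real.continuous_mul_log.comp hg
  obtain ⟨Bl, hBl0, hBl⟩ := exists_bound hR hgl
  simp only [norm_eq_abs] at hBg hBl
  have hA0 : 0 ≤ A := (norm_nonneg _).trans (hA 0)
  have hW0 : 0 ≤ W := (norm_nonneg _).trans (hW 0)
  have hag := abs_av_le (T := t) hS (g := g) hBg
  have hal := abs_av_le (T := t) hS (g := fun y => g y * log (g y)) hBl
  have havc := continuous_av (T := t) hS hg
  have hchd := continuous_chd ha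
  have hchd' : ∀ θ z, |chd a θ z| ≤ exp (A * ‖z‖) := fun θ z => by
    rw [abs_of_pos (chd_pos _ _ _)]; exact chd_le hA θ z
  -- the four functions of the output
  obtain ⟨i1, e1⟩ := swap_gam (t := t) hS (h := fun θ z => chd a θ z * ⟪w z, cov t μ g θ⟫)
    (hchd.mul ((hw.comp continuous_snd).inner ((continuous_cov hS hg).comp continuous_fst)))
    (B := W * (2 * Bg * R)) (c := A) fun θ z => by
      rw [abs_mul, mul_comm]
      refine mul_le_mul ((abs_real_inner_le_norm _ _).trans (mul_le_mul (hW z) (norm_cov_le hS hR hBg θ)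
        (norm_nonneg _) hW0)) (hchd' θ z) (abs_nonneg _) (by positivity)
  obtain ⟨i2, e2⟩ := swap_gam (t := t) hS (h := fun θ z => chd a θ z * av t μ (fun y => g y * log (g y)) θ)
    (hchd.mul ((continuous_av hS hgl).comp continuous_fst)) (B := Bl) (c := A) fun θ z => by
      rw [abs_mul, mul_comm]; exact mul_le_mul (hal θ) (hchd' θ z) (abs_nonneg _) hBl0
  obtain ⟨i3, -⟩ := swap_gam (t := t) hS (h := fun θ z => chd a θ z * log (chd a θ z) * av t μ g θ)
    (((hchd.mul (hchd.log fun p => (chd_pos _ _ _).ne'))).mul (havc.comp continuous_fst))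
    (B := Bg * exp (A ^ 2)) (c := 2 * A) fun θ z => by
      rw [abs_mul, mul_comm, mul_assoc]
      refine mul_le_mul (hag θ) ?_ (abs_nonneg _) hBg0
      rw [abs_mul, chd, log_exp, abs_exp]
      have h1 : |⟪a θ, z⟫ - ‖a θ‖ ^ 2 / 2| ≤ A * ‖z‖ + A ^ 2 := by
        have h2 := (abs_real_inner_le_norm (a θ) z).trans (mul_le_mul_of_nonneg_right (hA θ) (norm_nonneg _))
        have h3 := pow_le_pow_left₀ (norm_nonneg _) (hA θ) 2
        rw [abs_le] at h2 ⊢
        constructor <;> linarith [sq_nonneg ‖a θ‖, h2.1, h2.2]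
      have h4 := chd_le hA θ z
      rw [chd] at h4
      refine (mul_le_mul h4 (h1.trans ((le_add_of_nonneg_right zero_le_one).trans (add_one_le_exp _)))
        (abs_nonneg _) (exp_pos _).le).trans (le_of_eq ?_)
      rw [← exp_add, ← exp_add]; ring_nf
  obtain ⟨i4, -⟩ := swap_gam (t := t) hS (h := fun θ z => chd a θ z * av t μ g θ)
    (hchd.mul (havc.comp continuous_fst)) (B := Bg) (c := A) fun θ z => by
      rw [abs_mul, mul_comm]; exact mul_le_mul (hag θ) (hchd' θ z) (abs_nonneg _) hBg0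
  set m := fun z => chm t μ g a z with hm
  have hm' : Integrable m (gam n) := i4
  have hm0 : ∀ z, 0 ≤ m z := fun z => integral_nonneg fun x => integral_nonneg fun G =>
    mul_nonneg (chd_pos _ _ _).le (integral_nonneg hg0)
  have hmb : ∀ z, m z ≤ Bg * exp (A * ‖z‖) := fun z => by
    have h := elaw_mono (t := t) hS (h₁ := fun θ => chd a θ z * av t μ g θ) (h₂ := fun _ => Bg * exp (A * ‖z‖)) (B₁ := Bg * exp (A * ‖z‖))
      (B₂ := Bg * exp (A * ‖z‖)) ((hchd.comp (continuous_id.prodMk (continuous_const (y := z)))).mul havc)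
      continuous_const
      (fun θ => by rw [abs_mul, mul_comm Bg]; exact mul_le_mul (hchd' θ z) (hag θ) (abs_nonneg _) (exp_pos _).le)
      (fun θ => le_of_eq (abs_of_nonneg (by positivity)))
      fun θ => by
        rw [mul_comm Bg]
        exact mul_le_mul (chd_le hA θ z) ((le_abs_self _).trans (hag θ)) (integral_nonneg hg0) (exp_pos _).le
    rw [elaw_const] at h
    exact h
  have i5 : Integrable (fun z => m z * log (m z)) (gam n) := by
    refine ((integrable_const (1 : ℝ)).add ((expInt_gam (n := n) (2 * A)).const_mul (Bg ^ 2))).mono'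
      (Real.continuous_mul_log.comp_aestronglyMeasurable hm'.aestronglyMeasurable) (Eventually.of_forall fun z => ?_)
    rw [norm_eq_abs]
    refine (abs_mul_log_le (hm0 z)).trans (add_le_add le_rfl ((pow_le_pow_left₀ (hm0 z) (hmb z) 2).trans (le_of_eq ?_)))
    rw [mul_pow, ← exp_nat_mul]; push_cast; ring_nf
  have i6 : Integrable (fun z => m z * ‖w z‖ ^ 2) (gam n) := by
    refine (hm'.mul_bdd (c := W ^ 2) (hw.norm.pow 2).aestronglyMeasurable (Eventually.of_forall fun z => ?_))
    rw [norm_eq_abs, abs_of_nonneg (sq_nonneg _)]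
    exact pow_le_pow_left₀ (norm_nonneg _) (hW z) 2
  -- the inequality at each output
  have hz : ∀ z, l * elaw t μ (fun θ => chd a θ z * ⟪w z, cov t μ g θ⟫)
      ≤ elaw t μ (fun θ => chd a θ z * av t μ (fun y => g y * log (g y)) θ)
        + (elaw t μ (fun θ => chd a θ z * log (chd a θ z) * av t μ g θ) - m z * log (m z))
        + 4 * C * l ^ 2 * (m z * ‖w z‖ ^ 2) := fun z => by
    set v := l • w z with hv
    have hcz : Continuous fun θ => chd a θ z := hchd.comp (continuous_id.prodMk continuous_const)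
    have h := joint_dv hS hR hg hg0 hcz (fun θ => (chd_pos a θ z).le) (fun θ => chd_le hA θ z)
      (φ := fun θ y => ⟪v, y⟫ - ⟪v, bary t μ θ⟫)
      ((continuous_const.inner continuous_snd).sub (continuous_const.inner ((continuous_bary hS).comp continuous_fst)))
      (Bφ := 2 * (‖v‖ * R)) (fun θ y hy => by
        have b1 := (abs_real_inner_le_norm v y).trans (mul_le_mul_of_nonneg_left hy (norm_nonneg _))
        have b2 := (abs_real_inner_le_norm v (bary t μ θ)).trans
          (mul_le_mul_of_nonneg_left (norm_bary_le (T := t) hS θ) (norm_nonneg _))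
        have := abs_sub ⟪v, y⟫ ⟪v, bary t μ θ⟫
        linarith) ht
    have eL : ∀ θ, chd a θ z * av t μ (fun y => g y * (⟪v, y⟫ - ⟪v, bary t μ θ⟫)) θ
        = l * (chd a θ z * ⟪w z, cov t μ g θ⟫) + 0 := fun θ => by
      have e := inner_cov (t := t) hS hg θ v
      simp only [cen, inner_sub_right] at e
      rw [av, ← e, hv, real_inner_smul_left]; ring
    simp only [eL] at h
    rw [elaw_affine hS (h := fun θ => chd a θ z * ⟪w z, cov t μ g θ⟫)
      (hcz.mul (continuous_const.inner (continuous_cov hS hg)))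
      (B := exp (A * ‖z‖) * (W * (2 * Bg * R))) (fun θ => by
        rw [abs_mul]
        exact mul_le_mul (hchd' θ z) ((abs_real_inner_le_norm _ _).trans (mul_le_mul (hW z) (norm_cov_le hS hR hBg θ)
          (norm_nonneg _) hW0)) (abs_nonneg _) (exp_pos _).le) l 0, add_zero] at h
    have hlog : log (∫ y, exp (⟪v, y.1⟫ - ⟪v, bary t μ (pt (√t) y.1 y.2)⟫) ∂(μ.prod (gam n)))
        ≤ 4 * C * (l ^ 2 * ‖w z‖ ^ 2) := by
      refine (log_le_log (integral_exp_pos ?_) (exp_shift_le hS hsub ht v)).trans (le_of_eq ?_)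
      · refine integrable_pair hS ?_ (B := exp (2 * (‖v‖ * R))) fun x G hx => ?_
        · exact ((continuous_const.inner continuous_fst).sub
            (continuous_const.inner ((continuous_bary hS).comp (continuous_pt₂ _)))).rexp
        · rw [abs_exp, exp_le_exp]
          have b1 := (abs_real_inner_le_norm v x).trans (mul_le_mul_of_nonneg_left hx (norm_nonneg _))
          have b2 := (abs_real_inner_le_norm v (bary t μ (pt (√t) x G))).trans
            (mul_le_mul_of_nonneg_left (norm_bary_le (T := t) hS _) (norm_nonneg _))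
          rw [abs_le] at b1 b2
          linarith [b1.2, b2.1]
      · rw [log_exp, hv, norm_smul, norm_eq_abs, mul_pow, sq_abs]
    have hsum : elaw t μ (fun θ => chd a θ z * av t μ (fun y => g y * log (g y)) θ
          + chd a θ z * log (chd a θ z) * av t μ g θ)
        = elaw t μ (fun θ => chd a θ z * av t μ (fun y => g y * log (g y)) θ)
          + elaw t μ (fun θ => chd a θ z * log (chd a θ z) * av t μ g θ) := by
      obtain ⟨D, hD⟩ := (isCompact_Icc (a := (0 : ℝ)) (b := exp (A * ‖z‖))).exists_bound_of_continuousOn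
        Real.continuous_mul_log.continuousOn
      simp only [norm_eq_abs] at hD
      refine elaw_add hS (hcz.mul (continuous_av hS hgl)) ((hcz.mul (hcz.log fun θ => (chd_pos _ _ _).ne')).mul havc)
        (B₁ := exp (A * ‖z‖) * Bl) (B₂ := D * Bg) (fun θ => ?_) fun θ => ?_
      · rw [abs_mul]; exact mul_le_mul (hchd' θ z) (hal θ) (abs_nonneg _) (exp_pos _).le
      · rw [abs_mul]
        have hd := hD _ ⟨(chd_pos a θ z).le, chd_le hA θ z⟩
        exact mul_le_mul hd (hag θ) (abs_nonneg _) ((abs_nonneg _).trans hd)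
    rw [hsum] at h
    have h5 := mul_le_mul_of_nonneg_left hlog (hm0 z)
    simp only [hm, chm] at h5 ⊢
    linarith
  have i35 : Integrable (fun z => elaw t μ (fun θ => chd a θ z * log (chd a θ z) * av t μ g θ) - m z * log (m z))
      (gam n) := i3.sub i5
  have hI := integral_mono (i1.const_mul l) ((i2.fun_add i35).fun_add (i6.const_mul (4 * C * l ^ 2))) hz
  rw [integral_const_mul, integral_add (i2.fun_add i35) (i6.const_mul _),
    integral_add i2 i35, integral_const_mul, e2] at hI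
  have eE : elaw t μ (fun θ => ∫ z, chd a θ z * av t μ (fun y => g y * log (g y)) θ ∂(gam n)) = ent μ g := by
    simp only [integral_mul_const, integral_chd, one_mul]
    rw [ent, hg1, log_one, mul_zero, sub_zero]
    have e := pair_fib hS ht (H := fun _ y => g y * log (g y)) (hgl.comp continuous_snd)
      (fun _ y hy => hBl y hy) hBl0
    rw [← e, integral_fun_fst (fun y => g y * log (g y))]
    simp
  rw [eE] at hI
  exact hI

/-- If a cheap channel output explains a fraction `θ₀` of the score then that fraction is small. -/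
theorem final_gain (hS : Supp μ R) (hR : 0 ≤ R) {C : ℝ} (hC : 0 < C)
    {m₀ : Euc n}
    (hsub : ∀ v, ∫ x, exp ⟪v, x⟫ ∂μ ≤ exp (⟪v, m₀⟫ + C * ‖v‖ ^ 2)) {g : Euc n → ℝ} (hg : Continuous g)
    (hg0 : ∀ x, 0 ≤ g x) (hg1 : ∫ x, g x ∂μ = 1) (ht : 0 ≤ t) {a : Euc n → Euc n} (ha : Continuous a) {A : ℝ}
    (hA : ∀ θ, ‖a θ‖ ≤ A) {w : Euc n → Euc n} (hw : Continuous w) {W : ℝ} (hW : ∀ z, ‖w z‖ ≤ W)
    {th I Λ : ℝ} (hI : 0 < I) (hth : 0 ≤ th)
    (hgain : th * I ≤ ∫ z, elaw t μ (fun θ => chd a θ z * ⟪w z, cov t μ g θ⟫) ∂(gam n))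
    (hsize : ∫ z, chm t μ g a z * ‖w z‖ ^ 2 ∂(gam n) ≤ I) (hcost : ent μ g + chMI t μ g a ≤ Λ * I) :
    th ^ 2 ≤ 16 * C * Λ := by
  have h := final_channel hS hR hsub hg hg0 hg1 ht ha hA hw hW (th / (8 * C))
  have h1 := mul_le_mul_of_nonneg_left hgain (by positivity : 0 ≤ th / (8 * C))
  have h2 := mul_le_mul_of_nonneg_left hsize (by positivity : 0 ≤ 4 * C * (th / (8 * C)) ^ 2)
  refine le_of_mul_le_mul_right ?_ hI
  have h3 : th / (8 * C) * (th * I) - 4 * C * (th / (8 * C)) ^ 2 * I ≤ Λ * I := by linarith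
  have e : th / (8 * C) * (th * I) - 4 * C * (th / (8 * C)) ^ 2 * I = th ^ 2 * I / (16 * C) := by field_simp; ring
  rw [e, div_le_iff₀ (by positivity)] at h3
  linarith

end

end Vale.Agent.P245
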