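import Vale.Agent.P245N.Spec

/-!
The test field `F d` for a semiconcave exponential and the smoothed square root of the count (`GradStmt`).
-/

open MeasureTheory Real Filter Set
open scoped Topology RealInnerProductSpace

namespace Vale.Agent.P245N

open Vale.Agent.P245

variable {n : ℕ}

section

variable {μ : Measure (Euc n)} [IsProbabilityMeasure μ] {R t : ℝ}

/-- The barycentre has the covariance as derivative. -/
lemma hasFDerivAt_bary_Aop (hS : Supp μ R) (θ : Euc n) :
    HasFDerivAt (bary t μ) (Aop t μ θ) θ := by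
  have hb : bary t μ = fun θ => ∑ c, ⟪stdb n c, bary t μ θ⟫ • stdb n c :=
    funext fun θ => ((stdb n).sum_repr' _).symm
  rw [hb]
  refine (HasFDerivAt.fun_sum fun c _ =>
    (hasFDerivAt_inner_bary (t := t) hS θ (stdb n c)).smul_const (stdb n c)).congr_fderiv
      (ContinuousLinearMap.ext fun h => ?_)
  have := isProb_fib (T := t) hS θ
  have hsf := supp_fib (T := t) hS θ
  conv_rhs => rw [← (stdb n).sum_repr' (Aop t μ θ h)]
  simp only [sum_apply, ContinuousLinearMap.smulRight_apply, innerSL_apply_apply]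
  refine Finset.sum_congr rfl fun c _ => ?_
  congr 1
  rw [real_inner_comm, inner_cov hS (by fun_prop), inner_Aop hS]
  have e : ∀ x, ⟪stdb n c, x⟫ * ⟪h, cen t μ θ x⟫ = ⟪h, cen t μ θ x⟫ * ⟪stdb n c, cen t μ θ x⟫
      + ⟪stdb n c, bary t μ θ⟫ * ⟪h, cen t μ θ x⟫ := fun x => by
    simp only [cen, inner_sub_right]; ring
  rw [integral_congr_ae (Eventually.of_forall e), integral_add (hsf.integrable (by fun_prop))
    (hsf.integrable (by fun_prop)), integral_const_mul, integral_cen hS, mul_zero, add_zero, aent]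

/-- The fibres of a `κ`-semi-log-concave measure have covariance at most `(t + κ)⁻¹`. -/
lemma aent_le_inv_add (hS : Supp μ R) (hR : 0 ≤ R) {κ : ℝ} (hμ : IsLC κ μ) (hpos : 0 < κ + t)
    (θ v : Euc n) : aent t μ θ v v ≤ ‖v‖ ^ 2 / (κ + t) := by
  have := isProb_fib (T := t) hS θ
  have hfib : IsLC (κ + t) (fib t μ θ) := by
    refine hμ.tilted (κ' := t) (W := fun x => ⟪θ, x⟫ - t / 2 * ‖x‖ ^ 2) (by fun_prop)
      (hS.integrable (by fun_prop)) fun x y a b _ _ hab => ?_
    have h1 := congrArg (fun u => t / 2 * u) (quad_identity a b hab x y)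
    simp only [inner_add_right, inner_smul_right] at h1 ⊢
    nlinarith
  have hd : D1 (fun x : Euc n => ⟪v, x⟫) (fun _ => v) :=
    ⟨fun x => by simpa [innerSL_apply_apply] using! (innerSL ℝ v).hasFDerivAt (x := x), continuous_const⟩
  have h := poincare_slc hpos hfib (supp_fib hS θ) hR hd
  rw [integral_const, probReal_univ, one_smul, inner_bary hS] at h
  refine le_trans (le_of_eq ?_) (h.trans (le_of_eq (by ring)))
  simp only [aent, cen, inner_sub_right, sq]

/-- Tilting by a semiconcave function costs at most `a` of log-concavity. -/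
lemma isLC_tilted_sc (hS : Supp μ R) (hμ : IsLC 0 μ) {a : ℝ} {φ : Euc n → ℝ} {φ' : Euc n → Euc n}
    (hφ : D1 φ φ') (hsc : SC a φ φ') : IsLC (-a) (μ.tilted φ) := by
  have hc := hφ.cont
  have h := hμ.tilted (κ' := -a) hc (hS.integrable (by fun_prop)) fun x y p q hp hq hpq => by
    set z := p • x + q • y with hz
    have h1 := mul_le_mul_of_nonneg_left (hsc z x) hp.le
    have h2 := mul_le_mul_of_nonneg_left (hsc z y) hq.le
    have h4 : q = 1 - p := by linarith
    subst h4
    have ex : x - z = (1 - p) • (x - y) := by rw [hz]; module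
    have ey : y - z = (-p) • (x - y) := by rw [hz]; module
    rw [ex, inner_smul_right, norm_smul, norm_eq_abs, mul_pow, sq_abs] at h1
    rw [ey, inner_smul_right, norm_smul, norm_eq_abs, mul_pow, sq_abs] at h2
    linarith
  simpa using h

/-- The score is the difference of the two fibre barycentres. -/
lemma dd_eq_bary_sub (hS : Supp μ R) {φ : Euc n → ℝ} (hc : Continuous φ) (θ : Euc n) :
    dd t μ (fun x => exp (φ x)) θ = bary t (μ.tilted φ) θ - bary t μ θ := by
  have hiW : Integrable (fun x => exp (⟪θ, x⟫ - t / 2 * ‖x‖ ^ 2)) μ := hS.integrable (by fun_prop)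
  have hiφ : Integrable (fun x => exp (φ x)) μ := hS.integrable (by fun_prop)
  have e : fib t (μ.tilted φ) θ = (fib t μ θ).tilted φ := by
    rw [fib, fib, tilted_tilted hiφ, tilted_tilted hiW, add_comm]
  have hav := av_pos (T := t) hS (g := fun x => exp (φ x)) (by fun_prop) (fun x => exp_pos _) θ
  have hb : bary t (μ.tilted φ) θ = (av t μ (fun x => exp (φ x)) θ)⁻¹ • ∫ x, exp (φ x) • x ∂(fib t μ θ) := by
    rw [bary, e, integral_tilted, ← integral_smul]
    refine integral_congr_ae (Eventually.of_forall fun x => ?_)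
    simp [av, smul_smul, div_eq_inv_mul]
  rw [hb, dd, cov, smul_sub, smul_smul, inv_mul_cancel₀ hav.ne', one_smul]

end

/-- A symmetric operator squeezed by `c` contracts the Hilbert-Schmidt norm by `c`. -/
lemma frob_comp_le (F : Op n) {N : Op n} (hN : SymOp N) {c : ℝ} (hc : ∀ v, |⟪v, N v⟫| ≤ c * ‖v‖ ^ 2) :
    frob (F.comp N) ≤ c ^ 2 * frob F := by
  obtain ⟨b, l, he⟩ := hN.exists_eigen
  rw [frob_basis _ b, frob_basis F b, Finset.mul_sum]
  refine Finset.sum_le_sum fun i _ => ?_
  have hl : |l i| ≤ c := by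
    have h := hc (b i)
    rwa [he, inner_smul_right, real_inner_self_eq_norm_sq, b.orthonormal.1 i, one_pow, mul_one, mul_one] at h
  rw [ContinuousLinearMap.comp_apply, he, map_smul, norm_smul, norm_eq_abs, mul_pow]
  exact mul_le_mul_of_nonneg_right (pow_le_pow_left₀ (abs_nonneg _) hl 2) (sq_nonneg _)

lemma frob_add_le (A B : Op n) : frob (A + B) ≤ 2 * frob A + 2 * frob B := by
  simp only [frob, Finset.mul_sum, ← Finset.sum_add_distrib]
  refine Finset.sum_le_sum fun a _ => ?_
  have h := parallelogram_law_with_norm ℝ (A (stdb n a)) (B (stdb n a))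
  rw [add_apply]
  nlinarith [mul_self_nonneg ‖A (stdb n a) - B (stdb n a)‖]

theorem grad (hR : ResStmt) (hC : CutStmt) : GradStmt := by
  obtain ⟨C, hC0, hres⟩ := hR
  refine ⟨2 * C + 8, by linarith, fun n p L M μ hμp R hR0 hS hμ Q t a hp hL hM hQ ht hQV ha0 hat φ φ' hφ hsc => ?_⟩
  obtain ⟨F', hF', hF'c, hF'h, hF'v⟩ := hres n p L M μ hμp R hR0 hS hμ Q t hp hL hM hQ ht hQV
  set K := (p : ℝ) ^ 2 * Q / (t * L ^ 2) with hK
  have hK0 : 0 ≤ K := by positivity
  have eK : ∀ c : ℝ, c * p ^ 2 * Q / (t * L ^ 2) = c * K := fun c => by rw [hK]; ring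
  simp only [eK] at hF'h hF'v ⊢
  have hFc : Continuous (Ff p L M t μ) := continuous_iff_continuousAt.2 fun θ => (hF' θ).continuousAt
  have hfrobF : ∀ θ, frob (Ff p L M t μ θ) ≤ n := fun θ =>
    (hC n p L M (Aop t μ θ) hp hL hM (symOp_Aop hS θ) fun v => by
      rw [inner_Aop hS]; exact aent_self_nonneg _ _).2.1
  refine ⟨?_, fun η hη => ?_⟩
  · have hiφ : Integrable (fun x => exp (φ x)) μ := hS.integrable (hφ.cont.rexp)
    have := isProbabilityMeasure_tilted hiφ
    have hSν : Supp (μ.tilted φ) R := (tilted_absolutelyContinuous _ _).ae_le hS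
    have hν := isLC_tilted_sc hS hμ hφ hsc
    set N := fun θ => Aop t (μ.tilted φ) θ - Aop t μ θ with hNdef
    set d := dd t μ (fun x => exp (φ x)) with hd
    have hd' : ∀ θ, HasFDerivAt d (N θ) θ := fun θ => by
      have h := (hasFDerivAt_bary_Aop (t := t) hSν θ).sub (hasFDerivAt_bary_Aop (t := t) hS θ)
      have e : d = fun θ => bary t (μ.tilted φ) θ - bary t μ θ := funext fun θ => dd_eq_bary_sub hS hφ.cont θ
      rw [e]; exact h
    have hdc : Continuous d := continuous_iff_continuousAt.2 fun θ => (hd' θ).continuousAt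
    have hNsym : ∀ θ, SymOp (N θ) := fun θ => (symOp_Aop hSν θ).sub (symOp_Aop hS θ)
    have hNle : ∀ θ v, |⟪v, N θ v⟫| ≤ 2 / t * ‖v‖ ^ 2 := fun θ v => by
      rw [hNdef, sub_apply, inner_sub_right, inner_Aop hSν, inner_Aop hS]
      have h1 := aent_le_inv hS hR0 hμ ht θ v
      have h2 := aent_le_inv_add (t := t) hSν hR0 hν (by linarith) θ v
      have h3 := aent_self_nonneg (t := t) (μ := μ) θ v
      have h4 := aent_self_nonneg (t := t) (μ := μ.tilted φ) θ v
      have h5 : ‖v‖ ^ 2 / (-a + t) ≤ 2 / t * ‖v‖ ^ 2 := by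
        rw [div_mul_eq_mul_div, div_le_div_iff₀ (by linarith) ht]
        nlinarith [sq_nonneg ‖v‖]
      have h6 : ‖v‖ ^ 2 / t ≤ 2 / t * ‖v‖ ^ 2 := by
        rw [div_mul_eq_mul_div]; gcongr; nlinarith [sq_nonneg ‖v‖]
      rw [abs_le]; constructor <;> linarith
    have hdb : ∀ θ, ‖d θ‖ ≤ 2 * R := fun θ => by
      rw [hd, dd_eq_bary_sub hS hφ.cont θ]
      exact (norm_sub_le _ _).trans (by linarith [norm_bary_le (T := t) hS θ, norm_bary_le (T := t) hSν θ])
    set D := fun θ => (Ff p L M t μ θ).comp (N θ) + (F' θ).flip (d θ) with hDdef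
    have hbd : ∀ θ, frob (D θ) ≤ (2 * C + 8) * K * ‖d θ‖ ^ 2 + (2 * C + 8) / t ^ 2 * frob (Ff p L M t μ θ) := fun θ => by
      refine (frob_add_le _ _).trans ?_
      have h1 := frob_comp_le (Ff p L M t μ θ) (hNsym θ) (hNle θ)
      have h2 : frob ((F' θ).flip (d θ)) ≤ C * K * ‖d θ‖ ^ 2 := by
        simp only [frob, ContinuousLinearMap.flip_apply]; exact hF'v θ (d θ)
      have h3 : 0 ≤ C / t ^ 2 * frob (Ff p L M t μ θ) := mul_nonneg (by positivity) (frob_nonneg _)
      have h4 : 0 ≤ K * ‖d θ‖ ^ 2 := by positivity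
      rw [div_pow] at h1
      have e : (2 * C + 8) / t ^ 2 * frob (Ff p L M t μ θ)
          = 2 * (C / t ^ 2 * frob (Ff p L M t μ θ)) + 2 * (2 ^ 2 / t ^ 2 * frob (Ff p L M t μ θ)) := by ring
      nlinarith
    refine ⟨D, ⟨fun θ => (hF' θ).clm_apply (hd' θ), ?_⟩, ⟨(2 * C + 8) * K * (2 * R) ^ 2 + (2 * C + 8) / t ^ 2 * n, fun θ => ?_⟩, hbd⟩
    · exact (hFc.clm_comp ((continuous_Aop hSν).sub (continuous_Aop hS))).add
        (((ContinuousLinearMap.flipₗᵢ ℝ (Euc n) (Euc n) (Euc n)).continuous.comp hF'c).clm_apply hdc)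
    · refine (hbd θ).trans (add_le_add ?_ ?_)
      · exact mul_le_mul_of_nonneg_left (pow_le_pow_left₀ (norm_nonneg _) (hdb θ) 2) (by positivity)
      · exact mul_le_mul_of_nonneg_left (hfrobF θ) (by positivity)
  · set F := Ff p L M t μ with hFdef
    have hpos : ∀ θ, 0 < η + frob (F θ) := fun θ => by linarith [frob_nonneg (F θ)]
    set G := fun θ => (1 / (2 * √(η + frob (F θ)))) •
      ∑ c, (2 : ℝ) • (innerSL ℝ (F θ (stdb n c))).comp
        ((ContinuousLinearMap.apply ℝ (Euc n) (stdb n c)).comp (F' θ)) with hG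
    have hGd : ∀ θ, HasFDerivAt (fun θ => √(η + frob (F θ))) (G θ) θ := fun θ => by
      have h2 := HasFDerivAt.fun_sum (u := Finset.univ) fun c _ =>
        (((ContinuousLinearMap.apply ℝ (Euc n) (stdb n c)).hasFDerivAt).comp θ (hF' θ)).norm_sq
      refine ((h2.const_add η).sqrt (hpos θ).ne').congr_fderiv (ContinuousLinearMap.ext fun h => ?_)
      simp [hG, frob]
    have hGc : Continuous G := by
      refine (continuous_const.div (continuous_const.mul ((continuous_const.add ?_).sqrt)) fun θ => ?_).smul ?_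
      · exact continuous_finsetSum _ fun c _ => ((hFc.clm_apply continuous_const).norm).pow 2
      · exact (mul_pos two_pos (Real.sqrt_pos.2 (hpos θ))).ne'
      · refine continuous_finsetSum _ fun c _ => ?_
        exact (((innerSL ℝ).continuous.comp (hFc.clm_apply continuous_const)).clm_comp
          (continuous_const.clm_comp hF'c)).const_smul (2 : ℝ)
    refine ⟨fun θ => (InnerProductSpace.toDual ℝ (Euc n)).symm (G θ), ⟨fun θ => ?_, ?_⟩, fun θ => ?_⟩
    · have e : innerSL ℝ ((InnerProductSpace.toDual ℝ (Euc n)).symm (G θ)) = G θ :=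
        ContinuousLinearMap.ext fun h => by rw [innerSL_apply_apply, InnerProductSpace.toDual_symm_apply]
      rw [e]; exact hGd θ
    · exact (InnerProductSpace.toDual ℝ (Euc n)).symm.continuous.comp hGc
    set w := (InnerProductSpace.toDual ℝ (Euc n)).symm (G θ) with hw
    have e : ⟪w, w⟫ = 1 / (2 * √(η + frob (F θ))) * ∑ c, 2 * ⟪F θ (stdb n c), F' θ w (stdb n c)⟫ := by
      rw [show ⟪w, w⟫ = G θ w from InnerProductSpace.toDual_symm_apply]
      simp [hG]
    rw [real_inner_self_eq_norm_sq, ← Finset.mul_sum] at e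
    set S := ∑ c, ⟪F θ (stdb n c), F' θ w (stdb n c)⟫ with hS'
    have hS2 : S ^ 2 ≤ frob (F θ) * frob (F' θ w) := by
      have h1 : |S| ≤ ∑ c, ‖F θ (stdb n c)‖ * ‖F' θ w (stdb n c)‖ :=
        (Finset.abs_sum_le_sum_abs _ _).trans (Finset.sum_le_sum fun c _ => abs_real_inner_le_norm _ _)
      rw [← sq_abs]
      exact (pow_le_pow_left₀ (abs_nonneg _) h1 2).trans (Finset.sum_mul_sq_le_sq_mul_sq _ _ _)
    set r := √(η + frob (F θ)) with hr
    have hr0 : 0 < r := Real.sqrt_pos.2 (hpos θ)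
    have e2 : ‖w‖ ^ 2 * r = S := by rw [e]; field_simp
    have h3 : (‖w‖ ^ 2) ^ 2 * r ^ 2 ≤ r ^ 2 * (C * K * ‖w‖ ^ 2) := by
      rw [← mul_pow, e2]
      refine hS2.trans (mul_le_mul ?_ (hF'h θ w) (frob_nonneg _) (sq_nonneg _))
      rw [hr, Real.sq_sqrt (hpos θ).le]; linarith
    rcases (sq_nonneg ‖w‖).eq_or_lt with h0 | h0
    · rw [← h0]; positivity
    have h4 : ‖w‖ ^ 2 ≤ C * K := by
      refine le_of_mul_le_mul_left ?_ (mul_pos h0 (pow_pos hr0 2))
      linarith
    nlinarith

end Vale.Agent.P245N
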