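import Vale.Agent.P245N.HopfLax.Step

/-!
Reduction of the logarithmic Sobolev inequality to semiconcave functions.
-/

open MeasureTheory Real Filter Set
open scoped Topology RealInnerProductSpace

namespace Vale.Agent.P245N

open Vale.Agent.P245

variable {n : ℕ}

/-- Gaussian shift and entropy duality: the averaged logarithm is below the quadratic transport bound. -/
lemma gam_log_shift {q : Euc n → ℝ} (hq : Continuous q) {c B : ℝ} (hc : 0 < c) (hqb : ∀ θ, c ≤ q θ ∧ q θ ≤ B)
    {s : ℝ} (hs : 0 < s) (x y : Euc n) :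
    ∫ G, log (q (pt s x G)) ∂(gam n)
      ≤ log (∫ G, q (pt s y G) ∂(gam n)) + s ^ 2 * ‖x - y‖ ^ 2 / 2 := by
  set v := s • (x - y) with hv
  set w := fun G : Euc n => exp (⟪v, G⟫ - ‖v‖ ^ 2 / 2) with hw
  set φ := fun G : Euc n => log (q (pt s y G)) with hφ
  have hqp : ∀ θ, 0 < q θ := fun θ => hc.trans_le (hqb θ).1
  have hφc : Continuous φ := (hq.comp (continuous_pt s y)).log fun G => (hqp _).ne'
  set L := |log c| + |log B| with hL
  have hlb : ∀ θ, |log (q θ)| ≤ L := fun θ => by
    have h1 := log_le_log hc (hqb θ).1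
    have h2 := log_le_log (hqp θ) (hqb θ).2
    rw [abs_le]
    constructor <;> linarith [neg_abs_le (log c), le_abs_self (log B), abs_nonneg (log c), abs_nonneg (log B)]
  have e1 : ∫ G, log (q (pt s x G)) ∂(gam n) = ∫ G, w G * φ G ∂(gam n) := by
    have h := integral_gam_shift φ v
    simp only [smul_eq_mul] at h
    rw [← h]
    refine integral_congr_ae (Eventually.of_forall fun G => ?_)
    simp only [hφ, hv, pt]
    congr 2
    module
  have hwi : ∀ {F : Euc n → ℝ}, Continuous F → ∀ {A k : ℝ}, (∀ G, |F G| ≤ A * exp (k * ‖G‖)) →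
      Integrable (fun G => w G * F G) (gam n) := by
    intro F hF A k hFb
    refine ((expInt_gam (‖v‖ + k)).const_mul A).mono' (by simp only [hw]; exact Continuous.aestronglyMeasurable (by fun_prop))
      (Eventually.of_forall fun G => ?_)
    rw [norm_eq_abs, abs_mul, abs_of_pos (show 0 < w G from exp_pos _), add_mul, exp_add]
    have h1 : w G ≤ exp (‖v‖ * ‖G‖) := exp_le_exp.2 (by linarith [real_inner_le_norm v G, sq_nonneg ‖v‖])
    calc w G * |F G| ≤ exp (‖v‖ * ‖G‖) * (A * exp (k * ‖G‖)) := mul_le_mul h1 (hFb G) (abs_nonneg _) (exp_pos _).le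
      _ = _ := by ring
  have i1 : Integrable w (gam n) := by
    simpa using hwi (F := fun _ => 1) continuous_const (A := 1) (k := 0) fun G => by simp
  have i2 : Integrable (fun G => w G * log (w G)) (gam n) := by
    refine hwi (F := fun G => log (w G)) (by simp only [hw, log_exp]; fun_prop) (A := ‖v‖ + ‖v‖ ^ 2) (k := 1)
      fun G => ?_
    simp only [hw, log_exp, one_mul]
    have h1 := abs_real_inner_le_norm v G
    have h2 := add_one_le_exp ‖G‖
    have h4 := one_le_exp (norm_nonneg G)
    have h3 : 0 ≤ ‖v‖ := norm_nonneg v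
    refine (abs_sub _ _).trans ?_
    rw [abs_of_nonneg (by positivity : (0:ℝ) ≤ ‖v‖ ^ 2 / 2)]
    nlinarith
  have i3 : Integrable (fun G => w G * φ G) (gam n) :=
    hwi hφc (A := L) (k := 0) fun G => by simpa [hφ] using hlb _
  have i4 : Integrable (fun G => exp (φ G)) (gam n) :=
    integrable_gam_bdd hφc.rexp (B := exp L) fun G => by
      rw [abs_exp]; exact exp_le_exp.2 ((le_abs_self _).trans (hlb _))
  have h := integral_mul_le_ent (fun G => (exp_pos _).le) i1 i2 i3 i4
  have hw1 : ∫ G, w G ∂(gam n) = 1 := by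
    simp only [hw, exp_sub]; rw [integral_div, integral_gam_exp_inner, div_self (exp_ne_zero _)]
  have hent : ent (gam n) w = ‖v‖ ^ 2 / 2 := by
    rw [ent, hw1, log_one, mul_zero, sub_zero]
    have hd : D1 (fun G : Euc n => ⟪v, G⟫) (fun _ => v) :=
      ⟨fun G => by simpa [innerSL_apply_apply] using! (innerSL ℝ v).hasFDerivAt (x := G), continuous_const⟩
    have e : ∀ G, w G * log (w G) = exp (⟪v, G⟫ - ‖v‖ ^ 2 / 2) * ⟪v, G⟫ - ‖v‖ ^ 2 / 2 * w G := fun G => by
      simp only [hw, log_exp]; ring
    have i5 : Integrable (fun G => exp (⟪v, G⟫ - ‖v‖ ^ 2 / 2) * ⟪v, G⟫) (gam n) :=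
      hwi (F := fun G => ⟪v, G⟫) (by fun_prop) (A := ‖v‖) (k := 1) fun G => by
        rw [one_mul]
        exact (abs_real_inner_le_norm v G).trans
          (mul_le_mul_of_nonneg_left (by linarith [add_one_le_exp ‖G‖]) (norm_nonneg _))
    rw [integral_congr_ae (Eventually.of_forall e), integral_sub i5 (i1.const_mul _), integral_const_mul, hw1, mul_one]
    have h2 := integral_gam_shift (fun G : Euc n => ⟪v, G⟫) v
    simp only [smul_eq_mul] at h2
    rw [← h2]
    have i6 : Integrable (fun G : Euc n => ⟪v, G⟫) (gam n) :=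
      ((expInt_gam 1).const_mul ‖v‖).mono' (by fun_prop) (Eventually.of_forall fun G => by
        rw [norm_eq_abs, one_mul]
        exact (abs_real_inner_le_norm v G).trans
          (mul_le_mul_of_nonneg_left (by linarith [add_one_le_exp ‖G‖]) (norm_nonneg _)))
    have i7 : Integrable (fun G : Euc n => ⟪v, -G⟫) (gam n) := i6.neg.congr (Eventually.of_forall fun G => by simp)
    have h0 : ∫ G, ⟪v, G⟫ ∂(gam n) = 0 := by
      have h3 : ∫ G, ⟪v, -G⟫ ∂(gam n) = ∫ G, ⟪v, G⟫ ∂(gam n) := by
        simp only [integral_gam, smul_eq_mul]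
        conv_rhs => rw [← integral_neg_eq_self]
        simp
      simp only [inner_neg_right, integral_neg] at h3
      linarith
    simp only [inner_add_right]
    rw [integral_add i6 (integrable_const _), h0, integral_const, probReal_univ, one_smul, real_inner_self_eq_norm_sq]
    ring
  rw [e1]
  refine h.trans (le_of_eq ?_)
  rw [hw1, hent, one_mul, hv, norm_smul, norm_eq_abs, abs_of_pos hs, mul_pow]
  simp only [hφ, exp_log (hqp _)]
  ring

theorem hopfLax_one {μ : Measure (Euc n)} [IsProbabilityMeasure μ] {R K z : ℝ} (hS : Supp μ R) (hR : 0 ≤ R)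
    (hμ : IsLC 0 μ) (hK : 0 < K) (hz : 0 ≤ z) (hSemi : Semi μ K z (1 / (4 * K))) {g : Euc n → ℝ}
    {g' : Euc n → Euc n} (h : Pos1 g g') (hg1 : ∫ x, g x ∂μ = 1) :
    ent μ g ≤ 8 * K * (∫ x, fis g g' x ∂μ) + 2 * z := by
  set t := 1 / (8 * K) with ht
  have ht0 : 0 < t := by positivity
  set s := √t with hs
  have hs0 : 0 < s := Real.sqrt_pos.2 ht0
  have hs2 : s ^ 2 = t := Real.sq_sqrt ht0.le
  obtain ⟨c, B, hc, hcb⟩ := av_bounds (T := t) hS hR h.cont h.pos
  set q := av t μ g with hq
  have hqc : Continuous q := continuous_av hS h.cont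
  have hqp : ∀ θ, 0 < q θ := fun θ => hc.trans_le (hcb θ).1
  have hlc : Continuous fun θ => log (q θ) := hqc.log fun θ => (hqp θ).ne'
  set L := |log c| + |log B| with hL
  have hlb : ∀ θ, |log (q θ)| ≤ L := fun θ => by
    have h1 := log_le_log hc (hcb θ).1
    have h2 := log_le_log (hqp θ) (hcb θ).2
    rw [abs_le]
    constructor <;> linarith [neg_abs_le (log c), le_abs_self (log B), abs_nonneg (log c), abs_nonneg (log B)]
  set r := qop s μ g with hr
  have hr1 : ∀ x, c ≤ r x ∧ r x ≤ B := fun x => by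
    have hi := integrable_av (s := s) hS hR h.cont x
    simp only [hr, qop]
    rw [hs2] at hi ⊢
    constructor
    · have := integral_mono (integrable_const c) hi fun G => (hcb _).1
      simpa using this
    · have := integral_mono hi (integrable_const B) fun G => (hcb _).2
      simpa using this
  have hrc : Continuous r := continuous_qop hS hR h.cont
  set f := fun x => log (r x) with hf
  have hfc : Continuous f := hrc.log fun x => (hc.trans_le (hr1 x).1).ne'
  have hfB : ∀ x, |f x| ≤ L := fun x => by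
    have h1 := log_le_log hc (hr1 x).1
    have h2 := log_le_log (hc.trans_le (hr1 x).1) (hr1 x).2
    rw [abs_le]
    constructor <;> linarith [neg_abs_le (log c), le_abs_self (log B), abs_nonneg (log c), abs_nonneg (log B)]
  set a := 1 / (4 * K) with ha
  have hchain := hl_chain (f := f) hS hK ha hz hSemi hfB hfc (le_of_eq (by
    have e : ∀ x, exp (f x) = r x := fun x => exp_log (hc.trans_le (hr1 x).1)
    simp only [e]
    rw [hr, integral_qop hS hR h.cont, hg1]))
  set u := fun x => ∫ G, log (q (pt s x G)) ∂(gam n) with hu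
  have huc : Continuous u := continuous_gint (H := fun x G => log (q (pt s x G))) (hlc.comp (by unfold pt; fun_prop))
    fun _ _ => hlb _
  have hub : ∀ x, |u x| ≤ L := fun x => abs_gint_le fun G => hlb _
  have huU : ∀ x, u x ≤ iconv f (2 / a) x := fun x => le_ciInf fun y => by
    refine (gam_log_shift hqc hc hcb hs0 x y).trans (le_of_eq ?_)
    simp only [hf, hr, qop, hs2, ha, ht]
    congr 1
    field_simp; ring
  have hdv := integral_mul_le_ent (μ := μ) (g := g) (φ := fun x => 2 * u x) (fun x => (h.pos x).le)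
    (hS.integrable h.cont) (hS.integrable (Real.continuous_mul_log.comp h.cont))
    (hS.integrable (h.cont.mul (huc.const_mul 2))) (hS.integrable (huc.const_mul 2).rexp)
  have hexp : log (∫ x, exp (2 * u x) ∂μ) ≤ 2 * z := by
    refine le_trans ?_ hchain
    have hcU : Continuous (iconv f (2 / a)) := continuous_iconv hfB (by rw [ha]; positivity)
    refine log_le_log (integral_exp_pos (hS.integrable (huc.const_mul 2).rexp))
      (integral_mono (hS.integrable (huc.const_mul 2).rexp) (hS.integrable (hcU.const_mul 2).rexp) fun x => ?_)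
    exact exp_le_exp.2 (by linarith [huU x])
  rw [hg1, one_mul] at hdv
  have e0 : ∫ x, g x * (2 * u x) ∂μ = 2 * ∫ x, g x * u x ∂μ := by
    rw [← integral_const_mul]; exact integral_congr_ae (Eventually.of_forall fun x => by ring)
  rw [e0] at hdv
  -- the entropy of the fibre average and its representation through the joint law
  obtain ⟨Bg, hBg0, hBg⟩ := exists_bound hR h.cont
  set H := fun z y => max (-Bg) (min Bg (g y)) * log (q z) with hH
  have hHc : Continuous (Function.uncurry H) :=
    ((continuous_const.max (continuous_const.min (h.cont.comp continuous_snd)))).mul (hlc.comp continuous_fst)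
  have hHb : ∀ z y, |H z y| ≤ Bg * L := fun z y => by
    rw [abs_mul]
    refine mul_le_mul ?_ (hlb z) (abs_nonneg _) hBg0
    rw [abs_le]; exact ⟨le_max_left _ _, max_le (by linarith) (min_le_left _ _)⟩
  have hHe : ∀ z y, ‖y‖ ≤ R → H z y = g y * log (q z) := fun z y hy => by
    have h1 := abs_le.1 (hBg y hy)
    simp [hH, min_eq_right h1.2, max_eq_right h1.1]
  have hjoint := elaw_fib hS s hHc hHb
  have eL : ∫ x, ∫ G, H (pt s x G) x ∂(gam n) ∂μ = ∫ x, g x * u x ∂μ := by
    refine integral_congr_ae (hS.mono fun x hx => ?_)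
    simp only [hu, ← integral_const_mul]
    exact integral_congr_ae (Eventually.of_forall fun G => hHe _ x hx)
  have eR : ∀ z, av t μ (H z) z = q z * log (q z) := fun z => by
    simp only [hq, av, ← integral_mul_const]
    exact integral_congr_ae ((supp_fib hS z).mono fun y hy => hHe z y hy)
  rw [eL, hs2] at hjoint
  simp only [eR] at hjoint
  -- the fibre inequality
  have hgl : Continuous fun y => g y * log (g y) := Real.continuous_mul_log.comp h.cont
  have hfib : ∀ z, av t μ (fun y => g y * log (g y)) z - q z * log (q z) ≤ 1 / (2 * t) * av t μ (fis g g') z :=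
    fun z => ent_fib_le hS hR hμ ht0 h z
  have hjg : ∀ {φ : Euc n → ℝ}, Continuous φ → ∫ x, φ x ∂μ = ∫ x, ∫ G, av t μ φ (pt s x G) ∂(gam n) ∂μ :=
    fun {φ} hφ => by
      rw [← integral_qop (s := s) hS hR hφ]; simp only [qop, hs2]
  have hql : Continuous fun z => q z * log (q z) := hqc.mul hlc
  have hqlb : ∀ z, |q z * log (q z)| ≤ B * L := fun z => by
    rw [abs_mul, abs_of_pos (hqp z)]
    exact mul_le_mul (hcb z).2 (hlb z) (abs_nonneg _) ((hqp z).le.trans (hcb z).2)
  have hia : ∀ {φ : Euc n → ℝ}, Continuous φ → ∀ x, Integrable (fun G => av t μ φ (pt s x G)) (gam n) :=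
    fun {φ} hφ x => by simpa [hs2] using integrable_av (s := s) hS hR hφ x
  have hca : ∀ {φ : Euc n → ℝ}, Continuous φ → Continuous fun x => ∫ G, av t μ φ (pt s x G) ∂(gam n) :=
    fun {φ} hφ => by
      have h1 := continuous_qop (s := s) hS hR hφ
      have e : qop s μ φ = fun x => ∫ G, av t μ φ (pt s x G) ∂(gam n) := funext fun x => by rw [qop, hs2]
      rwa [e] at h1
  have hiq : ∀ x, Integrable (fun G => q (pt s x G) * log (q (pt s x G))) (gam n) := fun x =>
    integrable_gam_bdd (hql.comp (continuous_pt s x)) fun G => hqlb _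
  have hmain : ent μ g - ∫ x, g x * u x ∂μ ≤ 1 / (2 * t) * ∫ x, fis g g' x ∂μ := by
    rw [ent, hg1, log_one, mul_zero, sub_zero, hjg hgl, hjoint, hjg h.cont_fis]
    rw [← integral_sub (hS.integrable (hca hgl))
      (hS.integrable (continuous_gint (H := fun x G => q (pt s x G) * log (q (pt s x G)))
        (hql.comp (by unfold pt; fun_prop)) fun _ _ => hqlb _)), ← integral_const_mul]
    refine integral_mono ((hS.integrable (hca hgl)).sub (hS.integrable (continuous_gint
      (H := fun x G => q (pt s x G) * log (q (pt s x G))) (hql.comp (by unfold pt; fun_prop)) fun _ _ => hqlb _)))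
      ((hS.integrable (hca h.cont_fis)).const_mul _) fun x => ?_
    simp only
    rw [← integral_sub (hia hgl x) (hiq x), ← integral_const_mul]
    exact integral_mono ((hia hgl x).sub (hiq x)) ((hia h.cont_fis x).const_mul _) fun G => hfib _
  have e : 1 / (2 * t) = 4 * K := by rw [ht]; field_simp; ring
  rw [e] at hmain
  linarith

theorem hopfLax : HopfLaxStmt := by
  intro n μ _ R hR hS hμ K z hK hz hSemi g g' h
  set m := ∫ x, g x ∂μ with hm
  have hm0 : 0 < m := by
    have hne : ∫ x, g x ∂μ ≠ 0 := fun h0 => by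
      have h2 := (integral_eq_zero_iff_of_nonneg (fun x => (h.pos x).le) (hS.integrable h.cont)).1 h0
      obtain ⟨x, hx⟩ := h2.exists
      exact absurd hx (h.pos x).ne'
    exact lt_of_le_of_ne (integral_nonneg fun x => (h.pos x).le) (Ne.symm hne)
  have h' : Pos1 (fun x => m⁻¹ * g x) (fun x => m⁻¹ • g' x) :=
    ⟨fun x => mul_pos (inv_pos.2 hm0) (h.pos x), fun x => by rw [map_smul]; exact (h.deriv x).const_mul _,
      (continuous_const_smul m⁻¹).comp h.cont'⟩
  have hm' : ∫ x, m⁻¹ * g x ∂μ = 1 := by rw [integral_const_mul, ← hm, inv_mul_cancel₀ hm0.ne']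
  have h1 := hopfLax_one hS hR hμ hK hz hSemi h' hm'
  have e1 : ent μ (fun x => m⁻¹ * g x) = m⁻¹ * ent μ g := by
    rw [ent, ent, hm', log_one, mul_zero, sub_zero, ← hm]
    have e : ∀ x, m⁻¹ * g x * log (m⁻¹ * g x) = m⁻¹ * (g x * log (g x)) - m⁻¹ * log m * g x := fun x => by
      rw [log_mul (inv_ne_zero hm0.ne') (h.pos x).ne', log_inv]; ring
    have hc1 : Continuous fun x => m⁻¹ * (g x * log (g x)) :=
      (h.cont.fun_mul (h.cont.log fun x => (h.pos x).ne')).const_mul _
    rw [integral_congr_ae (Eventually.of_forall e), integral_sub (hS.integrable hc1)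
      (hS.integrable (h.cont.const_mul _)),
      integral_const_mul, integral_const_mul, ← hm]
    ring
  have e2 : ∫ x, fis (fun x => m⁻¹ * g x) (fun x => m⁻¹ • g' x) x ∂μ = m⁻¹ * ∫ x, fis g g' x ∂μ := by
    rw [← integral_const_mul]
    refine integral_congr_ae (Eventually.of_forall fun x => ?_)
    have := h.pos x
    simp only [fis, norm_smul, norm_eq_abs, abs_inv, abs_of_pos hm0, mul_pow]
    field_simp
  rw [e1, e2] at h1
  have h2 := mul_le_mul_of_nonneg_left h1 hm0.le
  rw [← mul_assoc, mul_inv_cancel₀ hm0.ne', one_mul, mul_add] at h2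
  have e3 : m * (8 * K * (m⁻¹ * ∫ x, fis g g' x ∂μ)) = 8 * K * ∫ x, fis g g' x ∂μ := by field_simp
  rw [e3] at h2
  have := mul_nonneg hm0.le hz
  linarith

end Vale.Agent.P245N
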