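import Vale.Agent.P245N.PtLsi
import Vale.Agent.P245N.DV

/-!
Elementary facts on `t² I` and on the entropy of the law of `θ_t`.
-/

open MeasureTheory Real Filter Set
open scoped Topology RealInnerProductSpace

namespace Vale.Agent.P245N

open Vale.Agent.P245

variable {n : ℕ} {μ : Measure (Euc n)} [IsProbabilityMeasure μ] {R t : ℝ}

lemma elaw_av_eq (hS : Supp μ R) (hR : 0 ≤ R) (ht : 0 ≤ t) {f : Euc n → ℝ} (hf : Continuous f) :
    elaw t μ (fun θ => av t μ f θ) = ∫ x, f x ∂μ := by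
  obtain ⟨Bf, hBf0, hBf⟩ := exists_bound hR hf
  rw [← pair_fib hS ht (H := fun _ y => f y) (hf.comp continuous_snd) (fun _ y hy => hBf y hy) hBf0,
    integral_fun_fst]
  simp

lemma av_mul_sq_dd (hS : Supp μ R) {g : Euc n → ℝ} (hg : Continuous g) (hp : ∀ x, 0 < g x) (θ : Euc n) :
    av t μ g θ * ‖dd t μ g θ‖ ^ 2 = ‖cov t μ g θ‖ ^ 2 / av t μ g θ := by
  have := av_pos (T := t) hS hg hp θ
  rw [dd, norm_smul, norm_inv, norm_eq_abs, abs_of_pos this, mul_pow]
  field_simp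

lemma av_sq_dd_le (hS : Supp μ R) (hR : 0 ≤ R) (hμ : IsLC 0 μ) (ht : 0 < t) {g : Euc n → ℝ}
    {g' : Euc n → Euc n} (h : Pos1 g g') (θ : Euc n) :
    t ^ 2 * (av t μ g θ * ‖dd t μ g θ‖ ^ 2) ≤ av t μ (fis g g') θ := by
  have hm := av_pos (T := t) hS h.cont h.pos θ
  rw [av_mul_sq_dd hS h.cont h.pos, ← mul_div_assoc, div_le_iff₀ hm]
  have h1 := norm_cov_sq_le hS hμ ht h.cont h.pos θ
  have h2 := mul_le_mul_of_nonneg_left (ent_fib_le hS hR hμ ht h θ) (by positivity : 0 ≤ 2 * t * av t μ g θ)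
  rw [le_div_iff₀ ht] at h1
  have h3 := mul_le_mul_of_nonneg_left h1 ht.le
  have e : 2 * t * av t μ g θ * (1 / (2 * t) * av t μ (fis g g') θ) = av t μ (fis g g') θ * av t μ g θ := by
    field_simp
  linarith

theorem info_facts : InfoStmt := by
  intro n μ hμp R hR hS hμ K hK hF g g' hg hg1 t ht
  obtain ⟨a, Bv, ha, hab⟩ := av_bounds (T := t) hS hR hg.cont hg.pos
  obtain ⟨Bg, hBg0, hBg⟩ := exists_bound hR hg.cont
  set c := av t μ g with hcdef
  have hcpos : ∀ θ, 0 < c θ := fun θ => ha.trans_le (hab θ).1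
  have hp : Pos1 c (cov t μ g) := ⟨hcpos, fun θ => hasFDerivAt_av hS hg.cont θ, continuous_cov hS hg.cont⟩
  set B := max Bv (2 * Bg * R) with hBdef
  have hb : ∀ θ, a ≤ c θ ∧ c θ ≤ B ∧ ‖cov t μ g θ‖ ≤ B := fun θ =>
    ⟨(hab θ).1, (hab θ).2.trans (le_max_left _ _), (norm_cov_le hS hR hBg θ).trans (le_max_right _ _)⟩
  have efis : (fun θ => c θ * ‖dd t μ g θ‖ ^ 2) = fis c (cov t μ g) := funext fun θ => av_mul_sq_dd hS hg.cont hg.pos θ
  have einfo : info t μ g = elaw t μ (fis c (cov t μ g)) := by rw [info, qexp, ← hcdef, efis]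
  obtain ⟨Bf, hBf0, hBf⟩ := exists_bound hR hg.cont_fis
  have hfb : ∀ θ, |fis c (cov t μ g) θ| ≤ B ^ 2 / a := fun θ => by
    rw [abs_of_nonneg (fis_nonneg hp θ)]
    exact div_le_div₀ (sq_nonneg B) (pow_le_pow_left₀ (norm_nonneg _) (hb θ).2.2 2) ha (hb θ).1
  have hcfis := hp.cont_fis
  have hP := ptLsi n μ hμp R hR hS hμ K hK hF t ht c (cov t μ g) hp a B ha hb
  rw [← einfo] at hP
  have h1 : t ^ 2 * info t μ g ≤ ∫ x, fis g g' x ∂μ := by
    have h := elaw_mono (t := t) hS (h₁ := fun θ => t ^ 2 * fis c (cov t μ g) θ + 0) (h₂ := av t μ (fis g g'))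
      ((hcfis.const_mul _).add continuous_const) (continuous_av hS hg.cont_fis) (B₁ := t ^ 2 * (B ^ 2 / a))
      (B₂ := Bf) (fun θ => by
        rw [add_zero, abs_mul, abs_of_nonneg (sq_nonneg t)]
        exact mul_le_mul_of_nonneg_left (hfb θ) (sq_nonneg t)) (fun θ => abs_av_le hS hBf θ) fun θ => by
        rw [add_zero, ← efis]
        exact av_sq_dd_le hS hR hμ ht hg θ
    rw [elaw_affine hS hcfis hfb, add_zero] at h
    rw [einfo]
    exact h.trans (le_of_eq (elaw_av_eq hS hR ht.le hg.cont_fis))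
  refine ⟨h1, hP, ?_⟩
  have hgl : Continuous fun x => g x * log (g x) := Real.continuous_mul_log.comp hg.cont
  obtain ⟨C, hC0, hC⟩ := exists_bound hR hgl
  obtain ⟨D, hD⟩ := (isCompact_Icc (a := (0 : ℝ)) (b := B)).exists_bound_of_continuousOn
    Real.continuous_mul_log.continuousOn
  have hDb : ∀ θ, |c θ * log (c θ)| ≤ D := fun θ => hD _ ⟨(hcpos θ).le, (hb θ).2.1⟩
  have cf : Continuous (av t μ (fis g g')) := continuous_av hS hg.cont_fis
  have cl : Continuous fun θ => c θ * log (c θ) := Real.continuous_mul_log.comp hp.cont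
  have h := elaw_mono (t := t) hS (h₁ := av t μ fun y => g y * log (g y))
    (h₂ := fun θ => (1 / (2 * t) * av t μ (fis g g') θ + 0) + c θ * log (c θ))
    (continuous_av hS hgl) (((cf.const_mul _).add continuous_const).add cl) (B₁ := C)
    (B₂ := 1 / (2 * t) * Bf + D) (fun θ => abs_av_le hS hC θ) (fun θ => by
      refine (abs_add_le _ _).trans (add_le_add ?_ (hDb θ))
      rw [add_zero, abs_mul, abs_of_nonneg (by positivity : (0 : ℝ) ≤ 1 / (2 * t))]
      exact mul_le_mul_of_nonneg_left (abs_av_le hS hBf θ) (by positivity)) fun θ => by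
      have := isProb_fib (T := t) hS θ
      have h2 := ent_fib_le hS hR hμ ht hg θ
      simp only [ent] at h2
      simp only [hcdef, av] at h2 ⊢
      linarith
  rw [elaw_add (h₁ := fun θ => 1 / (2 * t) * av t μ (fis g g') θ + 0) hS ((cf.const_mul _).add continuous_const) cl (B₁ := 1 / (2 * t) * Bf) (fun θ => by
      rw [add_zero, abs_mul, abs_of_nonneg (by positivity : (0 : ℝ) ≤ 1 / (2 * t))]
      exact mul_le_mul_of_nonneg_left (abs_av_le hS hBf θ) (by positivity)) hDb,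
    elaw_affine hS cf (fun θ => abs_av_le hS hBf θ), add_zero, elaw_av_eq hS hR ht.le hgl,
    elaw_av_eq hS hR ht.le hg.cont_fis] at h
  have e1 : elaw t μ c = 1 := by rw [hcdef, ← hg1]; exact elaw_av_eq hS hR ht.le hg.cont
  have e2 : eent t μ c = elaw t μ (fun θ => c θ * log (c θ)) := by rw [eent, e1, log_one, mul_zero, sub_zero]
  rw [e2] at hP
  rw [ent, hg1, log_one, mul_zero, sub_zero]
  linarith

end Vale.Agent.P245N
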