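import Vale.Agent.P245N.Spec
import Vale.Agent.P245N.Lichn.Main

/-!
The improved Lichnerowicz inequality in the form used by the route.
-/

open MeasureTheory Real Filter Set
open scoped Topology RealInnerProductSpace

namespace Vale.Agent.P245N

open Vale.Agent.P245

theorem lichn : LichnStmt := by
  intro n ν hν R hR hS s a hs ha hlc hcov f f' hf
  have ha' : ∀ v : Euc n, ‖v‖ = 1 → ∫ x, (⟪v, x⟫ - ∫ y, ⟪v, y⟫ ∂ν) ^ 2 ∂ν ≤ a := fun v hv => by
    have h := hcov v
    rw [hv, one_pow, mul_one] at h
    refine le_trans (le_of_eq ?_) h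
    simp only [aent, cen, bary, fib_zero, inner_sub_right, sq]
    rw [← integral_inner (f := fun y : Euc n => y) (hS.integrable (by fun_prop)) v]
  refine (Lichn.improved_lichnerowicz hS hR hs hlc ha.le ha' hf).trans ?_
  exact mul_le_mul_of_nonneg_right (le_mul_of_one_le_left (sqrt_nonneg _) (by norm_num))
    (integral_nonneg fun x => sq_nonneg _)

end Vale.Agent.P245N
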