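import Vale.Agent.P245N.Spec
import Vale.Agent.P245N.Pairing.Basic

open MeasureTheory Real Filter Set
open scoped Topology RealInnerProductSpace

namespace Vale.Agent.P245N

open Vale.Agent.P245

variable {n : ℕ} {μ : Measure (Euc n)} [IsProbabilityMeasure μ] {R t r : ℝ} {g : Euc n → ℝ} {g' : Euc n → Euc n}
  {Δ : Euc n → Euc n} {B lo up : ℝ}

lemma wt_chan (hS : Supp μ R) (hg : Continuous g) (hlo : 0 < lo) (hav : ∀ θ, lo ≤ av t μ g θ ∧ av t μ g θ ≤ up)
    (hΔ : Continuous Δ) (hB : ∀ θ, ‖Δ θ‖ ≤ B) :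
    Wt (av t μ g) up (fun θ => √r • Δ θ) (√r * B) where
  qc := continuous_av hS hg
  qpos θ := hlo.trans_le (hav θ).1
  qle θ := (hav θ).2
  ac := by fun_prop
  ale θ := by
    rw [norm_smul, norm_eq_abs, abs_of_nonneg (Real.sqrt_nonneg _)]
    exact mul_le_mul_of_nonneg_left (hB θ) (Real.sqrt_nonneg _)

omit [IsProbabilityMeasure μ] in
lemma cmass_eq (hr : 0 ≤ r) (z : Euc n) :
    cmass r t μ g Δ z = cm t μ (av t μ g) (fun θ => √r • Δ θ) (fun _ => 1) z := by
  rw [cmass, qexp, cm]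
  congr 1; funext θ
  rw [chan_eq_chd hr]; ring

omit [IsProbabilityMeasure μ] in
lemma chm_eq (z : Euc n) {a : Euc n → Euc n} :
    chm t μ g a z = cm t μ (av t μ g) a (fun _ => 1) z := by
  rw [chm, cm]; congr 1; funext θ; ring

section

variable (hS : Supp μ R) (hg : Continuous g) (hlo : 0 < lo) (hav : ∀ θ, lo ≤ av t μ g θ ∧ av t μ g θ ≤ up)
  (hΔ : Continuous Δ) (hB : ∀ θ, ‖Δ θ‖ ≤ B) (hr : 0 ≤ r)

include hS hg hlo hav hΔ hB hr

lemma inner_cmean (z u : Euc n) :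
    ⟪u, cmass r t μ g Δ z • cmean r t μ g Δ z⟫
      = cm t μ (av t μ g) (fun θ => √r • Δ θ) (fun θ => ⟪u, Δ θ⟫) z := by
  have W := wt_chan (t := t) (r := r) hS hg hlo hav hΔ hB
  have hpos : 0 < cmass r t μ g Δ z := by rw [cmass_eq hr]; exact cm_one_pos hS W hlo (fun θ => (hav θ).1) z
  have hb : ∀ k θ, |⟪stdb n k, Δ θ⟫| ≤ B := fun k θ =>
    (abs_real_inner_le_norm _ _).trans (by rw [(stdb n).orthonormal.1 k, one_mul]; exact hB θ)
  rw [cmean, smul_smul, mul_inv_cancel₀ hpos.ne', one_smul, inner_sum]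
  have e : ∀ k, qexp t μ g (fun θ => chan r Δ z θ * ⟪stdb n k, Δ θ⟫)
      = cm t μ (av t μ g) (fun θ => √r • Δ θ) (fun θ => ⟪stdb n k, Δ θ⟫) z := fun k => by
    rw [qexp, cm]; congr 1; funext θ; rw [chan_eq_chd hr]; ring
  simp only [inner_smul_right, e, inner_eq_sum (stdb n) u (Δ _)]
  rw [cm_sum hS W Finset.univ (f := fun k θ => ⟪stdb n k, u⟫ * ⟪stdb n k, Δ θ⟫)
    (fun k => continuous_const.mul (continuous_const.inner hΔ)) (B := fun k => |⟪stdb n k, u⟫| * B)
    (fun k θ => by rw [abs_mul]; exact mul_le_mul_of_nonneg_left (hb k θ) (abs_nonneg _)) z]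
  refine Finset.sum_congr rfl fun k _ => ?_
  rw [cm_affine hS W (continuous_const.inner hΔ) (hb k), real_inner_comm (stdb n k) u, mul_comm]

lemma cmean_bound (z : Euc n) : ‖cmean r t μ g Δ z‖ ≤ B := by
  have W := wt_chan (t := t) (r := r) hS hg hlo hav hΔ hB
  set w := cmean r t μ g Δ z
  have hpos : 0 < cmass r t μ g Δ z := by rw [cmass_eq hr]; exact cm_one_pos hS W hlo (fun θ => (hav θ).1) z
  have h := inner_cmean hS hg hlo hav hΔ hB hr z w
  rw [inner_smul_right, real_inner_self_eq_norm_sq] at h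
  have h1 := cm_mono (t := t) hS W (f := fun θ => ⟪w, Δ θ⟫) (f₂ := fun _ => ‖w‖ * B * 1)
    (continuous_const.inner hΔ) continuous_const (B := ‖w‖ * B) (B₂ := |‖w‖ * B * 1|)
    (fun θ => (abs_real_inner_le_norm _ _).trans (mul_le_mul_of_nonneg_left (hB θ) (norm_nonneg _)))
    (fun _ => le_rfl)
    (fun θ => by rw [mul_one]; exact (real_inner_le_norm _ _).trans (mul_le_mul_of_nonneg_left (hB θ) (norm_nonneg _))) z
  rw [cm_affine hS W continuous_const (B := 1) (fun _ => le_of_eq abs_one), ← cmass_eq hr] at h1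
  rcases (norm_nonneg w).eq_or_lt with h0 | h0
  · rw [← h0]; exact (norm_nonneg _).trans (hB 0)
  · refine le_of_mul_le_mul_left ?_ (mul_pos hpos h0)
    linarith [show ‖w‖ ^ 2 = ‖w‖ * ‖w‖ from sq _]

lemma continuous_cmean : Continuous (cmean r t μ g Δ) := by
  have W := wt_chan (t := t) (r := r) hS hg hlo hav hΔ hB
  have hm : Continuous (cmass r t μ g Δ) := by
    rw [show cmass r t μ g Δ = _ from funext (cmass_eq hr)]
    exact cm_continuous hS W continuous_const (B := 1) fun _ => le_of_eq abs_one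
  have hpos : ∀ z, 0 < cmass r t μ g Δ z := fun z => by
    rw [cmass_eq hr]; exact cm_one_pos hS W hlo (fun θ => (hav θ).1) z
  have e : cmean r t μ g Δ = fun z => (cmass r t μ g Δ z)⁻¹ •
      ∑ k, cm t μ (av t μ g) (fun θ => √r • Δ θ) (fun θ => ⟪stdb n k, Δ θ⟫) z • stdb n k := by
    funext z
    simp only [← inner_cmean hS hg hlo hav hΔ hB hr z]
    rw [(stdb n).sum_repr' _, smul_smul, inv_mul_cancel₀ (hpos z).ne', one_smul]
  rw [e]
  exact (hm.inv₀ fun z => (hpos z).ne').smul (continuous_finsetSum _ fun k _ =>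
    (cm_continuous hS W (continuous_const.inner hΔ) (B := B) fun θ =>
      (abs_real_inner_le_norm _ _).trans (by rw [(stdb n).orthonormal.1 k, one_mul]; exact hB θ)).smul continuous_const)

lemma cw2_facts :
    Integrable (fun z => cmass r t μ g Δ z * ‖cmean r t μ g Δ z‖ ^ 2) (gam n) ∧
      cw2 r t μ g Δ ≤ qexp t μ g (fun θ => ‖Δ θ‖ ^ 2) := by
  have W := wt_chan (t := t) (r := r) hS hg hlo hav hΔ hB
  have h2 : ∀ θ, |‖Δ θ‖ ^ 2| ≤ B ^ 2 := fun θ => by
    rw [abs_of_nonneg (sq_nonneg _)]; exact pow_le_pow_left₀ (norm_nonneg _) (hB θ) 2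
  obtain ⟨i1, -⟩ := cm_integral (t := t) hS W (f := fun _ => (1 : ℝ)) continuous_const (B := 1) fun _ => le_of_eq abs_one
  obtain ⟨i2, e2⟩ := cm_integral (t := t) hS W (f := fun θ => ‖Δ θ‖ ^ 2) (hΔ.norm.pow 2) h2
  have iW : Integrable (fun z => cmass r t μ g Δ z * ‖cmean r t μ g Δ z‖ ^ 2) (gam n) := by
    simp only [cmass_eq hr]
    refine i1.mul_bdd (c := B ^ 2) ((continuous_cmean hS hg hlo hav hΔ hB hr).norm.pow 2).aestronglyMeasurable
      (Eventually.of_forall fun z => ?_)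
    rw [norm_eq_abs, abs_of_nonneg (sq_nonneg _)]
    exact pow_le_pow_left₀ (norm_nonneg _) (cmean_bound hS hg hlo hav hΔ hB hr z) 2
  refine ⟨iW, ?_⟩
  rw [cw2, qexp, ← e2]
  refine integral_mono iW i2 fun z => ?_
  set w := cmean r t μ g Δ z
  have h := inner_cmean hS hg hlo hav hΔ hB hr z w
  rw [inner_smul_right, real_inner_self_eq_norm_sq] at h
  have h3 := cm_mono (t := t) hS W (f := fun θ => ⟪w, Δ θ⟫) (f₂ := fun θ => ‖w‖ ^ 2 / 2 * 1 + 1 / 2 * ‖Δ θ‖ ^ 2)
    (continuous_const.inner hΔ) (continuous_const.add ((hΔ.norm.pow 2).const_mul _)) (B := ‖w‖ * B)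
    (B₂ := ‖w‖ ^ 2 / 2 * 1 + 1 / 2 * B ^ 2)
    (fun θ => (abs_real_inner_le_norm _ _).trans (mul_le_mul_of_nonneg_left (hB θ) (norm_nonneg _)))
    (fun θ => by
      rw [abs_of_nonneg (by positivity)]
      exact add_le_add le_rfl (mul_le_mul_of_nonneg_left ((le_abs_self _).trans (h2 θ)) (by norm_num)))
    (fun θ => by linarith [norm_sub_sq_real w (Δ θ), sq_nonneg ‖w - Δ θ‖]) z
  rw [cm_add hS W (f := fun _ => ‖w‖ ^ 2 / 2 * 1) (f₂ := fun θ => 1 / 2 * ‖Δ θ‖ ^ 2)
      continuous_const ((hΔ.norm.pow 2).const_mul _) (B := |‖w‖ ^ 2 / 2 * 1|) (B₂ := 1 / 2 * B ^ 2)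
      (fun _ => le_rfl) (fun θ => by
        rw [abs_mul, abs_of_pos (by norm_num : (0:ℝ) < 1 / 2)]; exact mul_le_mul_of_nonneg_left (h2 θ) (by norm_num)),
    cm_affine hS W continuous_const (B := 1) (fun _ => le_of_eq abs_one),
    cm_affine hS W (f := fun θ => ‖Δ θ‖ ^ 2) (hΔ.norm.pow 2) h2, ← cmass_eq hr, ← h] at h3
  linarith

lemma corr_le (hR : 0 ≤ R) :
    cw2 r t μ g Δ - √(qexp t μ g (fun θ => ‖Δ θ‖ ^ 2) * qexp t μ g (fun θ => ‖Δ θ - dd t μ g θ‖ ^ 2))
      ≤ ∫ z, elaw t μ (fun θ => chd (fun θ => √r • Δ θ) θ z * ⟪cmean r t μ g Δ z, cov t μ g θ⟫) ∂(gam n) := by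
  have W := wt_chan (t := t) (r := r) hS hg hlo hav hΔ hB
  obtain ⟨iW, hWG⟩ := cw2_facts hS hg hlo hav hΔ hB hr
  obtain ⟨Bg, -, hBg⟩ := exists_bound hR hg
  set q := av t μ g with hq
  set a := fun θ => √r • Δ θ with ha
  set D := lo⁻¹ * (2 * Bg * R) with hD
  have hd : Continuous (dd t μ g) := (W.qc.inv₀ fun θ => (W.qpos θ).ne').smul (continuous_cov hS hg)
  have hdb : ∀ θ, ‖dd t μ g θ‖ ≤ D := fun θ => by
    rw [dd, norm_smul, norm_eq_abs, abs_inv, abs_of_pos (W.qpos θ)]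
    exact mul_le_mul (inv_anti₀ hlo (hav θ).1) (norm_cov_le hS hR hBg θ) (norm_nonneg _) (inv_nonneg.2 hlo.le)
  have hX2 : ∀ θ, |‖Δ θ - dd t μ g θ‖ ^ 2| ≤ (B + D) ^ 2 := fun θ => by
    rw [abs_of_nonneg (sq_nonneg _)]
    exact pow_le_pow_left₀ (norm_nonneg _) ((norm_sub_le _ _).trans (add_le_add (hB θ) (hdb θ))) 2
  obtain ⟨iX, eX⟩ := cm_integral (t := t) hS W (f := fun θ => ‖Δ θ - dd t μ g θ‖ ^ 2) ((hΔ.sub hd).norm.pow 2) hX2
  have hcov : ∀ θ, cov t μ g θ = q θ • dd t μ g θ := fun θ => by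
    rw [dd, smul_smul, mul_inv_cancel₀ (W.qpos θ).ne', one_smul]
  have hP : ∀ z, elaw t μ (fun θ => chd a θ z * ⟪cmean r t μ g Δ z, cov t μ g θ⟫)
      = cm t μ q a (fun θ => ⟪cmean r t μ g Δ z, dd t μ g θ⟫) z := fun z => by
    simp only [cm, hcov, inner_smul_right]
  obtain ⟨iP, -⟩ := swap_gam (t := t) hS (h := fun θ z => chd a θ z * ⟪cmean r t μ g Δ z, cov t μ g θ⟫)
    ((continuous_chd W.ac).mul (((continuous_cmean hS hg hlo hav hΔ hB hr).comp continuous_snd).inner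
      ((continuous_cov hS hg).comp continuous_fst)))
    (B := B * (2 * Bg * R)) (c := √r * B) fun θ z => by
      rw [abs_mul, mul_comm, abs_of_pos (chd_pos _ _ _)]
      exact mul_le_mul ((abs_real_inner_le_norm _ _).trans (mul_le_mul (cmean_bound hS hg hlo hav hΔ hB hr z)
        (norm_cov_le hS hR hBg θ) (norm_nonneg _) ((norm_nonneg _).trans (hB 0)))) (chd_le W.ale θ z)
        (chd_pos _ _ _).le (mul_nonneg ((norm_nonneg _).trans (hB 0)) ((norm_nonneg _).trans (norm_cov_le (T := t) hS hR hBg θ)))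
  have hG0 : 0 ≤ qexp t μ g (fun θ => ‖Δ θ‖ ^ 2) :=
    integral_nonneg fun x => integral_nonneg fun z => mul_nonneg (W.qpos _).le (sq_nonneg _)
  have hX0 : 0 ≤ qexp t μ g (fun θ => ‖Δ θ - dd t μ g θ‖ ^ 2) :=
    integral_nonneg fun x => integral_nonneg fun z => mul_nonneg (W.qpos _).le (sq_nonneg _)
  rw [sub_le_comm]
  refine le_sqrt_mul_of_forall hG0 hX0 fun s hs => ?_
  have hz : ∀ z, cmass r t μ g Δ z * ‖cmean r t μ g Δ z‖ ^ 2
        - elaw t μ (fun θ => chd a θ z * ⟪cmean r t μ g Δ z, cov t μ g θ⟫)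
      ≤ s / 2 * (cmass r t μ g Δ z * ‖cmean r t μ g Δ z‖ ^ 2)
        + 1 / (2 * s) * cm t μ q a (fun θ => ‖Δ θ - dd t μ g θ‖ ^ 2) z := fun z => by
    set w := cmean r t μ g Δ z
    have h := inner_cmean hS hg hlo hav hΔ hB hr z w
    rw [inner_smul_right, real_inner_self_eq_norm_sq] at h
    have b1 : ∀ θ, |⟪w, Δ θ⟫| ≤ ‖w‖ * B := fun θ =>
      (abs_real_inner_le_norm _ _).trans (mul_le_mul_of_nonneg_left (hB θ) (norm_nonneg _))
    have b2 : ∀ θ, |⟪w, dd t μ g θ⟫| ≤ ‖w‖ * D := fun θ =>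
      (abs_real_inner_le_norm _ _).trans (mul_le_mul_of_nonneg_left (hdb θ) (norm_nonneg _))
    have b3 : ∀ θ, |1 / (2 * s) * ‖Δ θ - dd t μ g θ‖ ^ 2| ≤ 1 / (2 * s) * (B + D) ^ 2 := fun θ => by
      rw [abs_mul, abs_of_nonneg (by positivity : 0 ≤ 1 / (2 * s))]
      exact mul_le_mul_of_nonneg_left (hX2 θ) (by positivity)
    have c3 : Continuous fun θ => 1 / (2 * s) * ‖Δ θ - dd t μ g θ‖ ^ 2 := ((hΔ.sub hd).norm.pow 2).const_mul _
    have b4 : ∀ θ, |s * ‖w‖ ^ 2 / 2 * 1 + 1 / (2 * s) * ‖Δ θ - dd t μ g θ‖ ^ 2|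
        ≤ s * ‖w‖ ^ 2 / 2 * 1 + 1 / (2 * s) * (B + D) ^ 2 := fun θ => (abs_add_le _ _).trans
      (add_le_add (le_of_eq (abs_of_nonneg (by positivity))) (b3 θ))
    have h1 := cm_mono (t := t) hS W (f := fun θ => ⟪w, Δ θ⟫)
      (f₂ := fun θ => ⟪w, dd t μ g θ⟫ + (s * ‖w‖ ^ 2 / 2 * 1 + 1 / (2 * s) * ‖Δ θ - dd t μ g θ‖ ^ 2))
      (continuous_const.inner hΔ) ((continuous_const.inner hd).add (continuous_const.add c3)) b1
      (fun θ => (abs_add_le _ _).trans (add_le_add (b2 θ) (b4 θ))) (fun θ => by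
        have h7 := mul_le_mul_of_nonneg_left (sq_nonneg ‖s • w - (Δ θ - dd t μ g θ)‖)
          (by positivity : 0 ≤ 1 / (2 * s))
        rw [norm_sub_sq_real, norm_smul, norm_eq_abs, mul_pow, sq_abs, real_inner_smul_left] at h7
        have e : 1 / (2 * s) * (s ^ 2 * ‖w‖ ^ 2 - 2 * (s * ⟪w, Δ θ - dd t μ g θ⟫)
            + ‖Δ θ - dd t μ g θ‖ ^ 2) = s * ‖w‖ ^ 2 / 2 + 1 / (2 * s) * ‖Δ θ - dd t μ g θ‖ ^ 2
              - ⟪w, Δ θ - dd t μ g θ⟫ := by field_simp; ring
        rw [mul_zero, e, inner_sub_right] at h7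
        linarith) z
    rw [cm_add hS W (f := fun θ => ⟪w, dd t μ g θ⟫)
        (f₂ := fun θ => s * ‖w‖ ^ 2 / 2 * 1 + 1 / (2 * s) * ‖Δ θ - dd t μ g θ‖ ^ 2)
        (continuous_const.inner hd) (continuous_const.add c3) b2 b4,
      cm_add hS W continuous_const c3 (B := |s * ‖w‖ ^ 2 / 2 * 1|) (fun _ => le_rfl) b3,
      cm_affine hS W continuous_const (B := 1) (fun _ => le_of_eq abs_one),
      cm_affine hS W (f := fun θ => ‖Δ θ - dd t μ g θ‖ ^ 2) ((hΔ.sub hd).norm.pow 2) hX2, ← cmass_eq hr, ← hP z, ← h] at h1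
    linarith
  have hI := integral_mono (iW.sub iP) ((iW.const_mul (s / 2)).fun_add (iX.const_mul (1 / (2 * s)))) hz
  simp only [Pi.sub_apply] at hI
  rw [integral_sub iW iP, integral_add (iW.const_mul _) (iX.const_mul _), integral_const_mul, integral_const_mul,
    eX, ← cw2] at hI
  refine hI.trans (le_of_le_of_eq (add_le_add (mul_le_mul_of_nonneg_left hWG (by positivity)) le_rfl) ?_)
  simp only [qexp, hq]
  ring

lemma cent_eq :
    cent r t μ g Δ = elaw t μ (fun θ => av t μ g θ * log (av t μ g θ)) + chMI t μ g (fun θ => √r • Δ θ) := by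
  have W := wt_chan (t := t) (r := r) hS hg hlo hav hΔ hB
  set q := av t μ g with hq
  set a := fun θ => √r • Δ θ with ha
  set A := √r * B
  have hc := continuous_chd W.ac
  have hlogc : Continuous fun θ => log (q θ) := W.qc.log fun θ => (W.qpos θ).ne'
  have hlb : ∀ θ, |log (q θ)| ≤ |log lo| + |log up| := fun θ => by
    have h1 := log_le_log hlo (hav θ).1
    have h2 := log_le_log (W.qpos θ) (hav θ).2
    rw [abs_le]
    constructor <;> linarith [neg_abs_le (log lo), le_abs_self (log up), abs_nonneg (log lo), abs_nonneg (log up)]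
  obtain ⟨i1, e1⟩ := cm_integral (t := t) hS W hlogc hlb
  have hcl : ∀ z, Continuous fun θ => log (chd a θ z) := fun z =>
    (hc.comp (continuous_id.prodMk (continuous_const (y := z)))).log fun θ => (chd_pos _ _ _).ne'
  have hclb : ∀ θ z, |log (chd a θ z)| ≤ A * ‖z‖ + A ^ 2 := fun θ z => by
    rw [chd, log_exp]
    have h1 := (abs_real_inner_le_norm (a θ) z).trans (mul_le_mul_of_nonneg_right (W.ale θ) (norm_nonneg _))
    have h2 := pow_le_pow_left₀ (norm_nonneg _) (W.ale θ) 2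
    rw [abs_le] at h1 ⊢
    constructor <;> linarith [sq_nonneg ‖a θ‖, sq_nonneg A, h1.1, h1.2]
  obtain ⟨i2, -⟩ := swap_gam (t := t) hS (h := fun θ z => chd a θ z * (q θ * log (chd a θ z)))
    (hc.mul ((W.qc.comp continuous_fst).mul (hc.log fun p => (chd_pos _ _ _).ne')))
    (B := up * exp (A ^ 2)) (c := 2 * A) fun θ z => by
      refine (W.bd (f := fun θ => log (chd a θ z)) (fun θ => hclb θ z) z θ).trans ?_
      refine le_trans (mul_le_mul_of_nonneg_left (mul_le_mul_of_nonneg_left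
        ((le_add_of_nonneg_right zero_le_one).trans (add_one_le_exp _)) W.up_nonneg) (exp_pos _).le) (le_of_eq ?_)
      rw [mul_left_comm, ← exp_add, mul_assoc up, ← exp_add]; ring_nf
  obtain ⟨i3, -⟩ := cm_integral (t := t) hS W (f := fun _ => (1 : ℝ)) continuous_const (B := 1) fun _ => le_of_eq abs_one
  set m := fun z => cm t μ q a (fun _ => 1) z with hm
  have iml : Integrable (fun z => m z * log (m z)) (gam n) := by
    refine ((integrable_const (1 : ℝ)).add ((expInt_gam (n := n) (2 * A)).const_mul (up ^ 2))).mono'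
      (Real.continuous_mul_log.comp_aestronglyMeasurable i3.aestronglyMeasurable) (Eventually.of_forall fun z => ?_)
    have hm0 := (cm_one_pos (t := t) hS W hlo (fun θ => (hav θ).1) z).le
    rw [norm_eq_abs]
    refine (abs_mul_log_le hm0).trans (add_le_add le_rfl
      ((pow_le_pow_left₀ hm0 (cm_le hS W z) 2).trans (le_of_eq ?_)))
    rw [mul_pow, ← exp_nat_mul]; push_cast; ring_nf
  have i2' : Integrable (fun z => cm t μ q a (fun θ => log (chd a θ z)) z - m z * log (m z)) (gam n) := i2.sub iml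
  have hz : ∀ z, eent t μ (fun θ => q θ * chan r Δ z θ)
      = cm t μ q a (fun θ => log (q θ)) z + (cm t μ q a (fun θ => log (chd a θ z)) z - m z * log (m z)) := fun z => by
    have e2 : elaw t μ (fun θ => q θ * chd a θ z) = m z := by
      show _ = elaw t μ (fun θ => chd a θ z * (q θ * 1))
      congr 1; funext θ; ring
    have e3 : (fun θ => q θ * chd a θ z * log (q θ * chd a θ z))
        = fun θ => chd a θ z * (q θ * (log (q θ) + log (chd a θ z))) := funext fun θ => by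
      rw [log_mul (W.qpos θ).ne' (chd_pos _ _ _).ne']; ring
    simp only [eent, show ∀ θ, chan r Δ z θ = chd a θ z from fun θ => chan_eq_chd hr Δ z θ, e2, e3]
    rw [← add_sub_assoc, ← cm_add hS W hlogc (hcl z) hlb fun θ => hclb θ z]
    rfl
  rw [cent, integral_congr_ae (Eventually.of_forall hz), integral_add i1 i2', e1, chMI]
  congr 1
  refine integral_congr_ae (Eventually.of_forall fun z => ?_)
  simp only [chm_eq, hm, hq, cm]
  congr 2; funext θ; ring

end

lemma ent_drop (hS : Supp μ R) (hR : 0 ≤ R) (hμ : IsLC 0 μ) (ht : 0 < t) (hp : Pos1 g g')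
    (hg1 : ∫ x, g x ∂μ = 1) :
    ent μ g - elaw t μ (fun θ => av t μ g θ * log (av t μ g θ)) ≤ 1 / (2 * t) * ∫ x, fis g g' x ∂μ := by
  have hg := hp.cont
  have hgl : Continuous fun x => g x * log (g x) := Real.continuous_mul_log.comp hg
  obtain ⟨Bg, -, hBg⟩ := exists_bound hR hg
  obtain ⟨Bl, -, hBl⟩ := exists_bound hR hgl
  obtain ⟨Bf, -, hBf⟩ := exists_bound hR hp.cont_fis
  simp only [norm_eq_abs] at hBg hBl hBf
  obtain ⟨Q, hQ⟩ := (isCompact_Icc (a := -Bg) (b := Bg)).exists_bound_of_continuousOn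
    Real.continuous_mul_log.continuousOn
  simp only [norm_eq_abs] at hQ
  have hqlb : ∀ θ, |av t μ g θ * log (av t μ g θ)| ≤ Q := fun θ => hQ _ (abs_le.1 (abs_av_le hS hBg θ))
  have hqlc : Continuous fun θ => av t μ g θ * log (av t μ g θ) := Real.continuous_mul_log.comp (continuous_av hS hg)
  have e0 : ∀ {f : Euc n → ℝ}, Continuous f → elaw t μ (fun θ => av t μ f θ) = ∫ x, f x ∂μ := fun {f} hf => by
    obtain ⟨B', hB0', hB'⟩ := exists_bound hR hf
    have e := pair_fib hS ht.le (H := fun _ y => f y) (hf.comp continuous_snd) (fun _ y hy => hB' y hy) hB0'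
    rw [← e, integral_fun_fst (fun y => f y)]; simp
  have hbf : ∀ θ, |av t μ (fis g g') θ| ≤ Bf := abs_av_le hS hBf
  have hb2 : ∀ θ, |1 / (2 * t) * av t μ (fis g g') θ| ≤ 1 / (2 * t) * Bf := fun θ => by
    rw [abs_mul, abs_of_pos (by positivity : 0 < 1 / (2 * t))]
    exact mul_le_mul_of_nonneg_left (hbf θ) (by positivity)
  have h := elaw_mono (t := t) hS (h₁ := fun θ => av t μ (fun y => g y * log (g y)) θ)
    (h₂ := fun θ => av t μ g θ * log (av t μ g θ) + 1 / (2 * t) * av t μ (fis g g') θ) (continuous_av hS hgl)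
    (hqlc.add ((continuous_av hS hp.cont_fis).const_mul _)) (abs_av_le hS hBl)
    (fun θ => (abs_add_le _ _).trans (add_le_add (hqlb θ) (hb2 θ)))
    (fun θ => by
      have h1 := ent_fib_le hS hR hμ ht hp θ
      rw [ent] at h1
      simp only [av] at h1 ⊢
      linarith)
  have e := elaw_affine (t := t) hS (continuous_av (T := t) hS hp.cont_fis) hbf (1 / (2 * t)) 0
  simp only [add_zero] at e
  rw [e0 hgl, elaw_add hS hqlc ((continuous_av hS hp.cont_fis).const_mul _) hqlb hb2, e, e0 hp.cont_fis] at h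
  rw [ent, hg1, log_one, mul_zero, sub_zero]
  linarith

/-- The entropy budget bounds the correlation with the conditional expectation. -/
theorem pairing : PairingStmt := by
  refine ⟨36, by norm_num, ?_⟩
  intro n μ hμp R hR hS hμ hsub g g' hp hg1 t r ht hr Δ hΔ B hB
  obtain ⟨lo, up, hlo, hav⟩ := av_bounds (T := t) hS hR hp.cont hp.pos
  have W := wt_chan (t := t) (r := r) hS hp.cont hlo hav hΔ hB
  obtain ⟨-, hWG⟩ := cw2_facts hS hp.cont hlo hav hΔ hB hr.le
  have hcorr := corr_le hS hp.cont hlo hav hΔ hB hr.le hR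
  have hfin := final_channel hS hR (sub3_exp hS hsub) hp.cont (fun x => (hp.pos x).le) hg1 ht.le W.ac W.ale
    (continuous_cmean hS hp.cont hlo hav hΔ hB hr.le) (cmean_bound hS hp.cont hlo hav hΔ hB hr.le) √t
  rw [Real.sq_sqrt ht.le] at hfin
  simp only [chm_eq, ← cmass_eq hr.le] at hfin
  rw [← cw2] at hfin
  have h1 := mul_le_mul_of_nonneg_left hcorr (Real.sqrt_nonneg t)
  have h2 := mul_le_mul_of_nonneg_left hWG (by positivity : 0 ≤ 4 * 9 * t)
  have h3 := cent_eq hS hp.cont hlo hav hΔ hB hr.le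
  have h4 := ent_drop hS hR hμ ht hp hg1
  linarith

end Vale.Agent.P245N
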