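import Vale.Agent.P245N.Spec
import Vale.Agent.P245N.Pigeon.Mom

/-!
Some time in a long window has small `E d (1 - t A) d`: the derivative of `t² I` along the localisation path.
-/

open MeasureTheory Real Filter Set
open scoped Topology RealInnerProductSpace

namespace Vale.Agent.P245N.Pig

open Vale.Agent.P245

variable {n : ℕ} {μ : Measure (Euc n)} [IsProbabilityMeasure μ] {R : ℝ} {g : Euc n → ℝ} {g' : Euc n → Euc n}

lemma av_ge_pos (hS : Supp μ R) (hR : 0 ≤ R) (h : Pos1 g g') :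
    ∃ m, 0 < m ∧ ∀ t θ, m ≤ av t μ g θ := by
  obtain ⟨x₀, -, hx₀⟩ := (isCompact_closedBall (0 : Euc n) R).exists_isMinOn
    ⟨0, Metric.mem_closedBall_self hR⟩ h.cont.continuousOn
  refine ⟨g x₀, h.pos _, fun t θ => ?_⟩
  have := isProb_fib (T := t) hS θ
  have hsf := supp_fib (T := t) hS θ
  calc g x₀ = ∫ _, g x₀ ∂(fib t μ θ) := by simp
    _ ≤ _ := integral_mono_ae (integrable_const _) (hsf.integrable h.cont)
      (hsf.mono fun x hx => hx₀ (by simpa using hx))

lemma gv_zero (σ : ℝ) (b : Euc n) : gv σ b 0 0 (fun _ => 0) = 0 := by simp [gv]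

lemma gv_sum {ι : Type*} (S : Finset ι) (σ : ℝ) (b : Euc n) (ft : ι → ℝ) (f' : ι → Euc n) (d : Fin n → ι → ℝ) :
    gv σ b (∑ k ∈ S, ft k) (∑ k ∈ S, f' k) (fun i => ∑ k ∈ S, d i k)
      = ∑ k ∈ S, gv σ b (ft k) (f' k) (fun i => d i k) := by
  simp only [gv, sum_inner, Finset.sum_add_distrib, ← Finset.mul_sum]
  rw [Finset.sum_comm]

lemma gen_alg {a : ℝ} (ha : 0 < a) (c A : Fin n → ℝ) (w : Fin n → Euc n) (v : Euc n) {Q : ℝ}
    (hQ : ∑ x, c x * A x = Q) :
    -2 * Q / a ≤ a⁻¹ * ∑ x, (c x * -A x + c x * -A x + ⟪w x, w x⟫) + (∑ x, c x * c x) * (‖v‖ ^ 2 / a ^ 3)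
      + ⟪∑ x, (c x • w x + c x • w x), (-1 / a ^ 2) • v⟫ := by
  have e : ∀ x, ‖w x - (c x / a) • v‖ ^ 2 / a - 2 * (c x * A x) / a
      = a⁻¹ * (c x * -A x + c x * -A x + ⟪w x, w x⟫) + c x * c x * (‖v‖ ^ 2 / a ^ 3)
        + ⟪c x • w x + c x • w x, (-1 / a ^ 2) • v⟫ := fun x => by
    rw [norm_sub_sq_real, norm_smul, real_inner_smul_right, real_inner_smul_right, inner_add_left,
      real_inner_smul_left, mul_pow, norm_eq_abs, sq_abs, real_inner_self_eq_norm_sq]
    field_simp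
    ring
  rw [Finset.mul_sum, Finset.sum_mul, sum_inner, ← Finset.sum_add_distrib, ← Finset.sum_add_distrib]
  simp only [← e, Finset.sum_sub_distrib, ← Finset.sum_div, ← Finset.mul_sum, hQ]
  have : 0 ≤ (∑ x, ‖w x - (c x / a) • v‖ ^ 2) / a := div_nonneg (Finset.sum_nonneg fun x _ => sq_nonneg _) ha.le
  rw [neg_mul, neg_div]
  linarith

/-- `|cov|² / av`. -/
noncomputable def fd (μ : Measure (Euc n)) (g : Euc n → ℝ) (t : ℝ) (θ : Euc n) : ℝ :=
  ‖cov t μ g θ‖ ^ 2 / av t μ g θ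

/-- `d A d` weighted by `av`. -/
noncomputable def ad (μ : Measure (Euc n)) (g : Euc n → ℝ) (t : ℝ) (θ : Euc n) : ℝ :=
  aent t μ θ (cov t μ g θ) (cov t μ g θ) / av t μ g θ

lemma q_norm_dd (hS : Supp μ R) (h : Pos1 g g') (t : ℝ) (θ : Euc n) :
    av t μ g θ * ‖dd t μ g θ‖ ^ 2 = fd μ g t θ := by
  have := av_pos (T := t) hS h.cont h.pos θ
  rw [dd, fd, norm_smul, norm_inv, norm_eq_abs, abs_of_pos this]
  field_simp

lemma q_aent_dd (hS : Supp μ R) (h : Pos1 g g') (t : ℝ) (θ : Euc n) :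
    av t μ g θ * aent t μ θ (dd t μ g θ) (dd t μ g θ) = ad μ g t θ := by
  have := av_pos (T := t) hS h.cont h.pos θ
  rw [dd, ad, ← inner_Aop hS, ← inner_Aop hS, map_smul, real_inner_smul_left, real_inner_smul_right]
  field_simp

lemma info_eq (hS : Supp μ R) (h : Pos1 g g') (t : ℝ) : info t μ g = elaw t μ (fd μ g t) := by
  simp only [info, qexp, q_norm_dd hS h]

lemma continuous_fd (hS : Supp μ R) (h : Pos1 g g') (t : ℝ) : Continuous (fd μ g t) :=
  ((continuous_cov hS h.cont).norm.pow 2).div (continuous_av hS h.cont) fun θ => (av_pos hS h.cont h.pos θ).ne'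

lemma continuous_ad (hS : Supp μ R) (h : Pos1 g g') (t : ℝ) : Continuous (ad μ g t) := by
  have e : ad μ g t = fun θ => ⟪cov t μ g θ, Aop t μ θ (cov t μ g θ)⟫ / av t μ g θ :=
    funext fun θ => by rw [ad, inner_Aop hS]
  rw [e]
  exact ((continuous_cov hS h.cont).inner ((continuous_Aop hS).clm_apply (continuous_cov hS h.cont))).div
    (continuous_av hS h.cont) fun θ => (av_pos hS h.cont h.pos θ).ne'

lemma fd_nonneg (hS : Supp μ R) (h : Pos1 g g') (t : ℝ) (θ : Euc n) : 0 ≤ fd μ g t θ :=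
  div_nonneg (sq_nonneg _) (av_pos hS h.cont h.pos θ).le

lemma ad_nonneg (hS : Supp μ R) (h : Pos1 g g') (t : ℝ) (θ : Euc n) : 0 ≤ ad μ g t θ :=
  div_nonneg (aent_self_nonneg _ _) (av_pos hS h.cont h.pos θ).le

lemma bdd_fd_ad (hS : Supp μ R) (hR : 0 ≤ R) (h : Pos1 g g') (t : ℝ) :
    ∃ B, 0 ≤ B ∧ (∀ θ, |fd μ g t θ| ≤ B) ∧ ∀ θ, |ad μ g t θ| ≤ B := by
  obtain ⟨B, hB0, hB⟩ := exists_bound hR h.cont
  obtain ⟨m, hm, hm'⟩ := av_ge_pos hS hR h
  refine ⟨(2 * B * R) ^ 2 * (1 + 4 * R ^ 2) / m, by positivity, fun θ => ?_, fun θ => ?_⟩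
  · rw [fd, abs_div, abs_of_nonneg (sq_nonneg _), abs_of_pos (hm.trans_le (hm' t θ))]
    refine div_le_div₀ (by positivity) ?_ hm (hm' t θ)
    exact (pow_le_pow_left₀ (norm_nonneg _) (norm_cov_le hS hR hB θ) 2).trans
      (le_mul_of_one_le_right (sq_nonneg _) (by nlinarith))
  · rw [ad, abs_div, abs_of_pos (hm.trans_le (hm' t θ))]
    refine div_le_div₀ (by positivity) ?_ hm (hm' t θ)
    refine (abs_aent_le hS θ _ _).trans (mul_le_mul ?_ (by linarith) (by positivity) (sq_nonneg _))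
    rw [← sq]
    exact pow_le_pow_left₀ (norm_nonneg _) (norm_cov_le hS hR hB θ) 2

omit [IsProbabilityMeasure μ] in
lemma elaw_nonneg {t : ℝ} {k : Euc n → ℝ} (hk : ∀ z, 0 ≤ k z) : 0 ≤ elaw t μ k :=
  integral_nonneg fun _ => integral_nonneg fun _ => hk _

lemma elaw_comb (hS : Supp μ R) {t : ℝ} {k l : Euc n → ℝ} {B B' : ℝ} (hk : Continuous k) (hl : Continuous l)
    (hB : ∀ z, |k z| ≤ B) (hB' : ∀ z, |l z| ≤ B') (a : ℝ) :
    elaw t μ (fun z => k z + a * l z) = elaw t μ k + a * elaw t μ l := by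
  have hp : Continuous fun p : Euc n × Euc n => pt (√t) p.1 p.2 := by unfold pt; fun_prop
  have ik : ∀ x, Integrable (fun G => k (pt (√t) x G)) (gam n) := fun x =>
    integrable_gam_bdd (hk.comp (continuous_pt _ x)) fun _ => hB _
  have il : ∀ x, Integrable (fun G => l (pt (√t) x G)) (gam n) := fun x =>
    integrable_gam_bdd (hl.comp (continuous_pt _ x)) fun _ => hB' _
  simp only [elaw, fun x => integral_add (ik x) ((il x).const_mul a), integral_const_mul]
  rw [integral_add (hS.integrable (continuous_gint (H := fun x G => k (pt (√t) x G)) (hk.comp hp) fun _ _ => hB _))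
    ((hS.integrable (continuous_gint (H := fun x G => l (pt (√t) x G)) (hl.comp hp) fun _ _ => hB' _)).const_mul a),
    integral_const_mul]

/-- `t² I ≤ J`. -/
lemma info_le (hS : Supp μ R) (hR : 0 ≤ R) (hμ : IsLC 0 μ) (h : Pos1 g g') {t : ℝ} (ht : 0 < t) :
    t ^ 2 * info t μ g ≤ ∫ x, fis g g' x ∂μ := by
  obtain ⟨Bf, hBf0, hBf⟩ := exists_bound hR h.cont_fis
  obtain ⟨B, -, hB, -⟩ := bdd_fd_ad hS hR h t
  have hpt : ∀ θ, t ^ 2 * fd μ g t θ + 0 ≤ av t μ (fis g g') θ := fun θ => by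
    have hm := av_pos (T := t) hS h.cont h.pos θ
    have h1 := norm_cov_sq_le hS hμ ht h.cont h.pos θ
    have h2 := ent_fib_le hS hR hμ ht h θ
    rw [le_div_iff₀ ht] at h1
    have h3 := mul_le_mul_of_nonneg_left h2 (mul_nonneg (mul_nonneg zero_le_two hm.le) ht.le)
    have e : 2 * av t μ g θ * t * (1 / (2 * t) * av t μ (fis g g') θ) = av t μ g θ * av t μ (fis g g') θ := by
      field_simp
    rw [add_zero, fd, ← mul_div_assoc, div_le_iff₀ hm]
    nlinarith [mul_le_mul_of_nonneg_right h1 ht.le]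
  have hc := continuous_fd hS h t
  have h1 := elaw_mono (t := t) hS (B₁ := t ^ 2 * B) (h₁ := fun θ => t ^ 2 * fd μ g t θ + 0) (by fun_prop) (continuous_av hS h.cont_fis)
    (fun θ => by
      rw [add_zero, abs_mul, abs_of_nonneg (sq_nonneg t)]
      exact mul_le_mul_of_nonneg_left (hB θ) (sq_nonneg t))
    (fun θ => abs_av_le hS hBf θ) hpt
  rw [elaw_affine hS hc hB, add_zero, ← info_eq hS h] at h1
  refine h1.trans (le_of_eq ?_)
  have hav : ∀ θ, av ((√t) ^ 2) μ (fis g g') θ = av t μ (fis g g') θ := fun θ => by rw [Real.sq_sqrt ht.le]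
  have h2 := integral_qop (s := √t) hS hR h.cont_fis
  simp only [qop, hav] at h2
  exact h2

lemma c12_comp (hS : Supp μ R) (hR : 0 ≤ R) (hg : Continuous g) (s T : ℝ) (k : Fin n) :
    ∃ (ct : ℝ → Euc n → ℝ) (cd : ℝ → Euc n → Euc n) (cD : Fin n → ℝ → Euc n → ℝ),
      C12 s T (fun t θ => ⟪cov t μ g θ, stdb n k⟫) ct cd cD ∧
      ∀ t θ, gv 1 (bary t μ θ) (ct t θ) (cd t θ) (fun i => cD i t θ)
        = -⟪cov t μ g θ, cov t μ (fun y => ⟪stdb n k, y⟫) θ⟫ := by
  have hb := c12_av (μ := μ) (s := s) (T := T) hS hR (f := fun y => ⟪stdb n k, y⟫) (by fun_prop)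
  have hp := c12_av (μ := μ) (s := s) (T := T) hS hR (f := fun y => g y * ⟪stdb n k, y⟫) (by fun_prop)
  have hm := (C12.const (-1 : ℝ)).mul ((c12_av (μ := μ) hS hR hg).mul hb)
  refine ⟨_, _, _, (hp.add hm).congr fun t θ => ?_, fun t θ => ?_⟩
  · rw [inner_cov_av hS hg]; ring
  · rw [gv_add, gv_mul, gv_mul, gv_zero, gv_av hS hg, gv_av hS (f := fun y => ⟪stdb n k, y⟫) (by fun_prop),
      gv_av hS (f := fun y => g y * ⟪stdb n k, y⟫) (by fun_prop)]
    simp

lemma hasDerivAt_info (hS : Supp μ R) (hR : 0 ≤ R) (h : Pos1 g g') {t : ℝ} (ht : 0 < t) :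
    ∃ v, HasDerivAt (fun r => info r μ g) v t ∧ -2 * elaw t μ (ad μ g t) ≤ v := by
  obtain ⟨m, hm, hm'⟩ := av_ge_pos hS hR h
  have hgc := h.cont
  have ha := c12_av (μ := μ) (s := t / 2) (T := 2 * t) hS hR hgc
  have hq := ha.inv hm fun r _ θ => hm' r θ
  set e := fun i => stdb n i
  choose ct cd cD hc hcg using fun i => c12_comp (μ := μ) hS hR hgc (t / 2) (2 * t) i
  have hall := (C12.fin_sum Finset.univ fun i _ => (hc i).mul (hc i)).mul hq
  have hd := hasDerivAt_elaw (μ := μ) hS hR (by linarith) hall (t := t) ⟨by linarith, by linarith⟩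
  refine ⟨_, hd.congr_of_eventuallyEq ?_, ?_⟩
  · filter_upwards with r
    rw [info_eq hS h]
    congr 1
    funext θ
    rw [fd, div_eq_mul_inv, norm_sq_eq_sum (stdb n)]
    congr 1
    refine Finset.sum_congr rfl fun i _ => ?_
    rw [real_inner_comm]
    ring
  · obtain ⟨B, -, -, hB⟩ := bdd_fd_ad hS hR h t
    have hadc := continuous_ad hS h t
    have htI : t ∈ Icc (t / 2) (2 * t) := ⟨by linarith, by linarith⟩
    have cbb : CB (t / 2) (2 * t) fun r θ => bary r μ θ := by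
      refine (CB.sum Finset.univ fun i _ => (cb_av (μ := μ) hS hR (f := fun y => ⟪e i, y⟫) (by fun_prop)).smul
        (CB.const (e i))).congr fun r θ => ?_
      conv_lhs => rw [← (stdb n).sum_repr' (bary r μ θ)]
      exact Finset.sum_congr rfl fun i _ => by rw [← inner_bary hS]; rfl
    have cI : ∀ {F : ℝ → Euc n → Euc n}, CB (t / 2) (2 * t) F →
        CB (t / 2) (2 * t) fun r θ => ⟪F r θ, bary r μ θ⟫ := fun {F} hF => by
      refine (CB.sum Finset.univ fun i _ => (hF.inner_const (e i)).mul (cbb.inner_const (e i))).congr fun r θ => ?_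
      rw [inner_eq_sum (stdb n)]
      exact Finset.sum_congr rfl fun i _ => by rw [real_inner_comm (F r θ), real_inner_comm (bary r μ θ)]
    obtain ⟨hcw, BW, hBW0, hBW⟩ :=
      (hall.cbt.add (cI hall.cb')).add ((CB.const (1 / 2 : ℝ)).mul (CB.sum Finset.univ fun i _ => hall.cbD i))
    rw [← add_zero (-2 * elaw t μ (ad μ g t)), ← elaw_affine hS hadc hB]
    refine elaw_mono hS (B₁ := 2 * B) ((hadc.const_mul _).add continuous_const)
      (CB.cont ⟨hcw, BW, hBW0, hBW⟩ htI) (fun θ => ?_) (fun θ => hBW t htI θ) fun θ => ?_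
    · rw [add_zero, abs_mul, abs_neg, abs_two]
      exact mul_le_mul_of_nonneg_left (hB θ) zero_le_two
    -- pointwise generator inequality
    have hg0 := gv_av hS hgc t θ
    have ham := hm.trans_le (hm' t θ)
    show -2 * ad μ g t θ + 0 ≤ gv 1 (bary t μ θ) _ _ _
    rw [gv_mul, gv_inv _ _ ham.ne', hg0, gv_sum]
    simp only [gv_mul, hcg]
    set a := av t μ g θ with ha'
    set v := cov t μ g θ with hv
    have hAx : ∀ x, ⟪v, cov t μ (fun y => ⟪stdb n x, y⟫) θ⟫ = aent t μ θ v (stdb n x) := fun x => by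
      have := isProb_fib (T := t) hS θ
      have hsf := supp_fib (T := t) hS θ
      have h0 : ∀ y, ⟪stdb n x, y⟫ * ⟪v, cen t μ θ y⟫
          = ⟪v, cen t μ θ y⟫ * ⟪stdb n x, cen t μ θ y⟫ + ⟪stdb n x, bary t μ θ⟫ * ⟪v, cen t μ θ y⟫ := fun y => by
        simp only [cen, inner_sub_right]; ring
      rw [inner_cov hS (by fun_prop), integral_congr_ae (Eventually.of_forall h0),
        integral_add (hsf.integrable (by fun_prop)) (hsf.integrable (by fun_prop)), integral_const_mul,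
        integral_cen hS, mul_zero, add_zero]
      rfl
    have hA2 : ∑ x, ⟪v, stdb n x⟫ * aent t μ θ v (stdb n x) = aent t μ θ v v := by
      rw [aent_expand hS θ v v]; simp only [real_inner_comm v]
    simp only [hAx]
    have halg := gen_alg ham (fun x => ⟪v, stdb n x⟫) (fun x => aent t μ θ v (stdb n x)) (fun x => cd x t θ) v
      (Q := aent t μ θ v v) hA2
    rw [ad, ← hv, ← ha', ← mul_div_assoc, add_zero]
    simp only [one_mul, neg_zero, zero_div, zero_add]
    exact halg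

end Vale.Agent.P245N.Pig

namespace Vale.Agent.P245N

open Vale.Agent.P245 Pig

theorem pigeon : PigeonStmt := by
  intro n μ hμP R hR hS hμ g g' hg hg1 c₀ ϑ s k hc₀ hϑ hs hk hlow
  set J := ∫ x, fis g g' x ∂μ with hJ
  have hJ0 : 0 ≤ J := integral_nonneg fun x => fis_nonneg hg x
  have hval : ∀ t, qexp t μ g (fun θ => ‖dd t μ g θ‖ ^ 2 - t * aent t μ θ (dd t μ g θ) (dd t μ g θ))
      = info t μ g - t * elaw t μ (ad μ g t) := fun t => by
    obtain ⟨B, -, hB1, hB2⟩ := bdd_fd_ad hS hR hg t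
    rw [info_eq hS hg, sub_eq_add_neg, ← neg_mul, ← elaw_comb hS (continuous_fd hS hg t) (continuous_ad hS hg t) hB1 hB2]
    simp only [qexp, mul_sub, q_norm_dd hS hg, mul_left_comm _ t, q_aent_dd hS hg, neg_mul, ← sub_eq_add_neg]
  have hinfo0 : ∀ t, 0 ≤ info t μ g := fun t => by rw [info_eq hS hg]; exact elaw_nonneg (fd_nonneg hS hg t)
  set e := s * 2 ^ k with he
  have hse : s ≤ e := le_mul_of_one_le_right hs.le (one_le_pow₀ one_le_two)
  rcases hJ0.eq_or_lt with hz | hJpos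
  · refine ⟨s, le_rfl, hse, ?_⟩
    have h1 := info_le hS hR hμ hg hs
    rw [← hJ, ← hz] at h1
    have h2 : info s μ g = 0 := le_antisymm (nonpos_of_mul_nonpos_right h1 (by positivity)) (hinfo0 s)
    rw [hval, h2]
    have := mul_nonneg hs.le (elaw_nonneg (μ := μ) (t := s) (ad_nonneg hS hg s))
    linarith
  by_contra hcon
  push Not at hcon
  set ψ := fun t => t ^ 2 * info t μ g - 2 * (ϑ * c₀ * J) * log t with hψ
  have hd : ∀ t ∈ Icc s e, ∃ v, HasDerivAt ψ v t ∧ 0 ≤ v := fun t ht => by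
    have ht0 : 0 < t := hs.trans_le ht.1
    obtain ⟨v, hv, hv'⟩ := hasDerivAt_info hS hR hg ht0
    refine ⟨_, (((hasDerivAt_id t).pow 2).mul hv).sub ((hasDerivAt_log ht0.ne').const_mul _), ?_⟩
    simp only [id, Pi.pow_apply]
    push_cast
    have h1 := hcon t ht.1 ht.2
    rw [hval] at h1
    have h2 := hlow t ht.1 ht.2
    have h3 : 2 * (ϑ * c₀ * J) * t⁻¹ ≤ 2 * t * (ϑ * info t μ g) := by
      rw [← div_eq_mul_inv, div_le_iff₀ ht0]
      nlinarith [mul_le_mul_of_nonneg_left h2 hϑ.le]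
    nlinarith [mul_le_mul_of_nonneg_left hv' (sq_nonneg t), mul_le_mul_of_nonneg_left h1.le ht0.le]
  choose V hV hV0 using hd
  have hmono : MonotoneOn ψ (Icc s e) := by
    refine monotoneOn_of_hasDerivWithinAt_nonneg (f' := fun t => if h : t ∈ Icc s e then V t h else 0) (convex_Icc s e)
      (fun t ht => (hV t ht).continuousAt.continuousWithinAt) (fun t ht => ?_) fun t ht => ?_
    · rw [dif_pos (interior_subset ht)]; exact (hV t _).hasDerivWithinAt
    · rw [dif_pos (interior_subset ht)]; exact hV0 t _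
  have h1 := hmono ⟨le_rfl, hse⟩ ⟨hse, le_rfl⟩ hse
  simp only [hψ] at h1
  have h2 : log e = log s + k * log 2 := by rw [he, log_mul hs.ne' (by positivity), log_pow]
  rw [h2] at h1
  have h3 := info_le hS hR hμ hg (hs.trans_le hse)
  have h4 : 0 ≤ s ^ 2 * info s μ g := mul_nonneg (sq_nonneg s) (hinfo0 s)
  have h5 : 1 / 4 ≤ log 2 := by linarith [Real.log_two_gt_d9]
  have h6 := mul_le_mul_of_nonneg_right hk (mul_nonneg hJpos.le ((by norm_num : (0:ℝ) ≤ 1 / 4).trans h5))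
  nlinarith [mul_le_mul_of_nonneg_left h5 hJpos.le]

end Vale.Agent.P245N
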