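import Vale.Agent.P245N.Spec

/-!
Poincaré inequality with constant `C (1 / T + K T)` from the tail of the fibre covariance
(`notes/P245_helper55_v2.md`, item 3): one kernel step contracts the Dirichlet form, the bad event
being paid by the logarithmic Sobolev inequality.
-/

open MeasureTheory Real Filter Set
open scoped Topology RealInnerProductSpace

namespace Vale.Agent.P245N

open Vale.Agent.P245

variable {n : ℕ}

section

variable {μ : Measure (Euc n)} [IsProbabilityMeasure μ] {R : ℝ}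

lemma aent_zero_le_two (hS : Supp μ R) (hsub : Sub3 μ) (v : Euc n) : aent 0 μ 0 v v ≤ 2 * ‖v‖ ^ 2 := by
  have h1 : aent 0 μ 0 v v ≤ ∫ y, ⟪v, y⟫ ^ 2 ∂μ := by
    have h := var_le_center hS (g := fun y => ⟪v, y⟫) (by fun_prop) 0
    simp only [sub_zero] at h
    refine le_trans (le_of_eq ?_) h
    have hb : ∫ y, ⟪v, y⟫ ∂μ = ⟪v, bary 0 μ 0⟫ := by
      have := inner_bary (T := 0) hS 0 v
      rwa [fib_zero] at this
    simp only [aent, cen, fib_zero, hb, inner_sub_right, sq]
  rcases eq_or_ne v 0 with h0 | h0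
  · subst h0; simpa using h1
  · refine h1.trans ?_
    have h2 := mul_le_mul_of_nonneg_left (integral_inner_sq_le hS hsub (norm_smul_inv_norm h0 (𝕜 := ℝ)))
      (sq_nonneg ‖v‖)
    simp only [real_inner_smul_left, mul_pow, RCLike.ofReal_real_eq_id, id_eq] at h2
    rw [integral_const_mul, ← mul_assoc, inv_pow, mul_inv_cancel₀ (by positivity), one_mul] at h2
    linarith

lemma big_nonneg (C : ℝ) (A : Op n) : 0 ≤ big C A := le_max_left _ _

lemma big_le_one (C : ℝ) (A : Op n) : big C A ≤ 1 := max_le zero_le_one (min_le_left _ _)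

lemma continuous_bigA (hS : Supp μ R) (C t : ℝ) : Continuous fun θ => big C (Aop t μ θ) :=
  continuous_const.max (continuous_const.min ((continuous_Aop hS).norm.sub continuous_const))

lemma aent_le_big (hS : Supp μ R) (hR : 0 ≤ R) (hμ : IsLC 0 μ) {C T : ℝ} (hC : 0 ≤ C) (hT : 0 < T)
    (θ v : Euc n) (hv : ‖v‖ = 1) : aent T μ θ v v ≤ C + 1 + big C (Aop T μ θ) / T := by
  have h0 : 0 ≤ big C (Aop T μ θ) / T := div_nonneg (big_nonneg _ _) hT.le
  rcases le_or_gt (‖Aop T μ θ‖ - C) 1 with h | h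
  · have h1 : aent T μ θ v v ≤ ‖Aop T μ θ‖ := by
      rw [← inner_Aop hS]
      have h2 := (Aop T μ θ).le_opNorm v
      refine (real_inner_le_norm _ _).trans ?_
      rw [hv, one_mul]
      rwa [hv, mul_one] at h2
    linarith
  · have h1 := aent_le_inv hS hR hμ hT θ v
    rw [hv, one_pow] at h1
    have e : big C (Aop T μ θ) = 1 := by
      simp only [big]; rw [min_eq_left h.le, max_eq_right zero_le_one]
    rw [e]
    linarith

/-- The bad set against a density, by the variational formula of the entropy. -/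
lemma tail_mul_le (hS : Supp μ R) {C c T : ℝ} (hc : 0 < c) (hT : 0 < T)
    (htail : elaw T μ (fun θ => big C (Aop T μ θ)) ≤ exp (-c / T))
    {f : Euc n → ℝ} (hf : Continuous f) (hf0 : ∀ x, 0 ≤ f x) :
    ∫ x, (∫ G, big C (Aop T μ (pt (√T) x G)) ∂(gam n)) * f x ∂μ ≤ 2 * T / c * (ent μ f + ∫ x, f x ∂μ) := by
  set ξ := fun x => ∫ G, big C (Aop T μ (pt (√T) x G)) ∂(gam n) with hξ
  have hξc : Continuous ξ := continuous_bad hS (continuous_bigA hS C T) (fun z => big_nonneg _ _) fun z => big_le_one _ _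
  set Λ := c / (2 * T) with hΛdef
  have hΛ : 0 < Λ := by positivity
  have hξ1 : ∀ x, 0 ≤ ξ x ∧ ξ x ≤ 1 := fun x =>
    ⟨integral_nonneg fun G => big_nonneg _ _,
      (integral_mono_of_nonneg (Eventually.of_forall fun G => big_nonneg _ _) (integrable_const 1)
        (Eventually.of_forall fun G => big_le_one _ _)).trans (le_of_eq (by simp))⟩
  have hpt : ∀ x, exp (Λ * ξ x) ≤ 1 + exp Λ * ξ x := fun x => by
    obtain ⟨h0, h1⟩ := hξ1 x
    have h := convexOn_exp.2 (mem_univ (0 : ℝ)) (mem_univ Λ) (show 0 ≤ 1 - ξ x by linarith) h0 (by ring)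
    simp only [smul_eq_mul, exp_zero, mul_zero, zero_add, mul_one] at h
    rw [mul_comm (ξ x) Λ] at h
    linarith
  have hie : Integrable ξ μ := hS.integrable hξc
  have h1 := integral_mono (hS.integrable (hξc.const_mul Λ).rexp) ((integrable_const 1).add (hie.const_mul _)) hpt
  simp only [Pi.add_apply] at h1
  rw [integral_add (integrable_const 1) (hie.const_mul _), integral_const, probReal_univ, one_smul,
    integral_const_mul] at h1
  have h2 : exp Λ * ∫ x, ξ x ∂μ ≤ exp Λ * exp (-c / T) := mul_le_mul_of_nonneg_left htail (exp_pos _).le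
  rw [← exp_add] at h2
  have h3 : exp (Λ + -c / T) ≤ 1 := by
    rw [exp_le_one_iff]
    have e : Λ + -c / T = -Λ := by rw [hΛdef]; field_simp; ring
    linarith
  have hE : log (∫ x, exp (Λ * ξ x) ∂μ) ≤ 1 := by
    have h7 := log_le_sub_one_of_pos (integral_exp_pos (hS.integrable (hξc.const_mul Λ).rexp))
    linarith
  have hv := integral_mul_le_ent (μ := μ) (g := f) (φ := fun x => Λ * ξ x) hf0 (hS.integrable hf)
    (hS.integrable (Real.continuous_mul_log.comp hf)) (hS.integrable (hf.mul (hξc.const_mul Λ)))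
    (hS.integrable (hξc.const_mul Λ).rexp)
  have h8 := mul_le_mul_of_nonneg_left hE (integral_nonneg (μ := μ) hf0)
  have e : ∫ x, f x * (Λ * ξ x) ∂μ = Λ * ∫ x, ξ x * f x ∂μ := by
    rw [← integral_const_mul]; exact integral_congr_ae (Eventually.of_forall fun x => by ring)
  rw [e] at hv
  rw [show 2 * T / c = 1 / Λ by rw [hΛdef]; field_simp, div_mul_eq_mul_div, one_mul, le_div_iff₀ hΛ]
  linarith

lemma poin_of_tail (hS : Supp μ R) (hR : 0 ≤ R) (hμ : IsLC 0 μ) {C c T K : ℝ} (hC : 0 < C) (hc : 0 < c)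
    (hT : 0 < T) (hTC : T * (16 * (C + 1)) ≤ 1) (hK : 0 < K) (hF : Fisi μ K) (hKT : 1536 * (K * T ^ 2) ≤ c)
    (htail : elaw T μ (fun θ => big C (Aop T μ θ)) ≤ exp (-c / T))
    {f : Euc n → ℝ} {f' : Euc n → Euc n} (hf : D1 f f') :
    ∫ x, (f x - ∫ y, f y ∂μ) ^ 2 ∂μ ≤ 3 / T * ∫ x, ‖f' x‖ ^ 2 ∂μ := by
  set s := √T with hs'
  have hs : 0 < s := Real.sqrt_pos.2 hT
  have hs2 : s ^ 2 = T := Real.sq_sqrt hT.le
  set ξ := fun x => ∫ G, big C (Aop T μ (pt s x G)) ∂(gam n) with hξdef
  have hbc := continuous_bigA (μ := μ) hS C T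
  have hξc : Continuous ξ := continuous_bad hS hbc (fun z => big_nonneg _ _) fun z => big_le_one _ _
  have hξ0 : ∀ x, 0 ≤ ξ x := fun x => integral_nonneg fun G => big_nonneg _ _
  have hgrad : ∀ (g : Euc n → ℝ) (g' : Euc n → Euc n), D1 g g' →
      ∫ x, ‖qgrad s μ g x‖ ^ 2 ∂μ ≤ 1 / 4 * ∫ x, ‖g' x‖ ^ 2 ∂μ := fun g g' hg => by
    set a := ∫ y, g y ∂μ with ha
    set D := ∫ x, ‖g' x‖ ^ 2 ∂μ with hD
    have hD0 : 0 ≤ D := integral_nonneg fun x => sq_nonneg _
    have hD2 : Continuous fun y => ‖g' y‖ ^ 2 := hg.cont'.norm.pow 2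
    have hg2 : Continuous fun y => (g y - a) ^ 2 := (hg.cont.sub continuous_const).pow 2
    have hpt : ∀ x, ‖qgrad s μ g x‖ ^ 2 ≤ 1 / 8 * qop s μ (fun y => ‖g' y‖ ^ 2) x
        + 16 * T * (ξ x * qop s μ (fun y => (g y - a) ^ 2) x) := fun x => by
      set qd := qop s μ (fun y => ‖g' y‖ ^ 2) x
      set qf := qop s μ (fun y => (g y - a) ^ 2) x
      have hqd : 0 ≤ qd := integral_nonneg fun G => integral_nonneg fun y => sq_nonneg _
      have hqf : 0 ≤ qf := integral_nonneg fun G => integral_nonneg fun y => sq_nonneg _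
      rcases le_or_gt (ξ x) (1 / 16) with hx | hx
      · have hb : Integrable (fun G => big C (Aop T μ (pt s x G))) (gam n) :=
          Integrable.of_bound (hbc.comp (continuous_pt s x)).aestronglyMeasurable 1
            (Eventually.of_forall fun G => by
              rw [norm_eq_abs, abs_of_nonneg (big_nonneg _ _)]; exact big_le_one _ _)
        have h1 := norm_qgrad_sq_le_of hS hR hμ hs hg x (c := C + 1 + ξ x / T)
          (by have := hξ0 x; positivity) fun v hv => by
            rw [hs2]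
            refine (integral_mono_of_nonneg (Eventually.of_forall fun G => aent_self_nonneg _ _)
              ((integrable_const (C + 1)).add (hb.div_const T))
              (Eventually.of_forall fun G => aent_le_big hS hR hμ hC.le hT _ v hv)).trans (le_of_eq ?_)
            simp only [Pi.add_apply]
            rw [integral_add (integrable_const _) (hb.div_const T)]
            simp [hξdef, integral_div]
        rw [hs2, show T * (C + 1 + ξ x / T) = T * (C + 1) + ξ x by field_simp] at h1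
        have h2 : (T * (C + 1) + ξ x) * qd ≤ 1 / 8 * qd := mul_le_mul_of_nonneg_right (by linarith) hqd
        have h3 : 0 ≤ 16 * T * (ξ x * qf) := by have := hξ0 x; positivity
        linarith
      · have h1 := norm_qgrad_sq_le_moment hS hR hμ hs hg.cont a x
        rw [hs2] at h1
        have h2 : 1 * (T * qf) ≤ 16 * ξ x * (T * qf) := mul_le_mul_of_nonneg_right (by linarith) (by positivity)
        linarith
    have c1 := continuous_qop (s := s) hS hR hD2
    have c2 := continuous_qop (s := s) hS hR hg2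
    have h1 := integral_mono (hS.integrable ((continuous_qgrad hS hR hg.cont).norm.pow 2))
      (((hS.integrable c1).const_mul _).add ((hS.integrable (hξc.mul c2)).const_mul _)) hpt
    simp only [Pi.add_apply, Pi.mul_apply, Pi.pow_apply] at h1
    rw [integral_add ((hS.integrable c1).const_mul _)
      ((hS.integrable (f := fun x => ξ x * qop s μ _ x) (hξc.mul c2)).const_mul _),
      integral_const_mul, integral_const_mul, integral_qop hS hR hD2] at h1
    have h2 := tail_mul_le hS hc hT htail c2 fun x => integral_nonneg fun G => integral_nonneg fun y => sq_nonneg _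
    rw [integral_qop hS hR hg2] at h2
    have hv : D1 (fun x => g x - a) g' := ⟨fun x => (hg.deriv x).sub_const a, hg.cont'⟩
    have h3 := (ent_qop_le (s := s) hS hR hg2 fun x => sq_nonneg _).trans (lsi_of_fisi hK.le hS hF hv)
    have h4 := var_le_of_fisi hK.le hS hF hg
    have h5 : ent μ (qop s μ fun y => (g y - a) ^ 2) + ∫ x, (g x - a) ^ 2 ∂μ ≤ 6 * K * D := by linarith
    have h6 := mul_le_mul_of_nonneg_left (h2.trans (mul_le_mul_of_nonneg_left h5 (by positivity)))
      (show 0 ≤ 16 * T by positivity)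
    have h7 : 16 * T * (2 * T / c * (6 * K * D)) ≤ 1 / 8 * D := by
      have e : 16 * T * (2 * T / c * (6 * K * D)) = 1536 * (K * T ^ 2) / c * (1 / 8 * D) := by ring
      rw [e]
      exact mul_le_of_le_one_left (by positivity) ((div_le_one hc).2 hKT)
    linarith
  have hvar : ∀ (k : ℕ) (g : Euc n → ℝ) (g' : Euc n → Euc n), D1 g g' →
      ∫ x, (g x - ∫ y, g y ∂μ) ^ 2 ∂μ ≤ (8 / (3 * T) + (1 / 4) ^ k * (2 * K)) * ∫ x, ‖g' x‖ ^ 2 ∂μ := fun k => by
    induction k with
    | zero =>
      intro g g' hg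
      rw [pow_zero, one_mul]
      refine (var_le_of_fisi hK.le hS hF hg).trans (mul_le_mul_of_nonneg_right (le_add_of_nonneg_left (by positivity))
        (integral_nonneg fun x => sq_nonneg _))
    | succ k ih =>
      intro g g' hg
      have h1 := (var_step hS hR hμ hs hg).trans (add_le_add le_rfl (ih (qop s μ g) (qgrad s μ g)
        ⟨hasFDerivAt_qop hS hR hg.cont, continuous_qgrad hS hR hg.cont⟩))
      have h2 := mul_le_mul_of_nonneg_left (hgrad g g' hg) (by positivity : 0 ≤ 8 / (3 * T) + (1 / 4) ^ k * (2 * K))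
      rw [hs2] at h1
      have e : 2 / T + (8 / (3 * T) + (1 / 4) ^ k * (2 * K)) * (1 / 4) = 8 / (3 * T) + (1 / 4) ^ (k + 1) * (2 * K) := by
        field_simp; ring
      rw [← e]; linarith
  obtain ⟨k, hk⟩ := exists_pow_lt_of_lt_one (show 0 < 1 / (6 * (K * T)) by positivity) (by norm_num : (1 / 4 : ℝ) < 1)
  refine (hvar k f f' hf).trans (mul_le_mul_of_nonneg_right ?_ (integral_nonneg fun x => sq_nonneg _))
  rw [lt_div_iff₀ (by positivity)] at hk
  have e : 8 / (3 * T) + (1 / 4) ^ k * (2 * K) = (8 + (1 / 4) ^ k * (6 * (K * T))) / (3 * T) := by field_simp; ring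
  rw [e, show 3 / T = 9 / (3 * T) by field_simp; ring]
  gcongr; linarith

end

theorem poinMain (_hL : LichnStmt) (hT : TailStmt) : PoinMainStmt := by
  obtain ⟨C, c, hC, hc, -, htail⟩ := hT
  obtain ⟨c₀, hc₀, hc₀c, hc₀C⟩ : ∃ c₀ : ℝ, 0 < c₀ ∧ c₀ ≤ c ∧ c₀ * (16 * (C + 1)) ≤ 1 :=
    ⟨min c (1 / (16 * (C + 1))), lt_min hc (by positivity), min_le_left _ _,
      (le_div_iff₀ (by positivity)).1 (min_le_right _ _)⟩
  obtain ⟨b, hb, hb2⟩ : ∃ b : ℝ, 0 < b ∧ 1536 * b ^ 2 = c := ⟨√(c / 1536), Real.sqrt_pos.2 (by positivity),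
    by rw [Real.sq_sqrt (by positivity)]; ring⟩
  refine ⟨3 + 3 / b, c₀, by positivity, hc₀, fun n μ _ R h K T hK hF hT0 hTle f f' hf => ?_⟩
  have hR := h.rad_pos.le
  obtain ⟨hn1, -, hS, hμ, hsub⟩ := h
  have hl : 1 ≤ log ((n : ℝ) + 2) ^ 2 := by
    refine one_le_pow₀ ?_
    rw [Real.le_log_iff_exp_le (by positivity)]
    have h1 : (1 : ℝ) ≤ n := Nat.one_le_cast.2 hn1
    linarith [Real.exp_one_lt_d9]
  have hT1 : T ≤ c₀ := hTle.trans (div_le_self hc₀.le hl)
  have hTc : T ≤ c / log ((n : ℝ) + 2) ^ 2 := hTle.trans (by gcongr)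
  set u := √K with hu'
  have hu : 0 < u := Real.sqrt_pos.2 hK
  have hu2 : u ^ 2 = K := Real.sq_sqrt hK.le
  set T' := min T (b / u) with hT'
  have hT'0 : 0 < T' := lt_min hT0 (by positivity)
  have hT'T : T' ≤ T := min_le_left _ _
  have hKT : 1536 * (K * T' ^ 2) ≤ c := by
    rw [← hb2, ← hu2]
    have h1 := pow_le_pow_left₀ hT'0.le (min_le_right T (b / u)) 2
    have h2 := mul_le_mul_of_nonneg_left h1 (sq_nonneg u)
    rw [div_pow, mul_div_cancel₀ _ (by positivity)] at h2
    linarith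
  have hmain := poin_of_tail hS hR hμ hC hc hT'0
    ((mul_le_mul_of_nonneg_right (hT'T.trans hT1) (by positivity)).trans hc₀C) hK hF hKT
    (htail n μ inferInstance R hR hS hμ (aent_zero_le_two hS hsub) T' hT'0 (hT'T.trans hTc)) hf
  refine hmain.trans (mul_le_mul_of_nonneg_right ?_ (integral_nonneg fun x => sq_nonneg _))
  have hS0 : 0 ≤ 1 / T + K * T := by positivity
  have hamgm : 2 * u ≤ 1 / T + K * T := by
    rw [← hu2, ← sub_nonneg]
    have e : 1 / T + u ^ 2 * T - 2 * u = (1 - u * T) ^ 2 / T := by field_simp; ring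
    rw [e]; positivity
  rcases min_choice T (b / u) with h1 | h1
  · rw [hT', h1]
    have : 0 ≤ 3 / b * (1 / T + K * T) := by positivity
    have : 0 ≤ K * T := by positivity
    rw [show 3 / T = 3 * (1 / T) by ring]
    linarith
  · rw [hT', h1, show 3 / (b / u) = 3 / b * u by field_simp]
    have := mul_le_mul_of_nonneg_left (show u ≤ 1 / T + K * T by linarith) (show 0 ≤ 3 / b by positivity)
    linarith

end Vale.Agent.P245N
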