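import Vale.Agent.P245N.Spec

/-!
Logarithmic Sobolev inequality for the law of `θ_t = t x + √t G`: the Gaussian inequality at fixed `x`, then the
inequality of `μ` for the Gaussian average.
-/

open MeasureTheory Real Filter Set
open scoped Topology RealInnerProductSpace

namespace Vale.Agent.P245N

open Vale.Agent.P245

variable {n : ℕ}

/-- Gaussian logarithmic Sobolev inequality for functions bounded away from zero and infinity. -/
lemma ent_gam_le {h : Euc n → ℝ} {h' : Euc n → Euc n} (hh : Pos1 h h') {c B : ℝ} (hc : 0 < c)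
    (hb : ∀ x, c ≤ h x ∧ h x ≤ B ∧ ‖h' x‖ ≤ B) :
    ent (gam n) h ≤ 1 / 2 * ∫ x, fis h h' x ∂(gam n) := by
  have hB : ∀ x, |h x| ≤ B := fun x => by rw [abs_of_pos (hh.pos x)]; exact (hb x).2.1
  have hlc : Continuous fun x => h x * log (h x) := Real.continuous_mul_log.comp hh.cont
  obtain ⟨D, hD⟩ := (isCompact_Icc (a := (0 : ℝ)) (b := B)).exists_bound_of_continuousOn
    Real.continuous_mul_log.continuousOn
  have hDb : ∀ x, |h x * log (h x)| ≤ D := fun x => hD _ ⟨(hh.pos x).le, (hb x).2.1⟩
  have hfb : ∀ x, |fis h h' x| ≤ B ^ 2 / c := fun x => by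
    rw [abs_of_nonneg (fis_nonneg hh x)]
    exact div_le_div₀ (sq_nonneg B) (pow_le_pow_left₀ (norm_nonneg _) (hb x).2.2 2) hc (hb x).1
  have h1 := tendsto_onBall_gam hh.cont hB
  refine le_of_tendsto_of_tendsto'
    (((tendsto_onBall_gam hlc hDb).sub ((Real.continuous_mul_log.tendsto _).comp h1)) :
      Tendsto _ atTop (𝓝 (ent (gam n) h)))
    ((tendsto_onBall_gam hh.cont_fis hfb).const_mul (1 / 2)) fun k => ?_
  have hne := gam_ball_pos (n := n) (r := (k : ℝ) + 1) (by positivity)
  have := isProb_onBall hne
  have h2 := fisi_slc one_pos (isLC_gam.onBall hne) (supp_onBall (gam n) _) (by positivity) h h' hh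
  rw [mul_one] at h2
  exact h2

theorem ptLsi : PtLsiStmt := by
  intro n μ hμp R _hR hS _hμ K hK hF t ht h h' hh c B hc hb
  set s := √t with hs
  have hst : s ^ 2 = t := Real.sq_sqrt ht.le
  have hpp : Continuous fun p : Euc n × Euc n => pt s p.1 p.2 := by unfold pt; fun_prop
  have hB : ∀ x, |h x| ≤ B := fun x => by rw [abs_of_pos (hh.pos x)]; exact (hb x).2.1
  have hcf := hh.cont_fis
  have hfb : ∀ x, |fis h h' x| ≤ B ^ 2 / c := fun x => by
    rw [abs_of_nonneg (fis_nonneg hh x)]
    exact div_le_div₀ (sq_nonneg B) (pow_le_pow_left₀ (norm_nonneg _) (hb x).2.2 2) hc (hb x).1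
  have hlc : Continuous fun x => h x * log (h x) := Real.continuous_mul_log.comp hh.cont
  obtain ⟨D, hD⟩ := (isCompact_Icc (a := (0 : ℝ)) (b := B)).exists_bound_of_continuousOn
    Real.continuous_mul_log.continuousOn
  have hDb : ∀ x, |h x * log (h x)| ≤ D := fun x => hD _ ⟨(hh.pos x).le, (hb x).2.1⟩
  set H := fun x => ∫ G, h (pt s x G) ∂(gam n) with hHd
  set H' := fun x => t • ∫ G, h' (pt s x G) ∂(gam n) with hH'd
  set J := fun x => ∫ G, fis h h' (pt s x G) ∂(gam n) with hJd
  set N := fun x => ∫ G, h (pt s x G) * log (h (pt s x G)) ∂(gam n) with hNd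
  have cJ : Continuous J := continuous_gint (H := fun x G => fis h h' (pt s x G)) (hcf.comp hpp) fun _ _ => hfb _
  have cN : Continuous N := continuous_gint (H := fun x G => h (pt s x G) * log (h (pt s x G))) (hlc.comp hpp)
    fun _ _ => hDb _
  have ih : ∀ x, Integrable (fun G => h (pt s x G)) (gam n) := fun x =>
    integrable_gam_bdd (hh.cont.comp (continuous_pt s x)) fun G => hB _
  have ih' : ∀ x, Integrable (fun G => h' (pt s x G)) (gam n) := fun x =>
    Integrable.of_bound (hh.cont'.comp (continuous_pt s x)).aestronglyMeasurable B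
      (Eventually.of_forall fun G => (hb _).2.2)
  have ifi : ∀ x, Integrable (fun G => fis h h' (pt s x G)) (gam n) := fun x =>
    integrable_gam_bdd (hcf.comp (continuous_pt s x)) fun G => hfb _
  have hH : Pos1 H H' := by
    refine ⟨fun x => ?_, fun x => ?_, ?_⟩
    · have h1 := integral_mono (integrable_const c) (ih x) fun G => (hb _).1
      rw [integral_const, probReal_univ, one_smul] at h1
      exact hc.trans_le h1
    · have hd' : ∀ G y, HasFDerivAt (fun y => h (pt s y G)) (innerSL ℝ (t • h' (pt s y G))) y := fun G y => by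
        have h1 : HasFDerivAt (fun y => pt s y G) (s ^ 2 • ContinuousLinearMap.id ℝ (Euc n)) y :=
          ((hasFDerivAt_id y).const_smul (s ^ 2)).add_const _
        rw [hst] at h1
        convert! (hh.deriv (pt s y G)).comp y h1 using 1
        ext v; simp
      have := hasFDerivAt_integral_of_dominated_of_fderiv_le (μ := gam n)
        (F := fun y G => h (pt s y G)) (F' := fun y G => innerSL ℝ (t • h' (pt s y G)))
        (bound := fun _ => t * B) (s := Metric.ball x 1) (Metric.ball_mem_nhds x one_pos)
        (Eventually.of_forall fun y => (hh.cont.comp (continuous_pt s y)).aestronglyMeasurable) (ih x)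
        ((innerSL ℝ).continuous.comp ((hh.cont'.comp (continuous_pt s x)).const_smul t)).aestronglyMeasurable
        (Eventually.of_forall fun G y _ => by
          rw [innerSL_apply_norm, norm_smul, norm_eq_abs, abs_of_pos ht]
          exact mul_le_mul_of_nonneg_left (hb _).2.2 ht.le)
        (integrable_const _) (Eventually.of_forall fun G y _ => hd' G y)
      rw [ContinuousLinearMap.integral_comp_comm (innerSL ℝ) (φ := fun G => t • h' (pt s x G)) ((ih' x).smul t),
        integral_smul] at this
      exact this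
    · exact (continuous_of_dominated (bound := fun _ => B)
        (fun x => (hh.cont'.comp (continuous_pt s x)).aestronglyMeasurable)
        (fun x => Eventually.of_forall fun G => (hb _).2.2) (integrable_const _)
        (Eventually.of_forall fun G => hh.cont'.comp (hpp.comp (Continuous.prodMk_left G)))).const_smul t
  have hin : ∀ x, N x - H x * log (H x) ≤ t / 2 * J x := fun x => by
    have hd : Pos1 (fun G => h (pt s x G)) (fun G => s • h' (pt s x G)) := by
      refine ⟨fun G => hh.pos _, fun G => ?_, (hh.cont'.comp (continuous_pt s x)).const_smul s⟩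
      have h1 : HasFDerivAt (pt s x) (s • ContinuousLinearMap.id ℝ (Euc n)) G :=
        ((hasFDerivAt_id G).const_smul s).const_add _
      convert! (hh.deriv (pt s x G)).comp G h1 using 1
      ext v; simp
    have h1 := ent_gam_le hd hc (B := max B (s * B)) fun G => by
      refine ⟨(hb _).1, (hb _).2.1.trans (le_max_left _ _), le_trans ?_ (le_max_right _ _)⟩
      rw [norm_smul, norm_eq_abs, abs_of_nonneg (Real.sqrt_nonneg t)]
      exact mul_le_mul_of_nonneg_left (hb _).2.2 (Real.sqrt_nonneg t)
    refine h1.trans (le_of_eq ?_)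
    rw [hJd, ← integral_const_mul, ← integral_const_mul]
    refine integral_congr_ae (Eventually.of_forall fun G => ?_)
    simp only [fis, norm_smul, norm_eq_abs, mul_pow, sq_abs, hst]
    ring
  have hfH : ∀ x, fis H H' x ≤ t ^ 2 * J x := fun x => by
    have h2 := sq_integral_mul_le (P := gam n) (c := fun G => ‖h' (pt s x G)‖) (a := fun G => h (pt s x G))
      (V := fun G => fis h h' (pt s x G)) (ih' x).norm (ih x) (ifi x) (fun G => (hh.pos _).le)
      (fun G => fis_nonneg hh _) fun G => le_of_eq (by
        have := hh.pos (pt s x G)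
        simp only [fis]; field_simp)
    rw [fis, div_le_iff₀ (hH.pos x), hH'd, norm_smul, mul_pow, norm_eq_abs, sq_abs, mul_assoc]
    refine mul_le_mul_of_nonneg_left ?_ (sq_nonneg t)
    refine (pow_le_pow_left₀ (norm_nonneg _) (norm_integral_le_integral_norm _) 2).trans (h2.trans (le_of_eq ?_))
    rw [hHd, hJd, mul_comm]
  have hout : ent μ H ≤ K * t ^ 2 * ∫ x, J x ∂μ := by
    refine (hF H H' hH).trans ?_
    rw [mul_assoc, ← integral_const_mul (t ^ 2)]
    exact mul_le_mul_of_nonneg_left (integral_mono (hS.integrable hH.cont_fis) ((hS.integrable cJ).const_mul _) hfH) hK.le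
  have hlH : Continuous fun x => H x * log (H x) := Real.continuous_mul_log.comp hH.cont
  have h3 := integral_mono ((hS.integrable cN).sub (hS.integrable hlH)) ((hS.integrable cJ).const_mul (t / 2)) hin
  simp only [Pi.sub_apply] at h3
  rw [integral_sub (hS.integrable cN) (hS.integrable hlH), integral_const_mul] at h3
  have e1 : eent t μ h = (∫ x, N x ∂μ) - (∫ x, H x ∂μ) * log (∫ x, H x ∂μ) := rfl
  have e2 : ent μ H = (∫ x, H x * log (H x) ∂μ) - (∫ x, H x ∂μ) * log (∫ x, H x ∂μ) := rfl
  rw [e2] at hout
  have e3 : elaw t μ (fis h h') = ∫ x, J x ∂μ := rfl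
  rw [e1, e3, Kt]
  linarith

end Vale.Agent.P245N
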