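import Vale.Agent.P245N.QVar.Core

/-!
Affine invariant variance bound for quadratic forms under log-concave measures, by whitening.
-/

open MeasureTheory Real Filter Set
open scoped Topology ENNReal RealInnerProductSpace

namespace Vale.Agent.P245N.QVar

open Vale.Agent.P245

variable {n : ℕ}

/-- Diagonal operator in an orthonormal basis. -/
noncomputable def diag (u : OrthonormalBasis (Fin n) ℝ (Euc n)) (a : Fin n → ℝ) : Op n :=
  ∑ i, a i • (innerSL ℝ (u i)).smulRight (u i)

lemma inner_diag (u : OrthonormalBasis (Fin n) ℝ (Euc n)) (a : Fin n → ℝ) (i : Fin n) (x : Euc n) :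
    ⟪u i, diag u a x⟫ = a i * ⟪u i, x⟫ := by
  simp [diag, inner_sum, inner_smul_right, u.inner_eq_ite]

lemma sym_diag (u : OrthonormalBasis (Fin n) ℝ (Euc n)) (a : Fin n → ℝ) : SymOp (diag u a) := fun x y => by
  rw [inner_eq_sum u, inner_eq_sum u x]
  exact Finset.sum_congr rfl fun i _ => by rw [inner_diag, inner_diag]; ring

lemma diag_diag (u : OrthonormalBasis (Fin n) ℝ (Euc n)) {a b : Fin n → ℝ} (h : ∀ i, a i * b i = 1) (x : Euc n) :
    diag u a (diag u b x) = x := by
  refine ext_inner_left ℝ fun v => ?_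
  rw [inner_eq_sum u, inner_eq_sum u v x]
  exact Finset.sum_congr rfl fun i _ => by rw [inner_diag, inner_diag, ← mul_assoc (a i), h, one_mul]

lemma diag_apply_basis (u : OrthonormalBasis (Fin n) ℝ (Euc n)) (a : Fin n → ℝ) (i : Fin n) :
    diag u a (u i) = a i • u i := by
  refine ext_inner_left ℝ fun v => ?_
  rw [inner_eq_sum u, inner_eq_sum u v (a i • u i)]
  refine Finset.sum_congr rfl fun j _ => ?_
  rw [inner_diag, inner_smul_right, u.inner_eq_ite]
  split_ifs with h
  · rw [h]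
  · simp

lemma trace_basis (M N : Op n) (b : OrthonormalBasis (Fin n) ℝ (Euc n)) :
    ∑ i, ⟪M (stdb n i), N (stdb n i)⟫ = ∑ i, ⟪M (b i), N (b i)⟫ := by
  have e : ∀ c : OrthonormalBasis (Fin n) ℝ (Euc n),
      4 * ∑ i, ⟪M (c i), N (c i)⟫ = frob (M + N) - frob (M - N) := fun c => by
    rw [frob_basis (M + N) c, frob_basis (M - N) c, Finset.mul_sum, ← Finset.sum_sub_distrib]
    refine Finset.sum_congr rfl fun i _ => ?_
    rw [add_apply, sub_apply, norm_add_sq_real, norm_sub_sq_real]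
    ring
  linarith [e (stdb n), e b]

section

variable {μ : Measure (Euc n)} [IsProbabilityMeasure μ] {R : ℝ}

lemma aent_pos (hS : Supp μ R) (hμ : IsLC 0 μ) (t : ℝ) (θ : Euc n) {v : Euc n} (hv : v ≠ 0) :
    0 < aent t μ θ v v := by
  refine (aent_self_nonneg θ v).lt_of_ne fun h => ?_
  have := isProb_fib (T := t) hS θ
  have hac : fib t μ θ ≪ (volume : Measure (Euc n)) := by
    obtain ⟨p, -, -, -, hp⟩ := isLC_fib (T := t) hS hμ θ
    rw [hp]; exact withDensity_absolutelyContinuous _ _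
  have hz : ∀ᵐ x ∂(fib t μ θ), ⟪v, cen t μ θ x⟫ * ⟪v, cen t μ θ x⟫ = 0 :=
    (integral_eq_zero_iff_of_nonneg (fun x => mul_self_nonneg _) ((supp_fib hS θ).integrable ((continuous_const.inner (continuous_cen_snd θ)).mul (continuous_const.inner (continuous_cen_snd θ))))).1 h.symm
  have hset : (volume : Measure (Euc n)) {x | ⟪v, cen t μ θ x⟫ = 0} = 0 := by
    have e : {x | ⟪v, cen t μ θ x⟫ = 0}
        = (fun x => x - bary t μ θ) ⁻¹' (LinearMap.ker (innerSL ℝ v : Euc n →ₗ[ℝ] ℝ) : Set (Euc n)) := by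
      ext x; simp [cen]
    rw [e, (measurePreserving_sub_right (volume : Measure (Euc n)) (bary t μ θ)).measure_preimage
      ((Submodule.closed_of_finiteDimensional _).measurableSet.nullMeasurableSet)]
    refine Measure.addHaar_submodule _ _ fun htop => hv ?_
    have hm : v ∈ LinearMap.ker (innerSL ℝ v : Euc n →ₗ[ℝ] ℝ) := htop ▸ Submodule.mem_top
    simpa [innerSL_apply_apply] using hm
  have h2 : ∀ᵐ x ∂(fib t μ θ), ⟪v, cen t μ θ x⟫ ≠ 0 :=
    ae_iff.2 (by simpa using hac hset)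
  obtain ⟨x, hx1, hx2⟩ := (hz.and h2).exists
  exact hx2 (mul_self_eq_zero.1 hx1)

omit [IsProbabilityMeasure μ] in
/-- A log-concave measure pushed forward by `x ↦ D (x - b)` is log-concave. -/
lemma isLC_affine (hμ : IsLC 0 μ) (D C : Op n) (hDC : ∀ x, D (C x) = x) (hCD : ∀ x, C (D x) = x) (b : Euc n) :
    IsLC 0 (μ.map fun x => D (x - b)) := by
  obtain ⟨p, hp, hp0, hineq, hμ⟩ := hμ
  let e : Euc n ≃ₗ[ℝ] Euc n := LinearEquiv.ofLinearMap (D : Euc n →ₗ[ℝ] Euc n) (C : Euc n →ₗ[ℝ] Euc n)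
    (LinearMap.ext hDC) (LinearMap.ext hCD)
  set k := |(LinearMap.det (e : Euc n →ₗ[ℝ] Euc n))⁻¹| with hk
  have hdet : LinearMap.det (e : Euc n →ₗ[ℝ] Euc n) ≠ 0 := (LinearEquiv.isUnit_det' e).ne_zero
  have hk0 : 0 ≤ k := abs_nonneg _
  set f := fun x : Euc n => D (x - b) with hf
  have hfm : Measurable f := by fun_prop
  have hg : Continuous fun y : Euc n => C y + b := by fun_prop
  have hvol : (volume : Measure (Euc n)).map f = ENNReal.ofReal k • volume := by
    have e1 : f = (e : Euc n →ₗ[ℝ] Euc n) ∘ fun x => x - b := rfl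
    rw [e1, ← Measure.map_map (LinearMap.continuous_of_finiteDimensional _).measurable (by fun_prop),
      (measurePreserving_sub_right (volume : Measure (Euc n)) b).map_eq,
      Measure.map_linearMap_addHaar_eq_smul_addHaar _ hdet]
  refine ⟨fun y => k * p (C y + b), (hp.comp hg.measurable).const_mul _, fun y => mul_nonneg hk0 (hp0 _),
    fun x y a c ha hc hac => ?_, ?_⟩
  · have h := hineq (C x + b) (C y + b) a c ha hc hac
    have e2 : a • (C x + b) + c • (C y + b) = C (a • x + c • y) + b := by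
      rw [map_add, map_smul, map_smul]
      have : b = a • b + c • b := by rw [← add_smul, hac, one_smul]
      conv_rhs => rw [this]
      module
    rw [e2, zero_mul, zero_div, zero_mul, exp_zero, mul_one] at h
    rw [zero_mul, zero_div, zero_mul, exp_zero, mul_one, mul_rpow hk0 (hp0 _), mul_rpow hk0 (hp0 _),
      show k ^ a * p (C x + b) ^ a * (k ^ c * p (C y + b) ^ c)
        = k ^ a * k ^ c * (p (C x + b) ^ a * p (C y + b) ^ c) by ring]
    have hkk : k ^ a * k ^ c = k := by rw [← rpow_add' hk0 (by rw [hac]; norm_num), hac, rpow_one]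
    rw [hkk]
    exact mul_le_mul_of_nonneg_left h hk0
  · ext s hs
    rw [Measure.map_apply hfm hs, hμ, withDensity_apply _ (hfm hs), withDensity_apply _ hs]
    have h1 : ∫⁻ x in f ⁻¹' s, ENNReal.ofReal (p x)
        = ∫⁻ y in s, ENNReal.ofReal (p (C y + b)) ∂((volume : Measure (Euc n)).map f) := by
      rw [setLIntegral_map hs (by fun_prop) hfm]
      exact lintegral_congr fun x => by simp [hf, hCD]
    rw [h1, hvol, Measure.restrict_smul, lintegral_smul_measure, smul_eq_mul,
      ← lintegral_const_mul _ (by fun_prop)]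
    exact lintegral_congr fun y => (ENNReal.ofReal_mul hk0).symm

end

end Vale.Agent.P245N.QVar

namespace Vale.Agent.P245N

open MeasureTheory Real
open scoped RealInnerProductSpace
open Vale.Agent.P245 Vale.Agent.P245N.QVar

/-- Affine invariant variance bound for quadratic forms. -/
theorem qvar (hL : LichnStmt) (hT : TailStmt) : QVarStmt := by
  obtain ⟨K, hK, hiso⟩ := iso_var hL hT
  refine ⟨K, hK, fun n μ hμ0 R hR hS hμ t θ ht H => ?_⟩
  have := isProb_fib (T := t) hS θ
  set A := Aop t μ θ with hA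
  obtain ⟨u, l, hu⟩ := (symOp_Aop (t := t) hS θ).exists_eigen
  have hl : ∀ i, 0 < l i := fun i => by
    have h := aent_pos hS hμ t θ (v := u i) (u.orthonormal.ne_zero i)
    rwa [← inner_Aop hS, hu, inner_smul_right, real_inner_self_eq_norm_sq, u.norm_eq_one, one_pow, mul_one] at h
  set Cm := diag u fun i => √(l i) with hCm
  set Dm := diag u fun i => (√(l i))⁻¹ with hDm
  have hs : ∀ i, √(l i) ≠ 0 := fun i => (Real.sqrt_pos.2 (hl i)).ne'
  have hCD : ∀ x, Cm (Dm x) = x := diag_diag u fun i => mul_inv_cancel₀ (hs i)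
  have hDC : ∀ x, Dm (Cm x) = x := diag_diag u fun i => inv_mul_cancel₀ (hs i)
  set f := fun x : Euc n => Dm (x - bary t μ θ) with hf
  have hfc : Continuous f := by fun_prop
  set ν := (fib t μ θ).map f with hν
  have hprob : IsProbabilityMeasure ν := Measure.isProbabilityMeasure_map hfc.measurable.aemeasurable
  have hint : ∀ F : Euc n → ℝ, Continuous F → ∫ y, F y ∂ν = ∫ x, F (f x) ∂(fib t μ θ) := fun F hF => by
    rw [hν, integral_map hfc.measurable.aemeasurable hF.aestronglyMeasurable]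
  have hνS : Supp ν (‖Dm‖ * (2 * R)) :=
    (ae_map_iff hfc.measurable.aemeasurable (measurableSet_le measurable_norm measurable_const)).2
      ((norm_cen_le hS θ).mono fun x hx => (Dm.le_opNorm _).trans (mul_le_mul_of_nonneg_left hx (norm_nonneg _)))
  have hνL : IsLC 0 ν := isLC_affine ((isLC_fib hS hμ θ).weaken ht) Dm Cm hDC hCD _
  have hfi : ∀ v x, ⟪v, f x⟫ = ⟪Dm v, cen t μ θ x⟫ := fun v x => by
    rw [hDm, sym_diag u _ v (cen t μ θ x)]
    rfl
  have hisoν : ∀ v, ∫ y, ⟪v, y⟫ ^ 2 ∂ν = ‖v‖ ^ 2 := fun v => by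
    rw [hint _ (by fun_prop)]
    have e : ∫ x, ⟪v, f x⟫ ^ 2 ∂(fib t μ θ) = aent t μ θ (Dm v) (Dm v) := by simp only [aent, hfi, sq]
    rw [e, ← inner_Aop hS, quad_eigen hu, norm_sq_eq_sum u v]
    refine Finset.sum_congr rfl fun i _ => ?_
    rw [hDm, inner_diag, mul_pow, inv_pow, Real.sq_sqrt (hl i).le, ← mul_assoc, mul_inv_cancel₀ (hl i).ne', one_mul]
  have hbν : bary 0 ν 0 = 0 := by
    refine ext_inner_left ℝ fun v => ?_
    rw [← inner_bary hνS, fib_zero, hint _ (by fun_prop), inner_zero_right]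
    simp only [hfi]
    exact integral_cen hS θ _
  set M := Cm * H * Cm with hM
  have hmain := hiso n ν hprob (‖Dm‖ * (2 * R)) (by positivity) hνS hνL hisoν hbν M
  have hqf : ∀ x, ⟪f x, M (f x)⟫ = ⟪cen t μ θ x, H (cen t μ θ x)⟫ := fun x => by
    simp only [hM, mul_apply_eq_comp]
    rw [show ⟪f x, Cm (H (Cm (f x)))⟫ = ⟪Cm (f x), H (Cm (f x))⟫ from (sym_diag u _ _ _).symm]
    simp only [hf, hCD]
    rfl
  rw [hint (fun y => ⟪y, M y⟫) (by fun_prop), hint _ (by fun_prop)] at hmain
  simp only [hqf] at hmain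
  refine hmain.trans (le_of_eq ?_)
  congr 1
  rw [frob_basis M u, qv2]
  have e : ∑ i, ⟪A (H (stdb n i)), H (A (stdb n i))⟫ = ∑ i, ⟪A (H (u i)), H (A (u i))⟫ :=
    trace_basis (A * H) (H * A) u
  rw [e]
  refine Finset.sum_congr rfl fun i _ => ?_
  simp only [hM, mul_apply_eq_comp]
  rw [hCm, diag_apply_basis, map_smul, map_smul, norm_smul, norm_eq_abs, mul_pow, sq_abs, Real.sq_sqrt (hl i).le,
    hA, hu, map_smul, inner_smul_right, real_inner_comm (H (u i)), quad_eigen hu, norm_sq_eq_sum u]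
  congr 1
  refine Finset.sum_congr rfl fun j _ => ?_
  rw [inner_diag, mul_pow, Real.sq_sqrt (hl j).le]

end Vale.Agent.P245N
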