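import Vale.Agent.P245N.Defs

/-!
Statements of the modules of the `n^ε` route. Each module file proves `theorem … : …Stmt`.
-/

open MeasureTheory Real Filter Set
open scoped Topology RealInnerProductSpace

namespace Vale.Agent.P245N

open Vale.Agent.P245

/-- Reduction to semiconcave functions. -/
def HopfLaxStmt : Prop :=
  ∀ (n : ℕ) (μ : Measure (Euc n)), IsProbabilityMeasure μ → ∀ R : ℝ, 0 ≤ R → Supp μ R → IsLC 0 μ →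
    ∀ K z : ℝ, 0 < K → 0 ≤ z → Semi μ K z (1 / (4 * K)) →
    ∀ g g', Pos1 g g' → ent μ g ≤ 8 * K * (∫ x, fis g g' x ∂μ) + 4 * z * ∫ x, g x ∂μ

/-- Tightening by a Poincaré inequality. -/
def TightenStmt : Prop :=
  ∀ (n : ℕ) (μ : Measure (Euc n)), IsProbabilityMeasure μ → ∀ R : ℝ, 0 ≤ R → Supp μ R →
    ∀ K CP : ℝ, 0 ≤ K → 0 ≤ CP →
    (∀ g g', Pos1 g g' → ent μ g ≤ K * (∫ x, fis g g' x ∂μ) + ∫ x, g x ∂μ) →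
    (∀ f f', D1 f f' → ∫ x, (f x - ∫ y, f y ∂μ) ^ 2 ∂μ ≤ CP * ∫ x, ‖f' x‖ ^ 2 ∂μ) →
    Fisi μ (4 * K + 21 * CP)

/-- Improved Lichnerowicz inequality. -/
def LichnStmt : Prop :=
  ∀ (n : ℕ) (ν : Measure (Euc n)), IsProbabilityMeasure ν → ∀ R : ℝ, 0 ≤ R → Supp ν R →
    ∀ s a : ℝ, 0 < s → 0 < a → IsLC s ν → (∀ v, aent 0 ν 0 v v ≤ a * ‖v‖ ^ 2) →
    ∀ f f', D1 f f' → ∫ x, (f x - ∫ y, f y ∂ν) ^ 2 ∂ν ≤ 4 * √(a / s) * ∫ x, ‖f' x‖ ^ 2 ∂ν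

/-- The fibre covariance stays bounded up to time `c / log² n`. -/
def TailStmt : Prop :=
  ∃ C c : ℝ, 0 < C ∧ 0 < c ∧ c ≤ 1 / 4 ∧ ∀ (n : ℕ) (μ : Measure (Euc n)), IsProbabilityMeasure μ →
    ∀ R : ℝ, 0 ≤ R → Supp μ R → IsLC 0 μ → (∀ v, aent 0 μ 0 v v ≤ 2 * ‖v‖ ^ 2) →
    ∀ t : ℝ, 0 < t → t ≤ c / log ((n : ℝ) + 2) ^ 2 →
      elaw t μ (fun θ => big C (Aop t μ θ)) ≤ exp (-c / t)

/-- Poincaré inequality with a small multiple of the logarithmic Sobolev constant. -/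
def PoinMainStmt : Prop :=
  ∃ C c : ℝ, 0 < C ∧ 0 < c ∧ ∀ (n : ℕ) (μ : Measure (Euc n)), IsProbabilityMeasure μ →
    ∀ R : ℝ, Setup μ R → ∀ K T : ℝ, 0 < K → Fisi μ K → 0 < T → T ≤ c / log ((n : ℝ) + 2) ^ 2 →
    ∀ f f', D1 f f' → ∫ x, (f x - ∫ y, f y ∂μ) ^ 2 ∂μ ≤ C * (1 / T + K * T) * ∫ x, ‖f' x‖ ^ 2 ∂μ

/-- Affine invariant variance bound for quadratic forms. -/
def QVarStmt : Prop :=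
  ∃ C : ℝ, 0 < C ∧ ∀ (n : ℕ) (μ : Measure (Euc n)), IsProbabilityMeasure μ →
    ∀ R : ℝ, 0 ≤ R → Supp μ R → IsLC 0 μ →
    ∀ (t : ℝ) (θ : Euc n), 0 ≤ t → QV (C * log ((n : ℝ) + 2)) t μ θ

/-- Elementary facts on `t² I` and the entropy along time. -/
def InfoStmt : Prop :=
  ∀ (n : ℕ) (μ : Measure (Euc n)), IsProbabilityMeasure μ → ∀ R : ℝ, 0 ≤ R → Supp μ R → IsLC 0 μ →
    ∀ K : ℝ, 0 < K → Fisi μ K → ∀ g g', Pos1 g g' → ∫ x, g x ∂μ = 1 → ∀ t : ℝ, 0 < t →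
      t ^ 2 * info t μ g ≤ ∫ x, fis g g' x ∂μ ∧
      eent t μ (av t μ g) ≤ Kt K t * info t μ g ∧
      ent μ g ≤ 1 / (2 * t) * (∫ x, fis g g' x ∂μ) + Kt K t * info t μ g

/-- Some time in a long window has small `E d (1 - t A) d`. -/
def PigeonStmt : Prop :=
  ∀ (n : ℕ) (μ : Measure (Euc n)), IsProbabilityMeasure μ → ∀ R : ℝ, 0 ≤ R → Supp μ R → IsLC 0 μ →
    ∀ g g', Pos1 g g' → ∫ x, g x ∂μ = 1 →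
    ∀ (c₀ ϑ s : ℝ) (k : ℕ), 0 < c₀ → 0 < ϑ → 0 < s → 4 ≤ c₀ * ϑ * k →
    (∀ t, s ≤ t → t ≤ s * 2 ^ k → c₀ * ∫ x, fis g g' x ∂μ ≤ t ^ 2 * info t μ g) →
    ∃ t, s ≤ t ∧ t ≤ s * 2 ^ k ∧
      qexp t μ g (fun θ => ‖dd t μ g θ‖ ^ 2 - t * aent t μ θ (dd t μ g θ) (dd t μ g θ)) ≤ ϑ * info t μ g

/-- Algebraic facts on the cutoff. -/
def CutStmt : Prop :=
  ∀ (n p L : ℕ) (M : ℝ) (A : Op n), 1 ≤ p → 1 ≤ L → 0 < M → SymOp A → (∀ v, 0 ≤ ⟪v, A v⟫) →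
    (∀ v, ‖Fc p L M A v‖ ≤ ‖v‖) ∧
    frob (Fc p L M A) ≤ n ∧
    frob (Fc p L M A) ≤ n * (‖A‖ / M) ^ (2 * p) ∧
    (∀ τ : ℝ, 0 < τ → (∀ v, τ * ⟪v, A v⟫ ≤ ‖v‖ ^ 2) → ∀ v,
      ‖v - Fc p L M A v‖ ^ 2
        ≤ 2 * (‖v‖ ^ 2 - τ * ⟪v, A v⟫) + 4 * p * (τ * M * 2 ^ L) / L * ‖v‖ ^ 2)

/-- The derivative of the cutoff. -/
def ResStmt : Prop :=
  ∃ C : ℝ, 0 < C ∧ ∀ (n p L : ℕ) (M : ℝ) (μ : Measure (Euc n)), IsProbabilityMeasure μ →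
    ∀ R : ℝ, 0 ≤ R → Supp μ R → IsLC 0 μ →
    ∀ Q t : ℝ, 1 ≤ p → 1 ≤ L → 0 < M → 0 ≤ Q → 0 < t → (∀ θ, QV Q t μ θ) →
    ∃ F' : Euc n → Euc n →L[ℝ] Op n, (∀ θ, HasFDerivAt (Ff p L M t μ) (F' θ) θ) ∧ Continuous F' ∧
      (∀ θ h, frob (F' θ h) ≤ C * p ^ 2 * Q / (t * L ^ 2) * ‖h‖ ^ 2) ∧
      (∀ θ v, ∑ a, ‖F' θ (stdb n a) v‖ ^ 2 ≤ C * p ^ 2 * Q / (t * L ^ 2) * ‖v‖ ^ 2)

/-- The test field `F d` for a semiconcave exponential, and the square root of the count. -/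
def GradStmt : Prop :=
  ∃ C : ℝ, 0 < C ∧ ∀ (n p L : ℕ) (M : ℝ) (μ : Measure (Euc n)), IsProbabilityMeasure μ →
    ∀ R : ℝ, 0 ≤ R → Supp μ R → IsLC 0 μ →
    ∀ Q t a : ℝ, 1 ≤ p → 1 ≤ L → 0 < M → 0 ≤ Q → 0 < t → (∀ θ, QV Q t μ θ) → 0 ≤ a → a ≤ t / 2 →
    ∀ φ φ', D1 φ φ' → SC a φ φ' →
      (∃ Δ', V1 (fun θ => Ff p L M t μ θ (dd t μ (fun x => exp (φ x)) θ)) Δ' ∧
        (∃ B, ∀ θ, frob (Δ' θ) ≤ B) ∧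
        ∀ θ, frob (Δ' θ) ≤ C * p ^ 2 * Q / (t * L ^ 2) * ‖dd t μ (fun x => exp (φ x)) θ‖ ^ 2
          + C / t ^ 2 * frob (Ff p L M t μ θ)) ∧
      ∀ η : ℝ, 0 < η → ∃ ψ', D1 (fun θ => √(η + frob (Ff p L M t μ θ))) ψ' ∧
        ∀ θ, ‖ψ' θ‖ ^ 2 ≤ C * p ^ 2 * Q / (t * L ^ 2)

/-- Second moment of a Lipschitz function under the tilted law. -/
def CountStmt : Prop :=
  ∀ (n : ℕ) (μ : Measure (Euc n)), IsProbabilityMeasure μ → ∀ R : ℝ, 0 ≤ R → Supp μ R → IsLC 0 μ →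
    ∀ K : ℝ, 0 < K → Fisi μ K → ∀ g g', Pos1 g g' → ∫ x, g x ∂μ = 1 → ∀ t : ℝ, 0 < t →
    ∀ ψ ψ', D1 ψ ψ' → (∃ B, ∀ θ, |ψ θ| ≤ B) → ∀ Lip : ℝ, 0 < Lip → (∀ θ, ‖ψ' θ‖ ^ 2 ≤ Lip) →
      qexp t μ g (fun θ => ψ θ ^ 2)
        ≤ 16 * (Kt K t * Lip) * (eent t μ (av t μ g) + 1) + 4 * elaw t μ (fun θ => ψ θ ^ 2)

/-- Logarithmic Sobolev inequalities applied to the Gaussian channel. -/
def ChannelStmt : Prop :=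
  ∀ (n : ℕ) (μ : Measure (Euc n)), IsProbabilityMeasure μ → ∀ R : ℝ, 0 ≤ R → Supp μ R → IsLC 0 μ →
    ∀ K : ℝ, 0 < K → Fisi μ K → ∀ g g', Pos1 g g' → ∫ x, g x ∂μ = 1 → ∀ t r : ℝ, 0 < t → 0 < r →
    ∀ Δ Δ', V1 Δ Δ' → ∀ B : ℝ, (∀ θ, ‖Δ θ‖ ≤ B ∧ frob (Δ' θ) ≤ B) →
      cent r t μ g Δ ≤ Kt K t * (info t μ g + r * qexp t μ g (fun θ => frob (Δ' θ))) ∧
      qexp t μ g (fun θ => ‖Δ θ‖ ^ 2) - cw2 r t μ g Δ ≤ 2 / r * cent r t μ g Δ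

/-- The entropy budget bounds the correlation with the conditional expectation. -/
def PairingStmt : Prop :=
  ∃ C : ℝ, 0 < C ∧ ∀ (n : ℕ) (μ : Measure (Euc n)), IsProbabilityMeasure μ →
    ∀ R : ℝ, 0 ≤ R → Supp μ R → IsLC 0 μ → Sub3 μ →
    ∀ g g', Pos1 g g' → ∫ x, g x ∂μ = 1 → ∀ t r : ℝ, 0 < t → 0 < r →
    ∀ Δ : Euc n → Euc n, Continuous Δ → ∀ B : ℝ, (∀ θ, ‖Δ θ‖ ≤ B) →
      √t * (cw2 r t μ g Δ - √(qexp t μ g (fun θ => ‖Δ θ‖ ^ 2)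
          * qexp t μ g (fun θ => ‖Δ θ - dd t μ g θ‖ ^ 2)))
        ≤ 1 / (2 * t) * (∫ x, fis g g' x ∂μ) + cent r t μ g Δ
          + C * t * qexp t μ g (fun θ => ‖Δ θ‖ ^ 2)

/-- The bootstrap step gives `K_n ≤ C n^ε` on a ball. -/
def CoreEpsStmt : Prop :=
  ∀ ε : ℝ, 0 < ε → ε ≤ 1 / 4 → ∃ C : ℝ, 0 < C ∧ ∀ᶠ n : ℕ in atTop, ∀ (μ : Measure (Euc n)) (R : ℝ),
    IsProbabilityMeasure μ → Setup μ R → Fisi μ (C * (n : ℝ) ^ ε)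

end Vale.Agent.P245N

namespace Vale.Agent.P245N

open MeasureTheory Real
open Vale.Agent.P245

/-- Logarithmic Sobolev inequality for the law of `θ_t`. -/
def PtLsiStmt : Prop :=
  ∀ (n : ℕ) (μ : Measure (Euc n)), IsProbabilityMeasure μ → ∀ R : ℝ, 0 ≤ R → Supp μ R → IsLC 0 μ →
    ∀ K : ℝ, 0 < K → Fisi μ K → ∀ t : ℝ, 0 < t → ∀ h h', Pos1 h h' → ∀ c B : ℝ, 0 < c →
      (∀ θ, c ≤ h θ ∧ h θ ≤ B ∧ ‖h' θ‖ ≤ B) → eent t μ h ≤ Kt K t * elaw t μ (fis h h')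

end Vale.Agent.P245N
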