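import Vale.Agent.P245.QuarterMain
import Vale.Agent.P245N.Spec

/-!
From the bootstrap statement on a ball to all log-concave subgaussian measures, for every exponent.
-/

open MeasureTheory Real Filter Set
open scoped Topology ENNReal RealInnerProductSpace

namespace Vale.Agent.P245N

open Vale.Agent.P245

/-- Log-Sobolev inequality of order `n^ε` for compactly supported measures. -/
theorem core_eps (hcore : CoreEpsStmt) {ε : ℝ} (hε : 0 < ε) (hε4 : ε ≤ 1 / 4) :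
    ∃ C : ℝ, 0 < C ∧ ∀ (n : ℕ), 1 ≤ n → ∀ (μ : Measure (Euc n)), IsProbabilityMeasure μ →
    ∀ R₁ : ℝ, 0 ≤ R₁ → Supp μ R₁ → IsLC 0 μ → (∀ v : Euc n, ‖v‖ = 1 → ∫ x, exp (⟪v, x⟫ ^ 2) ∂μ ≤ 11 / 5) →
    ∀ (f : Euc n → ℝ) (f' : Euc n → Euc n), D1 f f' →
      ent μ (fun x => f x ^ 2) ≤ C * (n : ℝ) ^ ε * ∫ x, ‖f' x‖ ^ 2 ∂μ := by
  obtain ⟨c, hc0, hcut⟩ := exists_cutoff
  obtain ⟨Cq, hCq, hqev⟩ := hcore ε hε hε4
  obtain ⟨C₁, hC₁, hcube⟩ := core_lsi
  set A := 4 * Cq + 50 with hA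
  obtain ⟨M, hM⟩ := eventually_atTop.1 (hqev.and (rpow_ev (by linarith : (0 : ℝ) < 1 - ε) (A * c / 8)))
  refine ⟨176 * A + C₁ * ((M : ℝ) + 1), by positivity, fun n hn μ hprob R₁ hR₁ hS hμ hsub f f' hf => ?_⟩
  have hn' : (1 : ℝ) ≤ n := by exact_mod_cast hn
  have hn0 : (0 : ℝ) < n := by linarith
  set N := (n : ℝ) ^ ε with hN
  have hN1 : 1 ≤ N := one_le_rpow hn' hε.le
  have hD : 0 ≤ ∫ x, ‖f' x‖ ^ 2 ∂μ := integral_nonneg fun x => sq_nonneg _
  rcases lt_or_ge n M with hsmall | hbig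
  · refine (hcube n hn μ hprob R₁ hR₁ hS hμ hsub f f' hf).trans (mul_le_mul_of_nonneg_right ?_ hD)
    have h1 : (n : ℝ) ^ (1 / 3 : ℝ) ≤ ((M : ℝ) + 1) * N := by
      have h2 : (n : ℝ) ^ (1 / 3 : ℝ) ≤ n := (rpow_le_rpow_of_exponent_le hn' (by norm_num)).trans (le_of_eq (rpow_one _))
      have h3 : (n : ℝ) ≤ (M : ℝ) + 1 := by
        have : (n : ℝ) ≤ M := by exact_mod_cast hsmall.le
        linarith
      exact h2.trans (h3.trans (le_mul_of_one_le_right (by positivity) hN1))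
    have h4 := mul_le_mul_of_nonneg_left h1 hC₁.le
    have h5 : 0 ≤ 176 * A * N := by positivity
    rw [add_mul]
    linarith
  obtain ⟨hq, hbig'⟩ := hM n hbig
  set R := 4 * √n with hR
  have hsn : 0 < √(n : ℝ) := Real.sqrt_pos.2 hn0
  have hR0 : 0 < R := by positivity
  have hR2 : R ^ 2 = 16 * n := by rw [hR, mul_pow, Real.sq_sqrt hn0.le]; norm_num
  have hRn : 16 * n ≤ R ^ 2 := hR2.ge
  have hsub3 : Sub3 μ := fun v hv => (hsub v hv).trans (by norm_num)
  obtain ⟨χ, η, χ', η', hχ, hη, hsum, hχpos, hχ0, hin, hgrad, horth⟩ := hcut n R hR0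
  set B := Metric.closedBall (0 : Euc n) (2 * R) with hB
  set p := μ.real B with hp
  have hpge : 20 / 21 ≤ p := by
    have h1 := measure_compl_ball_le hS hsub3 hn (2 * R)
    rw [← le_div_iff₀' (exp_pos _), ← exp_sub] at h1
    have h2 : μ.real Bᶜ ≤ μ.real {x : Euc n | (2 * R) ^ 2 ≤ ‖x‖ ^ 2} := measureReal_mono fun x hx => by
      simp only [hB, mem_compl_iff, Metric.mem_closedBall, dist_zero_right, not_le] at hx
      exact pow_le_pow_left₀ (by positivity) hx.le 2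
    have h3 := probReal_compl_eq_one_sub (μ := μ) (s := B) measurableSet_closedBall
    have h4 : exp (3 * (n : ℝ) - (2 * R) ^ 2 / 2) ≤ 1 / 21 := by
      rw [le_div_iff₀ (by norm_num)]
      have h5 : 3 * (n : ℝ) - (2 * R) ^ 2 / 2 ≤ -20 := by linarith
      have h6 := exp_le_exp.2 h5
      have h7 : exp (-20 : ℝ) * exp 20 = 1 := by rw [← exp_add]; simp
      have h8 := mul_le_mul_of_nonneg_left (add_one_le_exp (20 : ℝ)) (exp_pos (-20 : ℝ)).le
      linarith
    linarith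
  have hp0 : 0 < p := by linarith
  have hne : μ B ≠ 0 := fun h => by simp [hp, measureReal_def, h] at hp0
  set ν := onBall μ (2 * R) with hν
  have : IsProbabilityMeasure ν := isProb_onBall hne
  have hνS : Supp ν (2 * R) := supp_onBall μ _
  have hνsub : Sub3 ν := fun v hv => by
    have h1 := integral_onBall_le (μ := μ) (r := 2 * R) (F := fun x => exp (⟪v, x⟫ ^ 2)) (fun x => (exp_pos _).le)
      (hS.integrable (by fun_prop)) hne
    change p * _ ≤ _ at h1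
    have h2 := h1.trans (hsub v hv)
    have h3 : 0 ≤ ∫ x, exp (⟪v, x⟫ ^ 2) ∂ν := integral_nonneg fun x => (exp_pos _).le
    nlinarith [mul_le_mul_of_nonneg_right hpge h3]
  have hF : Fisi ν (Cq * N) := hq ν (2 * R) inferInstance ⟨hn, by rw [hR]; ring, hνS, hμ.onBall hne, hνsub⟩
  have hlsi : ∀ {g : Euc n → ℝ} {g' : Euc n → Euc n}, D1 g g' →
      ent ν (fun x => g x ^ 2) ≤ 4 * (Cq * N) * ∫ x, ‖g' x‖ ^ 2 ∂ν := fun {g g'} hg =>
    lsi_of_fisi (by positivity) hνS hF hg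
  have hKK' : 4 * (Cq * N) + 50 ≤ A * N := by rw [hA]; linarith
  have hcK : A * N * (c / R ^ 2) ≤ 1 / 2 := by
    rw [hR2, ← mul_div_assoc, div_le_iff₀ (by positivity)]
    have e : N * (n : ℝ) ^ (1 - ε) = n := by rw [hN, ← rpow_add hn0]; norm_num
    have h1 := mul_le_mul_of_nonneg_left hbig' (by linarith : 0 ≤ N)
    rw [e] at h1
    linarith
  have hball : 0 < μ.real (Metric.closedBall (0 : Euc n) R) := by
    have h1 := compl_ball_small hS hsub3 hn hRn
    have h2 : μ.real (Metric.closedBall (0 : Euc n) R)ᶜ ≤ μ.real {x : Euc n | R ^ 2 ≤ ‖x‖ ^ 2} := measureReal_mono fun x hx => by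
      simp only [mem_compl_iff, Metric.mem_closedBall, dist_zero_right, not_le] at hx
      exact pow_le_pow_left₀ hR0.le hx.le 2
    rw [probReal_compl_eq_one_sub measurableSet_closedBall] at h2
    have : exp (-(5 * (n : ℝ))) < 1 := exp_lt_one_iff.2 (by linarith)
    linarith
  have hiχ : 0 < ∫ x, χ x ∂ν := by
    rw [hν, integral_onBall, smul_eq_mul]
    refine mul_pos (inv_pos.2 hp0) (hball.trans_le ?_)
    have h1 : μ.real (Metric.closedBall (0 : Euc n) R) = ∫ x in B, (Metric.closedBall (0 : Euc n) R).indicator (fun _ => (1 : ℝ)) x ∂μ := by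
      rw [integral_indicator_const _ measurableSet_closedBall, smul_eq_mul, mul_one, measureReal_restrict_apply measurableSet_closedBall,
        inter_eq_self_of_subset_left (Metric.closedBall_subset_closedBall (by linarith))]
    rw [h1]
    refine integral_mono ((integrable_const _).indicator measurableSet_closedBall) (hS.integrable hχ.cont).integrableOn fun x => ?_
    by_cases hx : x ∈ Metric.closedBall (0 : Euc n) R
    · rw [indicator_of_mem hx, (hin x (by simpa using hx)).1]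
    · rw [indicator_of_notMem hx]; exact hχpos x
  refine (combine hS hR₁ hμ hsub3 hn hR0 hRn hc0 hχ hη hsum hχ0 hin hgrad horth hne hpge (by positivity) hKK' hcK hlsi hiχ hf).trans
    (mul_le_mul_of_nonneg_right ?_ hD)
  have : 0 ≤ C₁ * ((M : ℝ) + 1) * N := by positivity
  linarith

/-- Log-Sobolev constant of order `n^ε a^2` for every `ε > 0`. -/
theorem main_of_coreEps (hcore : CoreEpsStmt) : ∀ ε : ℝ, 0 < ε → ∃ C : ℝ, 0 < C ∧
    ∀ (n : ℕ) (μ : Measure (Euc n)), IsProbabilityMeasure μ →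
    ∀ ρ : Euc n → ℝ, (∀ x, 0 ≤ ρ x) → ConcaveOn ℝ {x | 0 < ρ x} (fun x => log (ρ x)) →
    μ = volume.withDensity (fun x => ENNReal.ofReal (ρ x)) →
    ∀ a : ℝ, 0 < a → (∀ θ : Euc n, ‖θ‖ = 1 → ∫⁻ x, ENNReal.ofReal (exp (⟪x, θ⟫ ^ 2 / a ^ 2)) ∂μ ≤ 2) →
    ∀ f : Euc n → ℝ, ContDiff ℝ 1 f → HasCompactSupport f →
      ent μ (fun x => f x ^ 2) ≤ C * (n : ℝ) ^ ε * a ^ 2 * ∫ x, ‖fderiv ℝ f x‖ ^ 2 ∂μ := by
  intro ε hε
  have hm : 0 < min ε (1 / 4) := lt_min hε (by norm_num)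
  obtain ⟨C, hC, h⟩ := main_of (core_eps hcore hm (min_le_right _ _))
  refine ⟨C, hC, fun n μ hp ρ hρ0 hρc hμ a ha hsub f hf hfc =>
    (h n μ hp ρ hρ0 hρc hμ a ha hsub f hf hfc).trans ?_⟩
  have hpow : (n : ℝ) ^ min ε (1 / 4) ≤ (n : ℝ) ^ ε := by
    rcases Nat.eq_zero_or_pos n with hn | hn
    · rw [hn, Nat.cast_zero, zero_rpow hm.ne', zero_rpow hε.ne']
    · exact rpow_le_rpow_of_exponent_le (by exact_mod_cast hn) (min_le_left _ _)
  have : 0 ≤ ∫ x, ‖fderiv ℝ f x‖ ^ 2 ∂μ := integral_nonneg fun x => sq_nonneg _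
  gcongr

end Vale.Agent.P245N
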