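import Vale.Agent.P245N.Spec

/-!
The derivative of the cutoff `Ff`: in an eigenbasis of the fibre covariance it is a multiplier applied
to the third cumulant, and both bounds follow from the variance bound for quadratic forms.
-/

open MeasureTheory Real Filter Set
open scoped Topology RealInnerProductSpace

namespace Vale.Agent.P245N

open Vale.Agent.P245

namespace ResAux

variable {n : ℕ}

-- instance search does not see through `Op` here
local instance scalarTower_op : IsScalarTower ℝ (Op n) (Op n) := IsScalarTower.right (R := ℝ) (A := Op n)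

local instance smulComm_op : SMulCommClass ℝ (Op n) (Op n) := Algebra.to_smulCommClass (R := ℝ) (A := Op n)

/-- The operator with matrix `G` in the basis `b`. -/
noncomputable def opB (b : OrthonormalBasis (Fin n) ℝ (Euc n)) (G : Fin n → Fin n → ℝ) : Op n :=
  ∑ a, ∑ c, G a c • (innerSL ℝ (b c)).smulRight (b a)

lemma opB_apply (b : OrthonormalBasis (Fin n) ℝ (Euc n)) (G : Fin n → Fin n → ℝ) (x : Euc n) :
    opB b G x = ∑ a, (∑ c, G a c * ⟪b c, x⟫) • b a := by
  simp only [opB, sum_apply, smul_apply, ContinuousLinearMap.smulRight_apply,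
    innerSL_apply_apply, smul_smul, Finset.sum_smul]

lemma inner_opB_self (b : OrthonormalBasis (Fin n) ℝ (Euc n)) (G : Fin n → Fin n → ℝ) (x : Euc n) :
    ⟪x, opB b G x⟫ = ∑ a, ∑ c, G a c * (⟪b a, x⟫ * ⟪b c, x⟫) := by
  simp only [opB_apply, inner_sum, inner_smul_right, Finset.sum_mul, real_inner_comm (b _) x]
  exact Finset.sum_congr rfl fun a _ => Finset.sum_congr rfl fun c _ => by ring

lemma inner_opB_basis (b : OrthonormalBasis (Fin n) ℝ (Euc n)) (G : Fin n → Fin n → ℝ) (a c : Fin n) :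
    ⟪b a, opB b G (b c)⟫ = G a c := by
  simp [opB_apply, inner_sum, inner_smul_right, b.inner_eq_ite]

lemma op_ext_basis (b : OrthonormalBasis (Fin n) ℝ (Euc n)) {S T : Op n} (h : ∀ i, S (b i) = T (b i)) : S = T :=
  ContinuousLinearMap.coe_injective (b.toBasis.ext fun i => by simpa using h i)

lemma sum_inner_basis (b : OrthonormalBasis (Fin n) ℝ (Euc n)) (S T : Op n) :
    ∑ i, ⟪S (stdb n i), T (stdb n i)⟫ = ∑ i, ⟪S (b i), T (b i)⟫ := by
  have key : ∀ c : OrthonormalBasis (Fin n) ℝ (Euc n), 2 * ∑ i, ⟪S (c i), T (c i)⟫ =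
      frob (S + T) - frob S - frob T := fun c => by
    simp only [frob_basis _ c, add_apply, norm_add_sq_real, Finset.sum_add_distrib,
      ← Finset.mul_sum]
    ring
  linarith [key (stdb n), key b]

section eig

variable {A : Op n} {b : OrthonormalBasis (Fin n) ℝ (Euc n)} {l : Fin n → ℝ}

lemma inner_eigen (hA : ∀ i, A (b i) = l i • b i) (i : Fin n) (u : Euc n) : ⟪b i, A u⟫ = l i * ⟪b i, u⟫ := by
  conv_lhs => rw [← b.sum_repr' u]
  simp [map_sum, map_smul, hA, inner_sum, inner_smul_right, b.inner_eq_ite, mul_comm]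

lemma qv2_eigen (hA : ∀ i, A (b i) = l i • b i) (H : Op n) :
    qv2 A H = ∑ a, ∑ c, l a * l c * ⟪b a, H (b c)⟫ ^ 2 := by
  have h := sum_inner_basis b (A * H) (H * A)
  simp only [ContinuousLinearMap.mul_def, ContinuousLinearMap.comp_apply] at h
  rw [qv2, h, Finset.sum_comm]
  refine Finset.sum_congr rfl fun c _ => ?_
  rw [hA, map_smul, inner_smul_right, inner_eq_sum b, Finset.mul_sum]
  exact Finset.sum_congr rfl fun a _ => by rw [inner_eigen hA]; ring

variable {M : ℝ}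

lemma isUnit_shift (hA : ∀ i, A (b i) = l i • b i) (hl : ∀ i, 0 ≤ l i) (hM : 0 < M) :
    IsUnit (A + M • (1 : Op n)) ∧ ∀ i, Ring.inverse (A + M • (1 : Op n)) (b i) = (l i + M)⁻¹ • b i := by
  have hne : ∀ i, l i + M ≠ 0 := fun i => by linarith [hl i]
  set V := opB b fun a c => if a = c then (l c + M)⁻¹ else 0
  have hV : ∀ i, V (b i) = (l i + M)⁻¹ • b i := fun i => by
    simp [V, opB_apply, b.inner_eq_ite, ite_smul]
  have hB : ∀ i, (A + M • (1 : Op n)) (b i) = (l i + M) • b i := fun i => by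
    simp [hA, add_smul]
  have e1 : (A + M • (1 : Op n)) * V = 1 := op_ext_basis b fun i => by
    rw [ContinuousLinearMap.mul_def, ContinuousLinearMap.comp_apply, hV, map_smul, hB, smul_smul,
      inv_mul_cancel₀ (hne i), one_smul]; rfl
  have e2 : V * (A + M • (1 : Op n)) = 1 := op_ext_basis b fun i => by
    rw [ContinuousLinearMap.mul_def, ContinuousLinearMap.comp_apply, hB, map_smul, hV, smul_smul,
      mul_inv_cancel₀ (hne i), one_smul]; rfl
  let U : (Op n)ˣ := ⟨A + M • (1 : Op n), V, e1, e2⟩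
  refine ⟨⟨U, rfl⟩, fun i => ?_⟩
  rw [show Ring.inverse (A + M • (1 : Op n)) = V from Ring.inverse_unit U, hV]

lemma sv_eigen (hA : ∀ i, A (b i) = l i • b i) (hl : ∀ i, 0 ≤ l i) (hM : 0 < M) (i : Fin n) :
    Sv M A (b i) = (l i / (l i + M)) • b i := by
  rw [Sv, ContinuousLinearMap.mul_def, ContinuousLinearMap.comp_apply, (isUnit_shift hA hl hM).2, map_smul, hA,
    smul_smul, div_eq_inv_mul]

end eig

/-- Derivative of one rational step at `A` in direction `D`. -/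
noncomputable def dS (M : ℝ) (A D : Op n) : Op n :=
  M • (Ring.inverse (A + M • (1 : Op n)) * D * Ring.inverse (A + M • (1 : Op n)))

/-- Derivative of the dyadic average at `A` in direction `D`. -/
noncomputable def dF (p L : ℕ) (M : ℝ) (A D : Op n) : Op n :=
  (L : ℝ)⁻¹ • ∑ k ∈ Finset.range L, dpow (Sv (M * 2 ^ k) A) (dS (M * 2 ^ k) A D) p

variable {μ : Measure (Euc n)} [IsProbabilityMeasure μ] {R t : ℝ}

lemma exists_eigen_nonneg (hS : Supp μ R) (θ : Euc n) :
    ∃ (b : OrthonormalBasis (Fin n) ℝ (Euc n)) (l : Fin n → ℝ),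
      (∀ i, Aop t μ θ (b i) = l i • b i) ∧ ∀ i, 0 ≤ l i ∧ l i = aent t μ θ (b i) (b i) := by
  obtain ⟨b, l, he⟩ := (symOp_Aop (t := t) hS θ).exists_eigen
  refine ⟨b, l, he, fun i => ?_⟩
  have h : l i = aent t μ θ (b i) (b i) := by
    rw [← inner_Aop hS θ (b i) (b i), he, inner_smul_right, b.inner_eq_ite, if_pos rfl, mul_one]
  exact ⟨h ▸ aent_self_nonneg _ _, h⟩

lemma isUnit_Aop (hS : Supp μ R) {M : ℝ} (hM : 0 < M) (θ : Euc n) : IsUnit (Aop t μ θ + M • (1 : Op n)) := by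
  obtain ⟨b, l, he, hl⟩ := exists_eigen_nonneg (t := t) hS θ
  exact (isUnit_shift he (fun i => (hl i).1) hM).1

lemma sv_eq {A : Op n} {M : ℝ} (h : IsUnit (A + M • (1 : Op n))) :
    Sv M A = 1 - M • Ring.inverse (A + M • (1 : Op n)) := by
  have e := Ring.mul_inverse_cancel _ h
  rw [add_mul, smul_mul_assoc, one_mul] at e
  rw [Sv, eq_sub_iff_add_eq, e]

lemma hasFDerivAt_sv (hS : Supp μ R) {M : ℝ} (hM : 0 < M) (θ : Euc n) :
    ∃ L : Euc n →L[ℝ] Op n, HasFDerivAt (fun θ => Sv M (Aop t μ θ)) L θ ∧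
      ∀ h, L h = dS M (Aop t μ θ) (dA t μ θ h) := by
  obtain ⟨LA, hLA, hLe⟩ := hasFDerivAt_Aop (t := t) hS θ
  obtain ⟨u, hu⟩ := isUnit_Aop (t := t) hS hM θ
  have h1 : HasFDerivAt (fun θ => Aop t μ θ + M • (1 : Op n)) LA θ := hLA.add_const _
  have h2 : HasFDerivAt (Ring.inverse (M₀ := Op n)) (-ContinuousLinearMap.mulLeftRight ℝ (Op n) ↑u⁻¹ ↑u⁻¹)
      (Aop t μ θ + M • (1 : Op n)) := hu ▸ hasFDerivAt_ringInverse u
  have h3 := ((h2.comp θ h1).const_smul M).const_sub (1 : Op n)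
  refine ⟨_, HasFDerivAt.congr_of_eventuallyEq h3
    (Eventually.of_forall fun z => sv_eq (isUnit_Aop hS hM z)), fun h => ?_⟩
  simp only [dS, ← hu, Ring.inverse_unit, neg_apply, smul_apply,
    ContinuousLinearMap.comp_apply, ContinuousLinearMap.mulLeftRight_apply, hLe, smul_neg, neg_neg]

lemma hasFDerivAt_Ff (hS : Supp μ R) (p L : ℕ) {M : ℝ} (hM : 0 < M) (θ : Euc n) :
    ∃ F : Euc n →L[ℝ] Op n, HasFDerivAt (Ff p L M t μ) F θ ∧
      ∀ h, F h = dF p L M (Aop t μ θ) (dA t μ θ h) := by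
  choose Ls hLs hLse using fun k : ℕ => hasFDerivAt_sv (t := t) hS (M := M * 2 ^ k) (mul_pos hM (pow_pos two_pos k)) θ
  have h := (HasFDerivAt.fun_sum fun k (_ : k ∈ Finset.range L) => (hLs k).fun_pow' p).const_smul ((L : ℝ)⁻¹)
  refine ⟨_, h, fun v => ?_⟩
  simp only [dF, dpow, smul_apply, sum_apply, MulOpposite.smul_eq_mul_unop,
    MulOpposite.unop_op, hLse, smul_eq_mul, mul_assoc]

lemma continuous_dF (hS : Supp μ R) (p L : ℕ) {M : ℝ} (hM : 0 < M) (h : Euc n) :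
    Continuous fun θ => dF p L M (Aop t μ θ) (dA t μ θ h) := by
  refine Continuous.const_smul ?_ (L : ℝ)⁻¹
  refine continuous_finsetSum _ fun k _ => continuous_finsetSum _ fun j _ => ?_
  have hMk : 0 < M * 2 ^ k := mul_pos hM (pow_pos two_pos k)
  have hi : Continuous fun θ => Ring.inverse (Aop t μ θ + (M * 2 ^ k) • (1 : Op n)) :=
    continuous_iff_continuousAt.2 fun θ => by
      obtain ⟨u, hu⟩ := isUnit_Aop (t := t) hS hMk θ
      exact ContinuousAt.comp (g := Ring.inverse) (hu ▸ (hasFDerivAt_ringInverse (𝕜 := ℝ) u).continuousAt)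
        ((continuous_Aop hS).add continuous_const).continuousAt
  have hs : Continuous fun θ => Sv (M * 2 ^ k) (Aop t μ θ) := (continuous_Aop hS).mul hi
  exact ((hs.pow _).mul (((hi.mul (continuous_dA hS t h)).mul hi).const_smul (M * 2 ^ k))).mul (hs.pow _)

/-- The dual bound on the third cumulant. -/
lemma third_le (hS : Supp μ R) {Q : ℝ} (θ : Euc n) (hQ : QV Q t μ θ) (H : Op n) (u : Euc n) :
    (∫ x, ⟪u, cen t μ θ x⟫ * ⟪cen t μ θ x, H (cen t μ θ x)⟫ ∂(fib t μ θ)) ^ 2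
      ≤ aent t μ θ u u * (Q * qv2 (Aop t μ θ) H) := by
  have := isProb_fib (T := t) hS θ
  have hsf := supp_fib (T := t) hS θ
  set m := ∫ x, ⟪cen t μ θ x, H (cen t μ θ x)⟫ ∂(fib t μ θ)
  have e : ∫ x, ⟪u, cen t μ θ x⟫ * (⟪cen t μ θ x, H (cen t μ θ x)⟫ - m) ∂(fib t μ θ) =
      ∫ x, ⟪u, cen t μ θ x⟫ * ⟪cen t μ θ x, H (cen t μ θ x)⟫ ∂(fib t μ θ) := by
    simp only [mul_sub]
    rw [integral_sub (hsf.integrable (by fun_prop)) (hsf.integrable (by fun_prop)), integral_mul_const,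
      integral_cen hS, zero_mul, sub_zero]
  rw [← e]
  refine (cs_integral (hsf.integrable (by fun_prop)) (hsf.integrable (by fun_prop))
    (hsf.integrable (by fun_prop))).trans (mul_le_mul (le_of_eq ?_) (hQ H) (integral_nonneg fun x => sq_nonneg _)
      (aent_self_nonneg _ _))
  simp only [aent, sq]

lemma contract_eq (hS : Supp μ R) (θ u : Euc n) (b : OrthonormalBasis (Fin n) ℝ (Euc n)) (G : Fin n → Fin n → ℝ) :
    ∫ x, ⟪u, cen t μ θ x⟫ * ⟪cen t μ θ x, opB b G (cen t μ θ x)⟫ ∂(fib t μ θ) =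
      ∑ a, ∑ c, G a c * ⟪wvec t μ θ (b a) (b c), u⟫ := by
  have := isProb_fib (T := t) hS θ
  have hsf := supp_fib (T := t) hS θ
  simp only [inner_opB_self, Finset.mul_sum, real_inner_comm u (wvec _ _ _ _ _), inner_wvec hS, ← integral_const_mul]
  rw [integral_finsetSum _ fun a _ => hsf.integrable (by fun_prop)]
  refine Finset.sum_congr rfl fun a _ => ?_
  rw [integral_finsetSum _ fun c _ => hsf.integrable (by fun_prop)]
  exact Finset.sum_congr rfl fun c _ => integral_congr_ae (Eventually.of_forall fun x => by ring)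

lemma third_basis (hS : Supp μ R) {Q : ℝ} (θ : Euc n) (hQ : QV Q t μ θ)
    {b : OrthonormalBasis (Fin n) ℝ (Euc n)} {l : Fin n → ℝ} (he : ∀ i, Aop t μ θ (b i) = l i • b i)
    (G : Fin n → Fin n → ℝ) (u : Euc n) :
    (∑ a, ∑ c, G a c * ⟪wvec t μ θ (b a) (b c), u⟫) ^ 2
      ≤ aent t μ θ u u * (Q * ∑ a, ∑ c, l a * l c * G a c ^ 2) := by
  have h := third_le hS θ hQ (opB b G) u
  rw [contract_eq hS, qv2_eigen he] at h
  simpa only [inner_opB_basis] using h

/-- The dyadic sum is bounded. -/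
lemma sum_dyadic_le {l M : ℝ} (hl : 0 ≤ l) (hM : 0 < M) (L : ℕ) :
    ∑ k ∈ Finset.range L, M * 2 ^ k * (l * ((l + M * 2 ^ k)⁻¹) ^ 2) ≤ 2 := by
  set f := fun k : ℕ => 2 * (M * 2 ^ k / (M * 2 ^ k + l)) with hf
  have hstep : ∀ k : ℕ, M * 2 ^ k * (l * ((l + M * 2 ^ k)⁻¹) ^ 2) ≤ f (k + 1) - f k := fun k => by
    set x := M * 2 ^ k with hx
    have hx0 : 0 < x := mul_pos hM (pow_pos two_pos k)
    have e : f (k + 1) - f k = 2 * (x * l / ((2 * x + l) * (x + l))) := by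
      simp only [hf, show M * 2 ^ (k + 1) = 2 * x by rw [hx, pow_succ]; ring]
      field_simp; ring
    rw [e, inv_pow, show x * (l * ((l + x) ^ 2)⁻¹) = x * l / (l + x) ^ 2 by ring, ← mul_div_assoc,
      div_le_div_iff₀ (by positivity) (by positivity)]
    nlinarith [mul_nonneg (mul_nonneg hx0.le hl) (mul_nonneg hl (add_nonneg hl hx0.le))]
  refine (Finset.sum_le_sum fun k _ => hstep k).trans ?_
  rw [Finset.sum_range_sub]
  have h1 : f L ≤ 2 := by
    simp only [hf]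
    have : M * 2 ^ L / (M * 2 ^ L + l) ≤ 1 := by
      rw [div_le_one (by positivity)]; linarith
    linarith
  have h2 : 0 ≤ f 0 := by simp only [hf]; positivity
  linarith

/-- The multiplier of the derivative in an eigenbasis. -/
noncomputable def mult (p L : ℕ) (M : ℝ) (x y : ℝ) : ℝ :=
  (L : ℝ)⁻¹ * ∑ k ∈ Finset.range L, M * 2 ^ k * (x + M * 2 ^ k)⁻¹ * (y + M * 2 ^ k)⁻¹ *
    ∑ i ∈ Finset.range p, (x / (x + M * 2 ^ k)) ^ (p.pred - i) * (y / (y + M * 2 ^ k)) ^ i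

lemma mult_sq_le (p L : ℕ) {M x y : ℝ} (hM : 0 < M) (hx : 0 ≤ x) (hy : 0 ≤ y) :
    x * y * mult p L M x y ^ 2 ≤ 4 * p ^ 2 / L ^ 2 := by
  set m := fun k : ℕ => M * 2 ^ k
  set P := fun k => ∑ i ∈ Finset.range p, (x / (x + m k)) ^ (p.pred - i) * (y / (y + m k)) ^ i
  have hm : ∀ k, 0 < m k := fun k => mul_pos hM (pow_pos two_pos k)
  have hP0 : ∀ k, 0 ≤ P k := fun k => Finset.sum_nonneg fun i _ => by have := hm k; positivity
  have hP : ∀ k, P k ^ 2 ≤ (p : ℝ) ^ 2 := fun k => pow_le_pow_left₀ (hP0 k) (by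
    refine (Finset.sum_le_sum fun i _ => ?_).trans (le_of_eq (by simp : ∑ _i ∈ Finset.range p, (1:ℝ) = p))
    have := hm k
    exact mul_le_one₀ (pow_le_one₀ (by positivity) (div_le_one_of_le₀ (by linarith) (by positivity))) (by positivity)
      (pow_le_one₀ (by positivity) (div_le_one_of_le₀ (by linarith) (by positivity)))) 2
  have hcs : (∑ k ∈ Finset.range L, m k * (x + m k)⁻¹ * (y + m k)⁻¹ * P k) ^ 2 * (x * y) ≤
      (p : ℝ) ^ 2 * ((∑ k ∈ Finset.range L, m k * (x * ((x + m k)⁻¹) ^ 2)) *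
        ∑ k ∈ Finset.range L, m k * (y * ((y + m k)⁻¹) ^ 2)) := by
    have h := Finset.sum_sq_le_sum_mul_sum_of_sq_le_mul (Finset.range L)
      (r := fun k => m k * (x + m k)⁻¹ * (y + m k)⁻¹ * P k)
      (f := fun k => (p : ℝ) ^ 2 * (m k * ((x + m k)⁻¹) ^ 2)) (g := fun k => m k * ((y + m k)⁻¹) ^ 2)
      (fun k _ => by have := hm k; positivity) (fun k _ => by have := hm k; positivity) fun k _ => by
        have := hm k
        rw [show (m k * (x + m k)⁻¹ * (y + m k)⁻¹ * P k) ^ 2 =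
          P k ^ 2 * (m k * ((x + m k)⁻¹) ^ 2 * (m k * ((y + m k)⁻¹) ^ 2)) by ring,
          mul_assoc ((p : ℝ) ^ 2)]
        exact mul_le_mul_of_nonneg_right (hP k) (by positivity)
    refine (mul_le_mul_of_nonneg_right h (mul_nonneg hx hy)).trans (le_of_eq ?_)
    simp only [mul_left_comm (m _) x, mul_left_comm (m _) y, ← Finset.mul_sum]
    ring
  have h4 : (∑ k ∈ Finset.range L, m k * (x * ((x + m k)⁻¹) ^ 2)) *
      (∑ k ∈ Finset.range L, m k * (y * ((y + m k)⁻¹) ^ 2)) ≤ 4 :=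
    (mul_le_mul (sum_dyadic_le hx hM L) (sum_dyadic_le hy hM L)
      (Finset.sum_nonneg fun k _ => by have := hm k; positivity) zero_le_two).trans (le_of_eq (by norm_num))
  calc x * y * mult p L M x y ^ 2 = (L : ℝ)⁻¹ ^ 2 *
        ((∑ k ∈ Finset.range L, m k * (x + m k)⁻¹ * (y + m k)⁻¹ * P k) ^ 2 * (x * y)) := by
          simp only [mult, m, P]; ring
    _ ≤ (L : ℝ)⁻¹ ^ 2 * ((p : ℝ) ^ 2 * 4) := by
          exact mul_le_mul_of_nonneg_left (hcs.trans (mul_le_mul_of_nonneg_left h4 (by positivity))) (by positivity)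
    _ = _ := by ring

lemma sv_pow_inner {A : Op n} {b : OrthonormalBasis (Fin n) ℝ (Euc n)} {l : Fin n → ℝ}
    (he : ∀ i, A (b i) = l i • b i) (hl : ∀ i, 0 ≤ l i) {M : ℝ} (hM : 0 < M) (k : ℕ) (i : Fin n) (u : Euc n) :
    ⟪b i, (Sv M A ^ k) u⟫ = (l i / (l i + M)) ^ k * ⟪b i, u⟫ :=
  inner_eigen (fun j => pow_apply_eigen (sv_eigen he hl hM) k j) i u

lemma inv_inner {A : Op n} {b : OrthonormalBasis (Fin n) ℝ (Euc n)} {l : Fin n → ℝ}
    (he : ∀ i, A (b i) = l i • b i) (hl : ∀ i, 0 ≤ l i) {M : ℝ} (hM : 0 < M) (i : Fin n) (u : Euc n) :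
    ⟪b i, Ring.inverse (A + M • (1 : Op n)) u⟫ = (l i + M)⁻¹ * ⟪b i, u⟫ :=
  inner_eigen (isUnit_shift he hl hM).2 i u

lemma wvec_cycle (hS : Supp μ R) (θ u v h : Euc n) : ⟪wvec t μ θ u v, h⟫ = ⟪wvec t μ θ v h, u⟫ := by
  rw [real_inner_comm, inner_wvec hS, real_inner_comm u (wvec t μ θ v h), inner_wvec hS]
  exact integral_congr_ae (Eventually.of_forall fun x => by ring)

/-- One term of the derivative applied to a vector, in an eigenbasis. -/
lemma term_entry (hS : Supp μ R) (θ h : Euc n) {b : OrthonormalBasis (Fin n) ℝ (Euc n)} {l : Fin n → ℝ}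
    (he : ∀ i, Aop t μ θ (b i) = l i • b i) (hl : ∀ i, 0 ≤ l i) {M : ℝ} (hM : 0 < M) (j i : ℕ) (a : Fin n) (v : Euc n) :
    ⟪b a, (Sv M (Aop t μ θ) ^ j * dS M (Aop t μ θ) (dA t μ θ h) * Sv M (Aop t μ θ) ^ i) v⟫ =
      (l a / (l a + M)) ^ j * (M * (l a + M)⁻¹) *
        ⟪wvec t μ θ (Ring.inverse (Aop t μ θ + M • (1 : Op n)) ((Sv M (Aop t μ θ) ^ i) v)) (b a), h⟫ := by
  simp only [ContinuousLinearMap.mul_def, ContinuousLinearMap.comp_apply]
  rw [sv_pow_inner he hl hM, dS, smul_apply, inner_smul_right]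
  simp only [ContinuousLinearMap.mul_def, ContinuousLinearMap.comp_apply]
  rw [inv_inner he hl hM, inner_dA hS]
  ring

lemma entry_eq (hS : Supp μ R) (θ h : Euc n) {b : OrthonormalBasis (Fin n) ℝ (Euc n)} {l : Fin n → ℝ}
    (he : ∀ i, Aop t μ θ (b i) = l i • b i) (hl : ∀ i, 0 ≤ l i) (p L : ℕ) {M : ℝ} (hM : 0 < M) (a c : Fin n) :
    ⟪b a, dF p L M (Aop t μ θ) (dA t μ θ h) (b c)⟫ =
      mult p L M (l a) (l c) * ⟪wvec t μ θ (b a) (b c), h⟫ := by
  simp only [dF, dpow, smul_apply, sum_apply, inner_sum, inner_smul_right, mult,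
    Finset.mul_sum, Finset.sum_mul]
  refine Finset.sum_congr rfl fun k _ => Finset.sum_congr rfl fun i _ => ?_
  have hMk : 0 < M * 2 ^ k := mul_pos hM (pow_pos two_pos k)
  rw [term_entry hS θ h he hl hMk, pow_apply_eigen (sv_eigen he hl hMk), map_smul, (isUnit_shift he hl hMk).2,
    smul_smul]
  have e : ∀ r : ℝ, ⟪wvec t μ θ (r • b c) (b a), h⟫ = r * ⟪wvec t μ θ (b a) (b c), h⟫ := fun r => by
    rw [real_inner_comm, inner_wvec hS, real_inner_comm h (wvec t μ θ (b a) (b c)), inner_wvec hS,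
      ← integral_const_mul]
    exact integral_congr_ae (Eventually.of_forall fun x => by simp only [real_inner_smul_left]; ring)
  rw [e]
  ring

/-- The Hilbert–Schmidt bound in one direction. -/
lemma frob_dF_le (hS : Supp μ R) (hR : 0 ≤ R) (hμ : IsLC 0 μ) (p L : ℕ) {M Q : ℝ} (hM : 0 < M) (hQ0 : 0 ≤ Q)
    (ht : 0 < t) (θ : Euc n) (hQ : QV Q t μ θ) (h : Euc n) :
    frob (dF p L M (Aop t μ θ) (dA t μ θ h)) ≤ 4 * p ^ 2 * Q / (t * L ^ 2) * ‖h‖ ^ 2 := by
  obtain ⟨b, l, he, hl⟩ := exists_eigen_nonneg (t := t) hS θ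
  have hl0 : ∀ i, 0 ≤ l i := fun i => (hl i).1
  set K := fun a c => mult p L M (l a) (l c)
  set W := fun a c => ⟪wvec t μ θ (b a) (b c), h⟫
  set S := ∑ a, ∑ c, (K a c * W a c) ^ 2 with hSdef
  have hF : frob (dF p L M (Aop t μ θ) (dA t μ θ h)) = S := by
    rw [frob_basis _ b, hSdef, Finset.sum_comm]
    refine Finset.sum_congr rfl fun c _ => ?_
    rw [norm_sq_eq_sum b]
    exact Finset.sum_congr rfl fun a _ => by rw [entry_eq hS θ h he hl0 p L hM]
  have h1 := third_basis hS θ hQ he (fun a c => K a c ^ 2 * W a c) h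
  have e1 : ∑ a, ∑ c, K a c ^ 2 * W a c * ⟪wvec t μ θ (b a) (b c), h⟫ = S :=
    Finset.sum_congr rfl fun a _ => Finset.sum_congr rfl fun c _ => by simp only [W]; ring
  rw [e1] at h1
  have hS0 : 0 ≤ S := Finset.sum_nonneg fun a _ => Finset.sum_nonneg fun c _ => sq_nonneg _
  have h2 : ∑ a, ∑ c, l a * l c * (K a c ^ 2 * W a c) ^ 2 ≤ 4 * p ^ 2 / L ^ 2 * S := by
    simp only [hSdef, Finset.mul_sum]
    refine Finset.sum_le_sum fun a _ => Finset.sum_le_sum fun c _ => ?_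
    rw [show l a * l c * (K a c ^ 2 * W a c) ^ 2 = l a * l c * K a c ^ 2 * (K a c * W a c) ^ 2 by ring]
    exact mul_le_mul_of_nonneg_right (mult_sq_le p L hM (hl0 a) (hl0 c)) (sq_nonneg _)
  have h3 : S ^ 2 ≤ ‖h‖ ^ 2 / t * (Q * (4 * p ^ 2 / L ^ 2 * S)) := by
    refine h1.trans ?_
    refine mul_le_mul (aent_le_inv hS hR hμ ht θ h) (mul_le_mul_of_nonneg_left h2 hQ0) ?_ (by positivity)
    exact mul_nonneg hQ0 (Finset.sum_nonneg fun a _ => Finset.sum_nonneg fun c _ => by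
      have := hl0 a; have := hl0 c; positivity)
  rw [hF]
  rcases hS0.eq_or_lt with h0 | h0
  · rw [← h0]; positivity
  refine le_of_mul_le_mul_right ?_ h0
  rw [← sq]
  exact h3.trans (le_of_eq (by ring))

/-- The bound on the directions for one vector. -/
lemma sum_dF_le (hS : Supp μ R) (hR : 0 ≤ R) (hμ : IsLC 0 μ) (p L : ℕ) {M Q : ℝ} (hM : 0 < M) (hQ0 : 0 ≤ Q)
    (ht : 0 < t) (θ : Euc n) (hQ : QV Q t μ θ) (v : Euc n) {F : Euc n →L[ℝ] Op n}
    (hF : ∀ h, F h = dF p L M (Aop t μ θ) (dA t μ θ h)) :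
    ∑ a, ‖F (stdb n a) v‖ ^ 2 ≤ 4 * p ^ 2 * Q / (t * L ^ 2) * ‖v‖ ^ 2 := by
  obtain ⟨b, l, he, hl⟩ := exists_eigen_nonneg (t := t) hS θ
  have hl0 : ∀ i, 0 ≤ l i := fun i => (hl i).1
  have hlt : ∀ i, l i ≤ 1 / t := fun i => by
    rw [(hl i).2]
    exact (aent_le_inv hS hR hμ ht θ (b i)).trans (by rw [b.orthonormal.1 i, one_pow])
  set T : Op n := (ContinuousLinearMap.apply ℝ (Euc n) v).comp F
  set A := Aop t μ θ with hAdef
  set m := fun k : ℕ => M * 2 ^ k
  have hm : ∀ k, 0 < m k := fun k => mul_pos hM (pow_pos two_pos k)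
  set X := fun a d => ⟪b a, F (b d) v⟫
  set N := ∑ a, ∑ d, X a d ^ 2 with hN
  have hNT : ∑ a, ‖F (stdb n a) v‖ ^ 2 = N := by
    change frob T = N
    rw [frob_basis _ b, hN, Finset.sum_comm]
    exact Finset.sum_congr rfl fun d _ => norm_sq_eq_sum b (F (b d) v)
  set u := fun k i => Ring.inverse (A + m k • (1 : Op n)) ((Sv (m k) A ^ i) v) with hudef
  set α := fun k i a => (l a / (l a + m k)) ^ (p.pred - i) * (m k * (l a + m k)⁻¹)
  set G := fun k i a d => α k i a * X a d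
  have hX : ∀ a d, X a d = (L : ℝ)⁻¹ * ∑ z ∈ Finset.range L ×ˢ Finset.range p,
      α z.1 z.2 a * ⟪wvec t μ θ (b a) (b d), u z.1 z.2⟫ := fun a d => by
    simp only [X, hF, dF, dpow, smul_apply, sum_apply, inner_sum, inner_smul_right]
    rw [Finset.sum_product]
    congr 1
    refine Finset.sum_congr rfl fun k _ => Finset.sum_congr rfl fun i _ => ?_
    rw [term_entry hS θ (b d) he hl0 (hm k)]
    simp only [α, u, hAdef, m]
    rw [wvec_cycle hS θ _ (b a) (b d)]
  set τ := fun z : ℕ × ℕ => ∑ a, ∑ d, G z.1 z.2 a d * ⟪wvec t μ θ (b a) (b d), u z.1 z.2⟫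
  have hNτ : N = (L : ℝ)⁻¹ * ∑ z ∈ Finset.range L ×ˢ Finset.range p, τ z := by
    calc N = ∑ a, ∑ d, X a d * ((L : ℝ)⁻¹ * ∑ z ∈ Finset.range L ×ˢ Finset.range p,
          α z.1 z.2 a * ⟪wvec t μ θ (b a) (b d), u z.1 z.2⟫) :=
          Finset.sum_congr rfl fun a _ => Finset.sum_congr rfl fun d _ => by rw [← hX, sq]
      _ = _ := by
          simp only [τ, G, Finset.mul_sum]
          rw [Finset.sum_congr rfl fun a _ => Finset.sum_comm, Finset.sum_comm]
          exact Finset.sum_congr rfl fun z _ => Finset.sum_congr rfl fun a _ =>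
            Finset.sum_congr rfl fun d _ => by ring
  set P₁ := fun z : ℕ × ℕ => ∑ c, m z.1 * (l c * ((l c + m z.1)⁻¹) ^ 2) * ⟪b c, v⟫ ^ 2
  set P₂ := fun z : ℕ × ℕ => Q / t * ∑ a, ∑ d, m z.1 * (l a * ((l a + m z.1)⁻¹) ^ 2) * X a d ^ 2
  have hterm : ∀ z, τ z ^ 2 ≤ P₁ z * P₂ z := fun z => by
    obtain ⟨k, i⟩ := z
    have hk := hm k
    refine (third_basis hS θ hQ he (G k i) (u k i)).trans ?_
    have hu : aent t μ θ (u k i) (u k i) ≤ ∑ c, l c * ((l c + m k)⁻¹) ^ 2 * ⟪b c, v⟫ ^ 2 := by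
      rw [← inner_Aop hS θ, ← hAdef, quad_eigen he]
      refine Finset.sum_le_sum fun c _ => ?_
      simp only [hudef]
      rw [inv_inner he hl0 hk, sv_pow_inner he hl0 hk,
        show l c * ((l c + m k)⁻¹ * ((l c / (l c + m k)) ^ i * ⟪b c, v⟫)) ^ 2 =
          (l c * ((l c + m k)⁻¹) ^ 2 * ⟪b c, v⟫ ^ 2) * ((l c / (l c + m k)) ^ i) ^ 2 by ring]
      have := hl0 c
      exact mul_le_of_le_one_right (by positivity)
        (pow_le_one₀ (by positivity) (pow_le_one₀ (by positivity) (div_le_one_of_le₀ (by linarith) (by positivity))))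
    have hg : ∑ a, ∑ d, l a * l d * G k i a d ^ 2 ≤
        1 / t * (m k * ∑ a, ∑ d, m k * (l a * ((l a + m k)⁻¹) ^ 2) * X a d ^ 2) := by
      simp only [Finset.mul_sum]
      refine Finset.sum_le_sum fun a _ => Finset.sum_le_sum fun d _ => ?_
      have := hl0 a
      rw [show l a * l d * G k i a d ^ 2 = l d * ((m k * (m k * (l a * ((l a + m k)⁻¹) ^ 2) * X a d ^ 2)) *
        ((l a / (l a + m k)) ^ (p.pred - i)) ^ 2) by simp only [G, α]; ring]
      refine mul_le_mul (hlt d) ?_ (by positivity) (by positivity)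
      exact mul_le_of_le_one_right (by positivity)
        (pow_le_one₀ (by positivity) (pow_le_one₀ (by positivity) (div_le_one_of_le₀ (by linarith) (by positivity))))
    refine (mul_le_mul hu (mul_le_mul_of_nonneg_left hg hQ0)
      (mul_nonneg hQ0 (Finset.sum_nonneg fun a _ => Finset.sum_nonneg fun d _ => by
        have := hl0 a; have := hl0 d; positivity))
      (Finset.sum_nonneg fun c _ => by have := hl0 c; positivity)).trans (le_of_eq ?_)
    simp only [P₁, P₂, mul_assoc (m k), ← Finset.mul_sum]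
    ring
  have hP₁ : ∑ z ∈ Finset.range L ×ˢ Finset.range p, P₁ z ≤ p * (2 * ‖v‖ ^ 2) := by
    rw [Finset.sum_product]
    simp only [P₁, Finset.sum_const, Finset.card_range, nsmul_eq_mul, ← Finset.mul_sum]
    refine mul_le_mul_of_nonneg_left ?_ (Nat.cast_nonneg p)
    rw [Finset.sum_comm, norm_sq_eq_sum b, Finset.mul_sum]
    refine Finset.sum_le_sum fun c _ => ?_
    rw [← Finset.sum_mul]
    exact mul_le_mul_of_nonneg_right (sum_dyadic_le (hl0 c) hM L) (sq_nonneg _)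
  have hP₂ : ∑ z ∈ Finset.range L ×ˢ Finset.range p, P₂ z ≤ p * (Q / t * (2 * N)) := by
    rw [Finset.sum_product]
    simp only [P₂, Finset.sum_const, Finset.card_range, nsmul_eq_mul, ← Finset.mul_sum]
    refine mul_le_mul_of_nonneg_left (mul_le_mul_of_nonneg_left ?_ (by positivity)) (Nat.cast_nonneg p)
    rw [Finset.sum_comm, hN, Finset.mul_sum]
    refine Finset.sum_le_sum fun a _ => ?_
    rw [← Finset.sum_mul]
    exact mul_le_mul_of_nonneg_right (sum_dyadic_le (hl0 a) hM L) (Finset.sum_nonneg fun d _ => sq_nonneg _)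
  have hN0 : 0 ≤ N := Finset.sum_nonneg fun a _ => Finset.sum_nonneg fun d _ => sq_nonneg _
  have hQt : 0 ≤ Q / t := div_nonneg hQ0 ht.le
  have hsq : N ^ 2 ≤ 4 * p ^ 2 * Q / (t * L ^ 2) * ‖v‖ ^ 2 * N := by
    have hcs := Finset.sum_sq_le_sum_mul_sum_of_sq_le_mul (Finset.range L ×ˢ Finset.range p) (r := τ) (f := P₁) (g := P₂)
      (fun z _ => Finset.sum_nonneg fun c _ => by have := hm z.1; have := hl0 c; positivity)
      (fun z _ => mul_nonneg hQt (Finset.sum_nonneg fun a _ => Finset.sum_nonneg fun d _ => by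
        have := hm z.1; have := hl0 a; positivity)) fun z _ => hterm z
    rw [hNτ, mul_pow]
    refine (mul_le_mul_of_nonneg_left (hcs.trans (mul_le_mul hP₁ hP₂ (Finset.sum_nonneg fun z _ =>
      mul_nonneg hQt (Finset.sum_nonneg fun a _ => Finset.sum_nonneg fun d _ => by
        have := hm z.1; have := hl0 a; positivity)) (by positivity))) (sq_nonneg _)).trans (le_of_eq ?_)
    rw [← hNτ]
    ring
  rw [hNT]
  rcases hN0.eq_or_lt with h0 | h0
  · rw [← h0]; positivity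
  exact le_of_mul_le_mul_right ((le_of_eq (sq N).symm).trans hsq) h0

end ResAux

open ResAux in
/-- **The derivative of the cutoff.** -/
theorem res : ResStmt := by
  refine ⟨4, by norm_num, fun n p L M μ hp R hR hS hμ Q t _ _ hM hQ ht hQV => ?_⟩
  set F' : Euc n → Euc n →L[ℝ] Op n := fun θ =>
    ∑ a, (innerSL ℝ (stdb n a)).smulRight (dF p L M (Aop t μ θ) (dA t μ θ (stdb n a)))
  have key : ∀ θ, HasFDerivAt (Ff p L M t μ) (F' θ) θ ∧ ∀ h, F' θ h = dF p L M (Aop t μ θ) (dA t μ θ h) := fun θ => by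
    obtain ⟨F, hF, hFe⟩ := hasFDerivAt_Ff (t := t) hS p L hM θ
    have e : F' θ = F := ContinuousLinearMap.coe_injective ((stdb n).toBasis.ext fun a => by
      simp [F', hFe, (stdb n).inner_eq_ite, ite_smul])
    exact ⟨e ▸ hF, fun h => by rw [e, hFe]⟩
  refine ⟨F', fun θ => (key θ).1, ?_, fun θ h => ?_, fun θ v => ?_⟩
  · exact continuous_clm_apply.2 fun h => by simpa only [(key _).2] using continuous_dF hS p L hM h
  · rw [(key θ).2 h]
    exact frob_dF_le hS hR hμ p L hM hQ ht θ (hQV θ) h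
  · exact sum_dF_le hS hR hμ p L hM hQ ht θ (hQV θ) v (key θ).2

end Vale.Agent.P245N
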