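import Vale.Agent.P245N.Tail.Drift
import Vale.Agent.P245N.Spec

/-!
The fibre covariance stays bounded up to time `c / log² n`, with exponentially small exceptional probability:
`t ↦ E exp (-λ φ_t)` is almost a supermartingale for `φ = (1 + tr A^2m)^(-1/4m)`.
-/

open MeasureTheory Real Filter Set
open scoped Topology RealInnerProductSpace

namespace Vale.Agent.P245N.Tail

open Vale.Agent.P245

variable {n : ℕ}

section

variable {μ : Measure (Euc n)} [IsProbabilityMeasure μ] {R : ℝ}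

lemma emom_block (hS : Supp μ R) (hR : 0 ≤ R) (hμ : IsLC 0 μ) (i : ℕ) {t lam : ℝ} (ht : 0 < t) (hlam : 0 < lam) :
    emom lam (2 * t) μ (i + 2) ≤ exp (290 * ((i : ℝ) + 2) * √t * lam + 11250 * lam ^ 2 * t) * emom lam t μ (i + 2) := by
  set m := (i : ℝ) + 2 with hm
  have hm0 : 0 < m := by rw [hm]; positivity
  have hst : 0 < √t := Real.sqrt_pos.2 ht
  set A := 2 * kerr n R i * (3 / √t + 2) + 20 * exp lam * lam ^ 3 * 75 ^ 4 with hA
  have hA0 : 0 ≤ A := by have := kerr_nonneg n R i; positivity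
  set B := 288 * m ^ 2 * √(4 * R ^ 2 / t) with hB
  have hB0 : 0 ≤ B := by positivity
  set η₀ := min (min 1 t) (min (m / √t / (A + 1)) (1 / (2 * (B + 1)))) with hη₀
  have hη₀0 : 0 < η₀ := by positivity
  obtain ⟨N, hN⟩ := exists_nat_ge (t / η₀ ^ 4)
  have hN0 : (0 : ℝ) < N := lt_of_lt_of_le (by positivity) hN
  set η := √√(t / N) with hηdef
  have htN : 0 < t / N := by positivity
  have hη : 0 < η := Real.sqrt_pos.2 (Real.sqrt_pos.2 htN)
  have hη4 : η ^ 4 = t / N := by
    rw [show η ^ 4 = (η ^ 2) ^ 2 by ring, hηdef, Real.sq_sqrt (Real.sqrt_nonneg _), Real.sq_sqrt htN.le]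
  have hηle : η ≤ η₀ := by
    refine (pow_le_pow_iff_left₀ hη.le hη₀0.le (by norm_num : 4 ≠ 0)).1 ?_
    rw [hη4, div_le_iff₀ hN0]
    rw [div_le_iff₀ (by positivity)] at hN
    linarith
  have hη1 : η ≤ 1 := hηle.trans ((min_le_left _ _).trans (min_le_left _ _))
  have hσle : η ^ 4 ≤ η := pow_le_of_le_one hη.le hη1 (by norm_num)
  have hσt : η ^ 4 ≤ t := hσle.trans (hηle.trans ((min_le_left _ _).trans (min_le_right _ _)))
  have hAη : A * η ≤ m / √t := by
    have h1 : η ≤ m / √t / (A + 1) := hηle.trans ((min_le_right _ _).trans (min_le_left _ _))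
    rw [le_div_iff₀ (by positivity)] at h1
    linarith
  have hBη : B * η ^ 4 ≤ 1 / 2 := by
    have h1 : η ^ 4 ≤ 1 / (2 * (B + 1)) := hσle.trans (hηle.trans ((min_le_right _ _).trans (min_le_right _ _)))
    rw [le_div_iff₀ (by positivity)] at h1
    linarith [pow_pos hη 4]
  set r := lam * (290 * m / √t) + 11250 * lam ^ 2 with hr
  have main : ∀ k : ℕ, emom lam (t + k * η ^ 4) μ (i + 2) ≤ exp (k * η ^ 4 * r) * emom lam t μ (i + 2) := by
    intro k
    induction k with
    | zero => simp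
    | succ k ih =>
      set s := t + k * η ^ 4 with hs
      have hts : t ≤ s := le_add_of_nonneg_right (by positivity)
      have hs0 : 0 < s := ht.trans_le hts
      have h := emom_step hS hR hμ i (lam := lam) hs0 hlam.le hη hη1 (hσt.trans hts) (by
        refine le_trans ?_ hBη
        refine mul_le_mul_of_nonneg_right (mul_le_mul_of_nonneg_left ?_ (by positivity)) (by positivity)
        exact Real.sqrt_le_sqrt (div_le_div_of_nonneg_left (by positivity) ht hts))
      rw [← hm] at h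
      have hsq : √t ≤ √s := Real.sqrt_le_sqrt hts
      have hk := kerr_nonneg n R i
      have h2 : lam * (288 * m / √s + 2 * kerr n R i * (3 / √s + 2) * η) + 11250 * lam ^ 2
          + 20 * exp lam * lam ^ 4 * 75 ^ 4 * η ≤ r := by
        have h3 := mul_le_mul_of_nonneg_left (div_le_div_of_nonneg_left (by positivity : 0 ≤ 288 * m) hst hsq) hlam.le
        have h4 : lam * (2 * kerr n R i * (3 / √s + 2) * η) ≤ lam * (2 * kerr n R i * (3 / √t + 2) * η) :=
          mul_le_mul_of_nonneg_left (mul_le_mul_of_nonneg_right (mul_le_mul_of_nonneg_left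
            (add_le_add (div_le_div_of_nonneg_left (by norm_num) hst hsq) le_rfl) (by positivity)) hη.le) hlam.le
        have h5 := mul_le_mul_of_nonneg_left hAη hlam.le
        have e : 290 * m / √t = 288 * m / √t + 2 * (m / √t) := by ring
        have : 0 ≤ lam * (m / √t) := by positivity
        rw [hr, e]
        rw [hA] at h5
        linarith
      have e : t + ((k + 1 : ℕ) : ℝ) * η ^ 4 = s + η ^ 4 := by rw [hs]; push_cast; ring
      rw [e, show ((k + 1 : ℕ) : ℝ) * η ^ 4 * r = η ^ 4 * r + k * η ^ 4 * r by push_cast; ring, exp_add, mul_assoc]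
      exact h.trans (mul_le_mul (exp_le_exp.2 (mul_le_mul_of_nonneg_left h2 (by positivity))) ih
        (integral_nonneg fun x => integral_nonneg fun G => (exp_pos _).le) (exp_pos _).le)
  have h := main N
  have e : (N : ℝ) * η ^ 4 = t := by rw [hη4]; field_simp
  rw [e, show t + t = 2 * t by ring] at h
  refine h.trans (le_of_eq ?_)
  congr 2
  have e2 : t * (290 * m / √t) = 290 * m * √t := by
    rw [mul_div_assoc', div_eq_iff hst.ne', mul_assoc (290 * m), Real.mul_self_sqrt ht.le]; ring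
  rw [hr, mul_add, show t * (lam * (290 * m / √t)) = lam * (t * (290 * m / √t)) by ring, e2]
  ring

lemma emom_base (hS : Supp μ R) (hR : 0 < R) (hμ : IsLC 0 μ) (i : ℕ) {ε lam : ℝ} (hε : 0 < ε) (hlam : 0 < lam) :
    ∃ σ₀ : ℝ, 0 < σ₀ ∧ ∀ σ, 0 < σ → σ ≤ σ₀ → emom lam σ μ (i + 2) ≤ exp (-lam * (phi 0 μ (i + 2) 0 - ε)) := by
  set C := 864 * ((i : ℝ) + 2) ^ 2 * R ^ 2 + 4 * kerr n R i + 11250 * lam + 20 * exp lam * lam ^ 3 * 75 ^ 4 + 1 with hC
  have hk := kerr_nonneg n R i
  have hC1 : 1 ≤ C := le_add_of_nonneg_left (by positivity)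
  refine ⟨min (min 1 (1 / (3 * R ^ 2))) (min (ε / C) (1 / (2 * C))), by positivity, fun σ hσ hle => ?_⟩
  have h1 : σ ≤ 1 := hle.trans ((min_le_left _ _).trans (min_le_left _ _))
  have h3 : σ * (3 * R ^ 2) ≤ 1 := (le_div_iff₀ (by positivity)).1 (hle.trans ((min_le_left _ _).trans (min_le_right _ _)))
  have h4 : σ * C ≤ ε := (le_div_iff₀ (by linarith)).1 (hle.trans ((min_le_right _ _).trans (min_le_left _ _)))
  have h5 : σ * (2 * C) ≤ 1 := (le_div_iff₀ (by linarith)).1 (hle.trans ((min_le_right _ _).trans (min_le_right _ _)))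
  set c0 := 3 * R ^ 2 * σ ^ 2 + σ with hc0def
  have hc00 : 0 ≤ c0 := by positivity
  have hc0 : c0 ≤ 2 * σ := by nlinarith
  have hP : Poin (fib 0 μ 0) R (3 * R ^ 2) 0 := by
    rw [fib_zero]
    intro g g' M hg _ _
    rw [zero_mul, add_zero]; exact poincare_diam hS hR hμ hg
  have hV : ∀ (z u : Euc n) (δ : ℝ), 0 ≤ δ → (∀ v, aent (0 + σ) μ z v v ≤ aent 0 μ 0 v v + δ * ‖v‖ ^ 2) →
      sw (0 + σ) μ z u ^ 2 ≤ aent (0 + σ) μ z u u * (4 * (3 * R ^ 2 + 0 * √δ) * tw (0 + σ) μ z u + 0 * sw (0 + σ) μ z u) := by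
    intro z u δ _ _
    have := isProb_fib (T := 0 + σ) hS z
    have hP2 : Poin (fib (0 + σ) μ z) R (3 * R ^ 2) 0 := fun g g' M hg _ _ => by
      rw [zero_mul, add_zero]
      exact poincare_diam (supp_fib hS z) hR ((isLC_fib (T := 0 + σ) hS hμ z).weaken (by linarith)) hg
    simpa using sw_sq_le (t := 0 + σ) hS z u (le_refl 0) hP2
  have hm1 : (1 : ℝ) ≤ (i : ℝ) + 2 := by linarith [(i.cast_nonneg : (0 : ℝ) ≤ i)]
  have hC2 : 864 * ((i : ℝ) + 2) ^ 2 * R ^ 2 ≤ C := by
    have := exp_pos lam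
    have : 0 ≤ 20 * exp lam * lam ^ 3 * (75:ℝ) ^ 4 := by positivity
    rw [hC]; linarith
  have h := phi_step (t := 0) (θ₀ := (0 : Euc n)) hS hR.le hσ.le (by positivity) hP i (V₀ := 3 * R ^ 2) (S := 0) (η := 1)
    (by positivity) le_rfl one_pos hV (by
      have h6 := mul_le_mul_of_nonneg_left hc0 (by positivity : 0 ≤ 432 * ((i : ℝ) + 2) ^ 2 * R ^ 2)
      have h7 := mul_le_mul_of_nonneg_right hC2 hσ.le
      linarith)
  have hg := step_mgf (G := 75) hS hσ.le (by positivity : 0 ≤ 3 * R ^ 2) hlam.le hP (d1_phi hS (0 + σ) (i + 2))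
    (fun z => abs_phi_sub_le hS) fun z => norm_phigrad_le hS hμ (by linarith) (i + 1) z
  rw [integral_stp hS (0 : Euc n) (continuous_exp_phi hS lam _ _) (abs_exp_phi_le hlam.le _ _)] at hg
  simp only [fib_zero, zero_add] at hg h
  refine hg.trans (exp_le_exp.2 ?_)
  rw [← hc0def] at h ⊢
  have h8 : 144 * ((i : ℝ) + 2) * c0 * (3 * R ^ 2 * phi 0 μ (i + 2) 0) ≤ 144 * ((i : ℝ) + 2) ^ 2 * (2 * σ) * (3 * R ^ 2) :=
    mul_le_mul (mul_le_mul (by nlinarith) hc0 hc00 (by positivity)) (mul_le_of_le_one_right (by positivity) (phi_le_one _ _ _))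
      (mul_nonneg (by positivity) (phi_pos _ _ _).le) (by positivity)
  have h9 : kerr n R i * (0 * (1 + c0 / 1 ^ 3) + c0) * c0 ≤ kerr n R i * (4 * σ) := by
    rw [zero_mul, zero_add, mul_assoc]
    refine mul_le_mul_of_nonneg_left ?_ hk
    have := mul_le_mul hc0 (show c0 ≤ 2 by linarith) hc00 (by linarith)
    linarith
  have h10 := mul_le_mul_of_nonneg_left h hlam.le
  have h11 := mul_le_mul_of_nonneg_left hc0 (by positivity : 0 ≤ lam ^ 2 * (75:ℝ) ^ 2)
  have h12 : c0 ^ 2 ≤ 4 * σ := (pow_le_pow_left₀ hc00 hc0 2).trans (by nlinarith)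
  have h13 := mul_le_mul_of_nonneg_left h12 (by positivity : 0 ≤ 5 * exp lam * lam ^ 4 * (75:ℝ) ^ 4)
  have h14 := mul_le_mul_of_nonneg_left (add_le_add h8 h9) hlam.le
  have h15 := mul_le_mul_of_nonneg_left h4 hlam.le
  have : 0 ≤ lam * σ := by positivity
  rw [hC] at h15
  linarith

/-- Iteration over dyadic blocks. -/
lemma emom_le (hS : Supp μ R) (hR : 0 < R) (hμ : IsLC 0 μ) (i : ℕ) {T lam ε : ℝ} (hT : 0 < T) (hlam : 0 < lam)
    (hε : 0 < ε) :
    emom lam T μ (i + 2) ≤ exp (-lam * (phi 0 μ (i + 2) 0 - ε - 800 * ((i : ℝ) + 2) * √T) + 11250 * lam ^ 2 * T) := by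
  set m := (i : ℝ) + 2 with hm
  have hm0 : 0 < m := by rw [hm]; positivity
  have main : ∀ k : ℕ, ∀ T : ℝ, 0 < T →
      emom lam T μ (i + 2) ≤ exp (800 * m * √T * lam + 11250 * lam ^ 2 * T) * emom lam (T / 2 ^ k) μ (i + 2) := by
    intro k
    induction k with
    | zero =>
      intro T hT
      rw [pow_zero, div_one]
      refine le_mul_of_one_le_left (integral_nonneg fun x => integral_nonneg fun G => (exp_pos _).le) (one_le_exp ?_)
      positivity
    | succ k ih =>
      intro T hT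
      have h1 := ih (T / 2) (by positivity)
      have h2 := emom_block hS hR.le hμ i (t := T / 2) (by positivity) hlam
      rw [div_div, ← pow_succ'] at h1
      rw [mul_div_cancel₀ _ (two_ne_zero (α := ℝ)), ← hm] at h2
      refine h2.trans ((mul_le_mul_of_nonneg_left h1 (exp_pos _).le).trans ?_)
      rw [← mul_assoc, ← exp_add]
      refine mul_le_mul_of_nonneg_right (exp_le_exp.2 ?_) (integral_nonneg fun x => integral_nonneg fun G => (exp_pos _).le)
      have hs : √(T / 2) ≤ 71 / 100 * √T := by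
        rw [Real.sqrt_le_iff]
        refine ⟨by positivity, ?_⟩
        rw [mul_pow, Real.sq_sqrt hT.le]; linarith
      have := mul_le_mul_of_nonneg_left hs (by positivity : 0 ≤ 1090 * m * lam)
      have : 0 ≤ m * √T * lam := by positivity
      linarith
  obtain ⟨σ₀, hσ₀, hb⟩ := emom_base hS hR hμ i hε hlam
  obtain ⟨k, hk⟩ := pow_unbounded_of_one_lt (T / σ₀) (by norm_num : (1 : ℝ) < 2)
  have h1 := hb (T / 2 ^ k) (by positivity) (by
    rw [div_le_iff₀ (by positivity)]
    rw [div_lt_iff₀ hσ₀] at hk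
    linarith)
  refine (main k T hT).trans ((mul_le_mul_of_nonneg_left h1 (exp_pos _).le).trans (le_of_eq ?_))
  rw [← exp_add]; congr 1; ring

lemma phi_zero_ge (hS : Supp μ R) (hcov : ∀ v, aent 0 μ 0 v v ≤ 2 * ‖v‖ ^ 2) {m : ℕ} (hm1 : 1 ≤ m)
    (hm : log ((n : ℝ) + 1) ≤ m) : 1 / 2 ≤ phi 0 μ m 0 := by
  have hW : strace 0 μ m 0 ≤ n * 2 ^ (2 * m) := by
    obtain ⟨f, l, he⟩ := (symOp_Aop (t := 0) hS (0 : Euc n)).exists_eigen
    rw [strace, frob_pow he]
    refine (Finset.sum_le_sum fun k _ => ?_).trans (le_of_eq (by simp : ∑ _k : Fin n, (2 : ℝ) ^ (2 * m) = n * 2 ^ (2 * m)))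
    refine pow_le_pow_left₀ (eig_Aop_nonneg hS 0 he k) ?_ _
    have e : aent 0 μ 0 (f k) (f k) = l k := by
      rw [← inner_Aop hS, he, inner_smul_right, real_inner_self_eq_norm_sq, f.orthonormal.1 k]; simp
    have := hcov (f k)
    rw [e, f.orthonormal.1 k, one_pow, mul_one] at this
    exact this
  have h0 := strace_nonneg (μ := μ) 0 m (0 : Euc n)
  have hp : (1 : ℝ) ≤ 2 ^ (2 * m) := one_le_pow₀ one_le_two
  have hlog : log (1 + strace 0 μ m 0) ≤ m + 2 * m * log 2 := by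
    refine (log_le_log (by linarith) (show 1 + strace 0 μ m 0 ≤ ((n : ℝ) + 1) * 2 ^ (2 * m) by linarith)).trans ?_
    rw [log_mul (by positivity) (by positivity), log_pow]
    push_cast
    linarith
  rw [phi, rpow_def_of_pos (by linarith)]
  calc (1 / 2 : ℝ) = exp (-log 2) := by rw [exp_neg, exp_log (by norm_num)]; norm_num
    _ ≤ _ := exp_le_exp.2 (by
      have hm0 : (0 : ℝ) < m := by exact_mod_cast hm1
      have h1 := mul_le_mul_of_nonneg_right hlog (by positivity : (0 : ℝ) ≤ 1 / (4 * (m : ℝ)))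
      have e : ((m : ℝ) + 2 * m * log 2) * (1 / (4 * (m : ℝ))) = 1 / 4 + log 2 / 2 := by field_simp; ring
      have := log_two_gt_d9
      linarith)

lemma log_two_le (n : ℕ) : log 2 ≤ log ((n : ℝ) + 2) := log_le_log two_pos (by linarith [(n.cast_nonneg : (0:ℝ) ≤ n)])

lemma big_le_exp (hS : Supp μ R) (t : ℝ) {m : ℕ} (hm : 1 ≤ m) {lam : ℝ} (hlam : 0 ≤ lam) (θ : Euc n) :
    big 64 (Aop t μ θ) ≤ exp (lam / 8) * exp (-lam * phi t μ m θ) + 0 := by
  rw [add_zero, ← exp_add, big]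
  refine max_le (exp_pos _).le ?_
  rcases le_or_gt ‖Aop t μ θ‖ 64 with h | h
  · exact (min_le_right _ _).trans (by linarith [exp_pos (lam / 8 + -lam * phi t μ m θ)])
  · refine (min_le_left _ _).trans (one_le_exp ?_)
    have h8 : 8 ≤ √‖Aop t μ θ‖ := by
      rw [show (8 : ℝ) = √64 by rw [show (64 : ℝ) = 8 ^ 2 by norm_num, Real.sqrt_sq (by norm_num : (0:ℝ) ≤ 8)]]
      exact Real.sqrt_le_sqrt h.le
    have h1 := sqrt_norm_mul_phi_le hS t hm θ
    have h2 := mul_le_mul_of_nonneg_right h8 (phi_pos (μ := μ) t m θ).le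
    have : 0 ≤ lam * (1 / 8 - phi t μ m θ) := mul_nonneg hlam (by linarith)
    linarith

lemma continuous_big (hS : Supp μ R) (C t : ℝ) : Continuous fun θ : Euc n => big C (Aop t μ θ) := by
  unfold big
  exact continuous_const.max (continuous_const.min ((continuous_Aop hS).norm.sub continuous_const))

lemma abs_big_le (C : ℝ) (A : Op n) : |big C A| ≤ 1 := by
  rw [big, abs_of_nonneg (le_max_left _ _)]
  exact max_le zero_le_one (min_le_left _ _)

end

end Vale.Agent.P245N.Tail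

namespace Vale.Agent.P245N

open Vale.Agent.P245 Tail

/-- The fibre covariance stays bounded up to time `c / log² n`. -/
theorem tail : TailStmt := by
  refine ⟨64, 1 / 10 ^ 12, by norm_num, by norm_num, by norm_num, ?_⟩
  intro n μ _ R _ hS hμ hcov t ht htle
  have hS1 : Supp μ (max R 1) := hS.mono fun x hx => hx.trans (le_max_left _ _)
  set i := ⌈log ((n : ℝ) + 1)⌉₊ with hi
  have hl2 := log_two_le n
  have hl0 := log_two_gt_d9
  set L := log ((n : ℝ) + 2) with hL
  have hlpos : 0 ≤ log ((n : ℝ) + 1) := log_nonneg (by linarith [(n.cast_nonneg : (0:ℝ) ≤ n)])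
  have hi1 : log ((n : ℝ) + 1) ≤ ((i + 2 : ℕ) : ℝ) := by push_cast; linarith [Nat.le_ceil (log ((n : ℝ) + 1))]
  have hi2 : (i : ℝ) + 2 ≤ 6 * L := by
    have h1 := Nat.ceil_lt_add_one hlpos
    have h2 : log ((n : ℝ) + 1) ≤ L := log_le_log (by positivity) (by linarith)
    rw [← hi] at h1
    linarith
  have hst : √t * L ≤ 1 / 10 ^ 6 := by
    have h1 : t * L ^ 2 ≤ 1 / 10 ^ 12 := (le_div_iff₀ (by nlinarith)).1 htle
    have h2 := Real.sqrt_le_sqrt h1
    rw [Real.sqrt_mul ht.le, Real.sqrt_sq (by linarith), show (1 : ℝ) / 10 ^ 12 = (1 / 10 ^ 6) ^ 2 by norm_num,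
      Real.sqrt_sq (by positivity)] at h2
    exact h2
  set lam := 1 / (90000 * t) with hlamdef
  have hlam : 0 < lam := by positivity
  have h0 := phi_zero_ge hS1 hcov (m := i + 2) (by omega) hi1
  have hm := emom_le hS1 (by positivity : 0 < max R 1) hμ i ht hlam (by norm_num : (0:ℝ) < 1 / 32)
  have h1 := elaw_mono (t := t) hS1 (h₂ := fun θ => exp (lam / 8) * exp (-lam * phi t μ (i + 2) θ) + 0) (continuous_big hS1 64 t)
    (((continuous_exp_phi hS1 lam t (i + 2)).const_mul (exp (lam / 8))).add continuous_const)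
    (B₁ := 1) (B₂ := exp (lam / 8)) (fun θ => abs_big_le _ _) (fun θ => by
      rw [add_zero, abs_mul, abs_of_pos (exp_pos _)]
      exact mul_le_of_le_one_right (exp_pos _).le (abs_exp_phi_le hlam.le _ _ _))
    fun θ => big_le_exp hS1 t (by omega) hlam.le θ
  rw [elaw_affine hS1 (continuous_exp_phi hS1 lam t _) (abs_exp_phi_le hlam.le _ _), add_zero] at h1
  refine h1.trans ((mul_le_mul_of_nonneg_left hm (exp_pos _).le).trans ?_)
  rw [← exp_add, exp_le_exp]
  have h2 : 800 * ((i : ℝ) + 2) * √t ≤ 1 / 100 := by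
    have := mul_le_mul_of_nonneg_left hi2 (Real.sqrt_nonneg t)
    linarith
  have h3 := mul_le_mul_of_nonneg_left (show 1 / 2 - 1 / 32 - 1 / 100 ≤ phi 0 μ (i + 2) 0 - 1 / 32
    - 800 * ((i : ℝ) + 2) * √t by linarith) hlam.le
  have h4 : 11250 * lam ^ 2 * t = lam / 8 := by rw [hlamdef]; field_simp; ring
  have h5 : -(1 / 10 ^ 12) / t = -(lam * (90000 / 10 ^ 12)) := by rw [hlamdef]; field_simp
  rw [h4, h5]
  linarith

end Vale.Agent.P245N
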