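import Vale.Agent.P245.Quarter
import Vale.Agent.P245N.Spec

/-!
A defective logarithmic Sobolev inequality and a Poincaré inequality give a tight one.
-/

open MeasureTheory Real Filter Set
open scoped Topology RealInnerProductSpace

namespace Vale.Agent.P245N

open Vale.Agent.P245

/-- Tightening by centring and the entropy shift. -/
theorem tighten : TightenStmt := by
  intro n μ hprob R hR hS K CP hK hCP hdef hP
  have hsq : ∀ {v : Euc n → ℝ} {v' : Euc n → Euc n}, D1 v v' →
      ent μ (fun x => v x ^ 2) ≤ 4 * K * (∫ x, ‖v' x‖ ^ 2 ∂μ) + ∫ x, v x ^ 2 ∂μ := fun {v v'} hv => by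
    refine ent_le_of_perturb (h := fun x => v x ^ 2) hS (hv.cont.pow 2) (B := 1) fun δ hδ => ?_
    have hp := pos1_sq_add hv hδ
    have h2 : ∫ x, fis (fun x => v x ^ 2 + δ) (fun x => (2 * v x) • v' x) x ∂μ ≤ 4 * ∫ x, ‖v' x‖ ^ 2 ∂μ := by
      rw [← integral_const_mul]
      exact integral_mono (hS.integrable hp.cont_fis) ((hS.integrable (hv.cont'.norm.pow 2)).const_mul _)
        fun x => fis_sq_le hδ x
    have h3 : ∫ x, (v x ^ 2 + δ) ∂μ = (∫ x, v x ^ 2 ∂μ) + δ := by
      rw [integral_add (f := fun x => v x ^ 2) (hS.integrable (hv.cont.pow 2)) (integrable_const δ)]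
      simp
    linarith [hdef _ _ hp, mul_le_mul_of_nonneg_left h2 hK]
  have hlsi : ∀ {f : Euc n → ℝ} {f' : Euc n → Euc n}, D1 f f' →
      ent μ (fun x => f x ^ 2) ≤ (16 * K + 84 * CP) * ∫ x, ‖f' x‖ ^ 2 ∂μ := fun {f f'} hf => by
    set m := ∫ y, f y ∂μ
    have hvd : D1 (fun x => f x - m) f' := ⟨fun x => (hf.deriv x).sub_const m, hf.cont'⟩
    have hD : 0 ≤ ∫ x, ‖f' x‖ ^ 2 ∂μ := integral_nonneg fun x => sq_nonneg _
    rw [show (fun x => f x ^ 2) = fun x => (m + (f x - m)) ^ 2 from funext fun x => by ring_nf]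
    refine ent_centre hS hvd.cont m (by positivity) ?_
    linarith [hsq hvd, hP f f' hf]
  have := fisi_of_lsi hS hlsi
  rwa [show (16 * K + 84 * CP) / 4 = 4 * K + 21 * CP by ring] at this

end Vale.Agent.P245N
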