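import Vale.Agent.P245N.CoreEps
import Vale.Agent.P245N.HopfLax
import Vale.Agent.P245N.Tighten
import Vale.Agent.P245N.LichnGlue
import Vale.Agent.P245N.Tail
import Vale.Agent.P245N.PoinMain
import Vale.Agent.P245N.QVar
import Vale.Agent.P245N.Info
import Vale.Agent.P245N.Pigeon
import Vale.Agent.P245N.Cut
import Vale.Agent.P245N.Res
import Vale.Agent.P245N.Grad
import Vale.Agent.P245N.CountE
import Vale.Agent.P245N.PtLsi
import Vale.Agent.P245N.Channel
import Vale.Agent.P245N.Pairing
import Vale.Agent.P245N.Reduce

/-! All modules combined. -/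

namespace Vale.Agent.P245N

/-- The bootstrap conclusion, without hypotheses. -/
theorem coreEps_holds : CoreEpsStmt :=
  coreEps hopfLax tighten tail (poinMain lichn tail) (qvar lichn tail) info_facts pigeon cut res (grad res cut)
    count (channel ptLsi) pairing

end Vale.Agent.P245N
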