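import Vale.Agent.P245N.MainStretched
import Vale.Agent.P245N.Main

/-! All modules combined: the bound `C exp (B (log n)^(3/4)) a²`. -/

open MeasureTheory Real Filter Set
open scoped Topology RealInnerProductSpace

namespace Vale.Agent.P245N

open Vale.Agent.P245

/-- The bootstrap descends to the stretched exponential scale. -/
theorem fisi_stretched : ∃ B : ℝ, 0 < B ∧ ∀ᶠ n : ℕ in atTop, ∀ (μ : Measure (Euc n)) (R : ℝ),
    IsProbabilityMeasure μ → Setup μ R → Fisi μ (sx B n) := by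
  obtain ⟨κ, η, Cq, Ct, ct, cp, hκ, hη, hCq, hCt, hct, hcp, hstep⟩ := halve_param hopfLax tighten tail
    (poinMain lichn tail) (qvar lichn tail) info_facts pigeon cut res (grad res cut) count (channel ptLsi) pairing
  obtain ⟨B, hB, hfeas⟩ := feasible_stretched hκ hη hCq hCt hct hcp
  obtain ⟨Cf, hCf, hq⟩ := fisi_quarter
  refine ⟨B, hB, ?_⟩
  filter_upwards [hfeas, hq, eventually_ge_atTop 1,
    tendsto_natCast_atTop_atTop.eventually (eventually_ge_atTop (1 / η))] with n hf hquart hn hnη μ R hprob hset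
  have hs : 0 < sx B n := exp_pos _
  set K₀ := Cf * (n : ℝ) ^ (1 / 4 : ℝ) with hK₀
  have key : ∀ j : ℕ, Fisi μ (max (sx B n) (K₀ / 2 ^ j)) := fun j => by
    induction j with
    | zero => exact fisi_mono (hquart μ R hprob hset) (by simp [hK₀])
    | succ j ih =>
      refine fisi_mono (hstep n μ R hprob hset hn hnη _ (hs.trans_le (le_max_left _ _)) ih (hf _ (le_max_left _ _))) ?_
      rw [div_le_iff₀ two_pos]
      refine max_le ?_ ?_
      · linarith [le_max_left (sx B n) (K₀ / 2 ^ (j + 1))]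
      · have e : K₀ / 2 ^ j = K₀ / 2 ^ (j + 1) * 2 := by rw [pow_succ]; field_simp
        rw [e]
        exact mul_le_mul_of_nonneg_right (le_max_right _ _) two_pos.le
  obtain ⟨j, hj⟩ := pow_unbounded_of_one_lt (K₀ / sx B n) (one_lt_two (α := ℝ))
  refine fisi_mono (key j) (le_of_eq (max_eq_left ?_))
  rw [div_lt_iff₀ hs] at hj
  rw [div_le_iff₀ (by positivity)]
  linarith

/-- Log-Sobolev constant of order `exp (B (log n)^(3/4)) a^2`. -/
theorem main_stretched : ∃ B C : ℝ, 0 < B ∧ 0 < C ∧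
    ∀ (n : ℕ) (μ : Measure (Euc n)), IsProbabilityMeasure μ →
    ∀ ρ : Euc n → ℝ, (∀ x, 0 ≤ ρ x) → ConcaveOn ℝ {x | 0 < ρ x} (fun x => log (ρ x)) →
    μ = volume.withDensity (fun x => ENNReal.ofReal (ρ x)) →
    ∀ a : ℝ, 0 < a → (∀ θ : Euc n, ‖θ‖ = 1 → ∫⁻ x, ENNReal.ofReal (exp (⟪x, θ⟫ ^ 2 / a ^ 2)) ∂μ ≤ 2) →
    ∀ f : Euc n → ℝ, ContDiff ℝ 1 f → HasCompactSupport f →
      ent μ (fun x => f x ^ 2) ≤ C * exp (B * log (n : ℝ) ^ (3 / 4 : ℝ)) * a ^ 2 * ∫ x, ‖fderiv ℝ f x‖ ^ 2 ∂μ := by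
  obtain ⟨B, hB, h⟩ := fisi_stretched
  obtain ⟨C, hC, h'⟩ := main_of_fun (N := sx B) (core_stretched hB h)
  exact ⟨B, C, hB, hC, h'⟩

end Vale.Agent.P245N
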