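import Vale.Agent.P245N.Param

/-! Parameters for the bound `exp (B (log n)^(3/4))`; throughout `x = (log n)^(1/4)`, `y = B x³`. -/

open MeasureTheory Real Filter Set
open scoped Topology RealInnerProductSpace

namespace Vale.Agent.P245N

open Vale.Agent.P245

/-- The stretched exponential scale `exp (B (log n)^(3/4))`. -/
noncomputable def sx (B : ℝ) (n : ℕ) : ℝ := exp (B * log (n : ℝ) ^ (3 / 4 : ℝ))

lemma log_shift_le {n : ℕ} (hn : (2 : ℝ) ≤ n) : log ((n : ℝ) + 2) ≤ 2 * log (n : ℝ) := by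
  rw [show 2 * log (n : ℝ) = log ((n : ℝ) ^ 2) by rw [log_pow]; norm_num]
  exact log_le_log (by linarith) (by nlinarith)

lemma num_pq {p L : ℕ} {B Cq η x y l : ℝ} (hB : 0 < B) (hη : 0 < η) (hCq : 0 < Cq) (hx : 0 < x) (hy : y = B * x ^ 3)
    (hp : (p : ℝ) ≤ 64 * x / B) (hL : y / 8 ≤ L) (hl0 : 0 ≤ l) (hl : l ≤ 2 * x ^ 4)
    (hB4 : 2 * Cq * (64 * 8) ^ 2 / η ≤ B ^ 4) : (p : ℝ) ^ 2 * (Cq * l) / (L : ℝ) ^ 2 ≤ η := by
  have hy0 : 0 < y := by rw [hy]; positivity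
  have a1 : (p : ℝ) ^ 2 * (Cq * l) ≤ (64 * x / B) ^ 2 * (Cq * (2 * x ^ 4)) :=
    mul_le_mul (pow_le_pow_left₀ (by positivity) hp 2) (mul_le_mul_of_nonneg_left hl hCq.le) (by positivity)
      (by positivity)
  refine (div_le_div₀ (by positivity) a1 (by positivity) (pow_le_pow_left₀ (by positivity) hL 2)).trans ?_
  have e : (64 * x / B) ^ 2 * (Cq * (2 * x ^ 4)) / (y / 8) ^ 2 = 2 * Cq * (64 * 8) ^ 2 / B ^ 4 := by
    rw [hy]; field_simp
  rw [e, div_le_iff₀ (by positivity)]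
  rw [div_le_iff₀ hη] at hB4
  linarith

lemma num_inv {m η e : ℝ} (hm : 0 < m) (hη : 0 < η) (hmη : 1 / η ≤ m) (he : e ≤ -(2 * log m)) : m * exp e ≤ η := by
  refine (mul_le_mul_of_nonneg_left (exp_le_exp.2 he) hm.le).trans ?_
  rw [two_mul, neg_add, exp_add, exp_neg, exp_log hm, ← mul_assoc, mul_inv_cancel₀ hm.ne', one_mul,
    inv_le_comm₀ hm hη, inv_eq_one_div]
  exact hmη

lemma num_count {p L : ℕ} {m η B x y Ct : ℝ} (hm : 0 < m) (hη : 0 < η) (hmη : 1 / η ≤ m) (hB : 0 < B) (hx : 0 < x)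
    (hy : y = B * x ^ 3) (hC : 0 < Ct) (hCy : log (Ct + 1) ≤ y / 32) (hL : y / 8 ≤ L) (hp : 32 * x / B ≤ p)
    (hxm : x ^ 4 = log m) : m * ((Ct + 1) / 2 ^ L) ^ (2 * p) ≤ η := by
  have hy0 : 0 < y := by rw [hy]; positivity
  have hlog2 : (1 : ℝ) / 2 ≤ log 2 := by linarith [one_sub_inv_le_log_of_pos (by norm_num : (0 : ℝ) < 2)]
  have a1 : (Ct + 1) / 2 ^ L ≤ exp (-(y / 32)) := by
    rw [← exp_log (by positivity : (0:ℝ) < (Ct + 1) / 2 ^ L), exp_le_exp, log_div (by positivity) (by positivity),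
      log_pow]
    have := mul_le_mul hL hlog2 (by norm_num) (by positivity)
    linarith
  refine (mul_le_mul_of_nonneg_left (pow_le_pow_left₀ (by positivity) a1 (2 * p)) hm.le).trans ?_
  rw [← exp_nat_mul]
  refine num_inv hm hη hmη ?_
  have h := mul_le_mul_of_nonneg_right hp (by positivity : 0 ≤ y / 16)
  have e : 32 * x / B * (y / 16) = 2 * x ^ 4 := by rw [hy]; field_simp; ring
  push_cast
  rw [hxm] at e
  linarith

lemma num_exp {m η κ ct x y K : ℝ} (hm : 0 < m) (hη : 0 < η) (hmη : 1 / η ≤ m) (hκ : 0 < κ) (hct : 0 < ct)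
    (hx1 : 1 ≤ x) (hy : 2 * x ^ 3 ≤ y) (hxc : 1 + κ / ct ≤ x) (hxm : x ^ 4 = log m) (hK : exp y ≤ K) :
    m * exp (-ct * K / κ) ≤ η := by
  refine num_inv hm hη hmη ?_
  have hy0 : 0 ≤ y := le_trans (by positivity) hy
  have a1 : ct * exp y / κ ≤ ct * K / κ := by gcongr
  have b1 : y ^ 2 / 2 ≤ exp y := by linarith [quadratic_le_exp_of_nonneg hy0]
  have b2 := pow_le_pow_left₀ (by positivity) hy 2
  have b3 : κ ≤ ct * x := by
    have := mul_le_mul_of_nonneg_left hxc hct.le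
    have e : ct * (κ / ct) = κ := by field_simp
    linarith
  have b4 := mul_le_mul_of_nonneg_left b3 (by positivity : (0:ℝ) ≤ 2 * x ^ 4)
  have b5 := mul_le_mul_of_nonneg_left (show (2 : ℝ) * x ^ 6 ≤ exp y by linarith) hct.le
  have b6 : (2 : ℝ) * x ^ 5 * ct ≤ 2 * x ^ 6 * ct := by
    refine mul_le_mul_of_nonneg_right ?_ hct.le
    have := mul_le_mul_of_nonneg_left hx1 (by positivity : (0:ℝ) ≤ 2 * x ^ 5)
    linarith
  have a2 : 2 * x ^ 4 ≤ ct * exp y / κ := by rw [le_div_iff₀ hκ]; linarith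
  rw [neg_mul, neg_div, ← hxm]
  linarith

lemma num_cut {p L : ℕ} {η κ B x y K : ℝ} (hη : 0 < η) (hκ : 0 < κ) (hB : 0 < B) (hx : 0 < x) (hp : (p : ℝ) ≤ 64 * x / B)
    (hxκ : κ / η * (64 / B) ≤ x) (hxy : x ^ 2 ≤ y / 2) (hL : (L : ℝ) ≤ y / 4) (hK : exp y ≤ K) :
    κ * (p : ℝ) * (2 ^ L * 2 ^ L) / K ≤ η := by
  have hy : 0 ≤ y := by linarith [sq_nonneg x]
  have a1 : (2 : ℝ) ^ L * 2 ^ L ≤ exp (y / 2) := by
    rw [← rpow_natCast, ← rpow_add two_pos, rpow_def_of_pos two_pos, exp_le_exp]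
    have hlog2 : log (2 : ℝ) ≤ 1 := by linarith [log_le_sub_one_of_pos (two_pos : (0 : ℝ) < 2)]
    have := mul_le_mul hlog2 hL (by positivity) zero_le_one
    linarith
  have a2 : κ * (p : ℝ) ≤ η * exp (y / 2) := by
    have b1 : κ * (p : ℝ) ≤ κ * (64 * x / B) := mul_le_mul_of_nonneg_left hp hκ.le
    have b2 := mul_le_mul_of_nonneg_right hxκ (mul_nonneg hη.le hx.le)
    have e : κ / η * (64 / B) * (η * x) = κ * (64 * x / B) := by field_simp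
    rw [e] at b2
    have b4 := mul_le_mul_of_nonneg_left (show x ^ 2 ≤ exp (y / 2) by linarith [add_one_le_exp (y / 2)]) hη.le
    linarith
  rw [div_le_iff₀ ((exp_pos y).trans_le hK)]
  have a3 := mul_le_mul a2 a1 (by positivity) (by positivity)
  have e : exp (y / 2) * exp (y / 2) = exp y := by rw [← exp_add]; ring_nf
  have a4 := mul_le_mul_of_nonneg_left hK hη.le
  rw [mul_assoc η, e] at a3
  linarith

lemma num_time {η κ c x y K l : ℝ} (hη : 0 < η) (hxη : 1 / η ≤ x) (hxκ : κ ≤ x) (hxy : x ≤ y / 2)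
    (hl0 : 0 ≤ l) (hl : l ≤ 2 * x ^ 4) (hc : x ^ 8 * exp (-x) ≤ c / 4) (hK : exp y ≤ K) :
    exp (-(y / 2)) ≤ η ∧ exp (-(y / 2)) * l ^ 2 ≤ c ∧ 1 / exp (-(y / 2)) ≤ K * exp (-(y / 2)) ∧
      κ / K ≤ exp (-(y / 2)) := by
  have hK0 : 0 < K := (exp_pos y).trans_le hK
  refine ⟨?_, ?_, ?_, ?_⟩
  · rw [exp_neg, inv_le_comm₀ (exp_pos _) hη, inv_eq_one_div]
    linarith [add_one_le_exp (y / 2)]
  · have a3 := mul_le_mul (exp_le_exp.2 (by linarith : -(y / 2) ≤ -x)) (pow_le_pow_left₀ hl0 hl 2) (sq_nonneg _)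
      (exp_pos _).le
    linarith
  · rw [exp_neg, one_div, inv_inv, ← div_eq_mul_inv, le_div_iff₀ (exp_pos _), ← exp_add]
    refine le_trans (le_of_eq ?_) hK
    ring_nf
  · rw [exp_neg, div_le_iff₀ hK0, inv_mul_eq_div, le_div_iff₀ (exp_pos _)]
    refine (mul_le_mul_of_nonneg_right (show κ ≤ exp (y / 2) by linarith [add_one_le_exp (y / 2)])
      (exp_pos _).le).trans (le_trans (le_of_eq ?_) hK)
    rw [← exp_add]; ring_nf

lemma feasible_stretched {κ η Cq Ct ct cp : ℝ} (hκ : 0 < κ) (hη : 0 < η) (hCq : 0 < Cq) (hCt : 0 < Ct)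
    (hct : 0 < ct) (hcp : 0 < cp) :
    ∃ B : ℝ, 0 < B ∧ ∀ᶠ n : ℕ in atTop, ∀ K : ℝ, sx B n ≤ K →
      ∃ (p L : ℕ) (T : ℝ), Feasible κ η Cq Ct ct cp n K p L T := by
  obtain ⟨B, hB, hB4⟩ : ∃ B : ℝ, 2 ≤ B ∧ 2 * Cq * (64 * 8) ^ 2 / η ≤ B ^ 4 := by
    refine ⟨2 * Cq * (64 * 8) ^ 2 / η + 2, le_add_of_nonneg_left (by positivity), ?_⟩
    exact le_trans (by linarith) (le_self_pow₀ (le_add_of_nonneg_of_le (by positivity) (by norm_num)) (by norm_num))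
  have hB0 : 0 < B := by linarith
  refine ⟨B, hB0, ?_⟩
  have hnr : Tendsto (fun n : ℕ => (n : ℝ)) atTop atTop := tendsto_natCast_atTop_atTop
  have hx : Tendsto (fun n : ℕ => log (n : ℝ) ^ (1 / 4 : ℝ)) atTop atTop :=
    (tendsto_rpow_atTop (by norm_num)).comp (tendsto_log_atTop.comp hnr)
  have e1 := hx.eventually (eventually_ge_atTop (8 + B + 1 / η + κ / η * (64 / B) + log (Ct + 1) + (1 + κ / ct) + κ))
  have e2 := ((tendsto_pow_mul_exp_neg_atTop_nhds_zero 8).comp hx).eventually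
    (eventually_le_nhds (show (0 : ℝ) < min cp ct / 4 by positivity))
  filter_upwards [e1, e2, hnr.eventually (eventually_ge_atTop (max 2 (1 / η)))] with n h1 h2 h3 K hK
  obtain ⟨hn2, hnη⟩ := max_le_iff.1 h3
  have hlog0 : 0 ≤ log (n : ℝ) := log_nonneg (by linarith)
  obtain ⟨x, hxdef⟩ : ∃ x, x = log (n : ℝ) ^ (1 / 4 : ℝ) := ⟨_, rfl⟩
  simp only [Function.comp, ← hxdef] at h1 h2
  have hx4 : x ^ (4 : ℕ) = log (n : ℝ) := by rw [hxdef, ← rpow_natCast, ← rpow_mul hlog0]; norm_num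
  have hx3 : x ^ (3 : ℕ) = log (n : ℝ) ^ (3 / 4 : ℝ) := by rw [hxdef, ← rpow_natCast, ← rpow_mul hlog0]; norm_num
  have p1 : 0 ≤ 1 / η := by positivity
  have p2 : 0 ≤ κ / η * (64 / B) := by positivity
  have p3 : 0 ≤ log (Ct + 1) := log_nonneg (by linarith)
  have p4 : 0 ≤ κ / ct := by positivity
  have hx8 : 8 ≤ x := by linarith
  have hx0 : 0 < x := by linarith
  have hl : log ((n : ℝ) + 2) ≤ 2 * x ^ 4 := by rw [hx4]; exact log_shift_le hn2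
  have hl0 : 0 ≤ log ((n : ℝ) + 2) := log_nonneg (by linarith)
  obtain ⟨y, hy⟩ : ∃ y, y = B * x ^ 3 := ⟨_, rfl⟩
  have hy3 : 2 * x ^ 3 ≤ y := by rw [hy]; exact mul_le_mul_of_nonneg_right hB (by positivity)
  have hx32 : 8 * x ^ 2 ≤ x ^ 3 := by have := mul_le_mul_of_nonneg_right hx8 (sq_nonneg x); linarith
  have hx21 : 8 * x ≤ x ^ 2 := by have := mul_le_mul_of_nonneg_right hx8 hx0.le; linarith
  have hKy : exp y ≤ K := by
    refine le_trans (le_of_eq ?_) hK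
    rw [hy, sx, hx3]
  have hLle : (⌊y / 4⌋₊ : ℝ) ≤ y / 4 := Nat.floor_le (by linarith)
  have hL8 : y / 8 ≤ (⌊y / 4⌋₊ : ℝ) := by linarith [Nat.lt_floor_add_one (y / 4)]
  have hp32 : 32 * x / B ≤ (⌈32 * x / B⌉₊ : ℝ) := Nat.le_ceil _
  have hp64 : (⌈32 * x / B⌉₊ : ℝ) ≤ 64 * x / B := by
    have h32 : 1 ≤ 32 * x / B := by rw [le_div_iff₀ hB0]; linarith
    have := (Nat.ceil_lt_add_one (by positivity : 0 ≤ 32 * x / B)).le
    have e : 64 * x / B = 32 * x / B + 32 * x / B := by ring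
    linarith
  have hm : (0 : ℝ) < n := by linarith
  obtain ⟨t1, t2, t3, t4⟩ := num_time (κ := κ) (c := min cp ct) hη (by linarith : 1 / η ≤ x) (by linarith)
    (by linarith : x ≤ y / 2) hl0 hl h2 hKy
  exact ⟨⌈32 * x / B⌉₊, ⌊y / 4⌋₊, exp (-(y / 2)), Nat.ceil_pos.2 (by positivity), Nat.le_floor (by push_cast; linarith),
    num_pq hB0 hη hCq hx0 hy hp64 hL8 hl0 hl hB4,
    num_count hm hη hnη hB0 hx0 hy hCt (by linarith) hL8 hp32 hx4,
    num_exp hm hη hnη hκ hct (by linarith) hy3 (by linarith) hx4 hKy,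
    num_cut hη hκ hB0 hx0 hp64 (by linarith) (by linarith) hLle hKy, exp_pos _, t1, t2, t3, t4⟩

end Vale.Agent.P245N
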