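import Vale.Agent.P245N.Reduce
import Vale.Agent.P245N.CoreEps
import Vale.Agent.P245N.Stretched

/-! From the bootstrap step to the bound `C exp (B (log n)^(3/4))` for all measures. -/

open MeasureTheory Real Filter Set
open scoped Topology ENNReal RealInnerProductSpace

namespace Vale.Agent.P245N

open Vale.Agent.P245

variable {n : ℕ}

lemma one_le_sx {B : ℝ} (hB : 0 < B) {n : ℕ} (hn : (1 : ℝ) ≤ n) : 1 ≤ sx B n :=
  one_le_exp (mul_nonneg hB.le (rpow_nonneg (log_nonneg hn) _))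

lemma sx_small {B : ℝ} (hB : 0 < B) (c : ℝ) (hc : 0 ≤ c) : ∀ᶠ n : ℕ in atTop, c * sx B n ≤ (n : ℝ) := by
  have hx : Tendsto (fun n : ℕ => log (n : ℝ) ^ (1 / 4 : ℝ)) atTop atTop :=
    (tendsto_rpow_atTop (by norm_num)).comp (tendsto_log_atTop.comp tendsto_natCast_atTop_atTop)
  filter_upwards [hx.eventually (eventually_ge_atTop (B + c + 1)), eventually_ge_atTop 1] with n h hn
  have hn1 : (1 : ℝ) ≤ n := by exact_mod_cast hn
  have hl := log_nonneg hn1
  set x := log (n : ℝ) ^ (1 / 4 : ℝ) with hxdef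
  have hx4 : x ^ (4 : ℕ) = log (n : ℝ) := by rw [hxdef, ← rpow_natCast, ← rpow_mul hl]; norm_num
  have hx3 : x ^ (3 : ℕ) = log (n : ℝ) ^ (3 / 4 : ℝ) := by rw [hxdef, ← rpow_natCast, ← rpow_mul hl]; norm_num
  have h1 : (1 : ℝ) ≤ x := by linarith
  have h3 : 1 ≤ x ^ 3 := one_le_pow₀ h1
  calc c * sx B n ≤ exp c * exp (B * x ^ 3) := by
        rw [sx, hx3]; exact mul_le_mul_of_nonneg_right (by linarith [add_one_le_exp c]) (exp_pos _).le
    _ ≤ exp (x ^ 4) := by
        rw [← exp_add, exp_le_exp]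
        have a := mul_le_mul_of_nonneg_right (show B + c ≤ x by linarith) (by linarith : (0:ℝ) ≤ x ^ 3)
        have b := mul_le_mul_of_nonneg_left h3 hc
        linarith
    _ = n := by rw [hx4, exp_log (by linarith)]

/-- Log-Sobolev inequality of order `exp (B (log n)^(3/4))` for compactly supported measures. -/
theorem core_stretched {B : ℝ} (hB : 0 < B)
    (hcore : ∀ᶠ n : ℕ in atTop, ∀ (μ : Measure (Euc n)) (R : ℝ), IsProbabilityMeasure μ → Setup μ R →
      Fisi μ (sx B n)) :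
    ∃ C : ℝ, 0 < C ∧ ∀ (n : ℕ), 1 ≤ n → ∀ (μ : Measure (Euc n)), IsProbabilityMeasure μ →
    ∀ R₁ : ℝ, 0 ≤ R₁ → Supp μ R₁ → IsLC 0 μ → (∀ v : Euc n, ‖v‖ = 1 → ∫ x, exp (⟪v, x⟫ ^ 2) ∂μ ≤ 11 / 5) →
    ∀ (f : Euc n → ℝ) (f' : Euc n → Euc n), D1 f f' →
      ent μ (fun x => f x ^ 2) ≤ C * sx B n * ∫ x, ‖f' x‖ ^ 2 ∂μ := by
  obtain ⟨c, hc0, hcut⟩ := exists_cutoff
  obtain ⟨Cq, hCq, hqev⟩ : ∃ Cq : ℝ, 0 < Cq ∧ ∀ᶠ n : ℕ in atTop, ∀ (μ : Measure (Euc n)) (R : ℝ),
      IsProbabilityMeasure μ → Setup μ R → Fisi μ (Cq * sx B n) :=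
    ⟨1, one_pos, hcore.mono fun n h μ R hp hs => fisi_mono (h μ R hp hs) (one_mul _).ge⟩
  obtain ⟨C₁, hC₁, hcube⟩ := core_lsi
  set A := 4 * Cq + 50 with hA
  obtain ⟨M, hM⟩ := eventually_atTop.1 (hqev.and (sx_small hB (A * c / 8) (show 0 ≤ A * c / 8 by positivity)))
  refine ⟨176 * A + C₁ * ((M : ℝ) + 1), by positivity, fun n hn μ hprob R₁ hR₁ hS hμ hsub f f' hf => ?_⟩
  have hn' : (1 : ℝ) ≤ n := by exact_mod_cast hn
  have hn0 : (0 : ℝ) < n := by linarith
  set N := sx B n with hN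
  have hN1 : 1 ≤ N := one_le_sx hB hn'
  have hD : 0 ≤ ∫ x, ‖f' x‖ ^ 2 ∂μ := integral_nonneg fun x => sq_nonneg _
  rcases lt_or_ge n M with hsmall | hbig
  · refine (hcube n hn μ hprob R₁ hR₁ hS hμ hsub f f' hf).trans (mul_le_mul_of_nonneg_right ?_ hD)
    have h1 : (n : ℝ) ^ (1 / 3 : ℝ) ≤ ((M : ℝ) + 1) * N := by
      have h2 : (n : ℝ) ^ (1 / 3 : ℝ) ≤ n := (rpow_le_rpow_of_exponent_le hn' (by norm_num)).trans (le_of_eq (rpow_one _))
      have h3 : (n : ℝ) ≤ (M : ℝ) + 1 := by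
        have : (n : ℝ) ≤ M := by exact_mod_cast hsmall.le
        linarith
      exact h2.trans (h3.trans (le_mul_of_one_le_right (by positivity) hN1))
    have h4 := mul_le_mul_of_nonneg_left h1 hC₁.le
    have h5 : 0 ≤ 176 * A * N := by positivity
    rw [add_mul]
    linarith
  obtain ⟨hq, hbig'⟩ := hM n hbig
  set R := 4 * √n with hR
  have hsn : 0 < √(n : ℝ) := Real.sqrt_pos.2 hn0
  have hR0 : 0 < R := by positivity
  have hR2 : R ^ 2 = 16 * n := by rw [hR, mul_pow, Real.sq_sqrt hn0.le]; norm_num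
  have hRn : 16 * n ≤ R ^ 2 := hR2.ge
  have hsub3 : Sub3 μ := fun v hv => (hsub v hv).trans (by norm_num)
  obtain ⟨χ, η, χ', η', hχ, hη, hsum, hχpos, hχ0, hin, hgrad, horth⟩ := hcut n R hR0
  set Bl := Metric.closedBall (0 : Euc n) (2 * R) with hBl
  set p := μ.real Bl with hp
  have hpge : 20 / 21 ≤ p := by
    have h1 := measure_compl_ball_le hS hsub3 hn (2 * R)
    rw [← le_div_iff₀' (exp_pos _), ← exp_sub] at h1
    have h2 : μ.real Blᶜ ≤ μ.real {x : Euc n | (2 * R) ^ 2 ≤ ‖x‖ ^ 2} := measureReal_mono fun x hx => by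
      simp only [hBl, mem_compl_iff, Metric.mem_closedBall, dist_zero_right, not_le] at hx
      exact pow_le_pow_left₀ (by positivity) hx.le 2
    have h3 := probReal_compl_eq_one_sub (μ := μ) (s := Bl) measurableSet_closedBall
    have h4 : exp (3 * (n : ℝ) - (2 * R) ^ 2 / 2) ≤ 1 / 21 := by
      rw [le_div_iff₀ (by norm_num)]
      have h5 : 3 * (n : ℝ) - (2 * R) ^ 2 / 2 ≤ -20 := by linarith
      have h6 := exp_le_exp.2 h5
      have h7 : exp (-20 : ℝ) * exp 20 = 1 := by rw [← exp_add]; simp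
      have h8 := mul_le_mul_of_nonneg_left (add_one_le_exp (20 : ℝ)) (exp_pos (-20 : ℝ)).le
      linarith
    linarith
  have hp0 : 0 < p := by linarith
  have hne : μ Bl ≠ 0 := fun h => by simp [hp, measureReal_def, h] at hp0
  set ν := onBall μ (2 * R) with hν
  have : IsProbabilityMeasure ν := isProb_onBall hne
  have hνS : Supp ν (2 * R) := supp_onBall μ _
  have hνsub : Sub3 ν := fun v hv => by
    have h1 := integral_onBall_le (μ := μ) (r := 2 * R) (F := fun x => exp (⟪v, x⟫ ^ 2)) (fun x => (exp_pos _).le)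
      (hS.integrable (by fun_prop)) hne
    change p * _ ≤ _ at h1
    have h2 := h1.trans (hsub v hv)
    have h3 : 0 ≤ ∫ x, exp (⟪v, x⟫ ^ 2) ∂ν := integral_nonneg fun x => (exp_pos _).le
    nlinarith [mul_le_mul_of_nonneg_right hpge h3]
  have hF : Fisi ν (Cq * N) := hq ν (2 * R) inferInstance ⟨hn, by rw [hR]; ring, hνS, hμ.onBall hne, hνsub⟩
  have hlsi : ∀ {g : Euc n → ℝ} {g' : Euc n → Euc n}, D1 g g' →
      ent ν (fun x => g x ^ 2) ≤ 4 * (Cq * N) * ∫ x, ‖g' x‖ ^ 2 ∂ν := fun {g g'} hg =>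
    lsi_of_fisi (by positivity) hνS hF hg
  have hKK' : 4 * (Cq * N) + 50 ≤ A * N := by rw [hA]; linarith
  have hcK : A * N * (c / R ^ 2) ≤ 1 / 2 := by
    rw [hR2, ← mul_div_assoc, div_le_iff₀ (by positivity)]
    linarith
  have hball : 0 < μ.real (Metric.closedBall (0 : Euc n) R) := by
    have h1 := compl_ball_small hS hsub3 hn hRn
    have h2 : μ.real (Metric.closedBall (0 : Euc n) R)ᶜ ≤ μ.real {x : Euc n | R ^ 2 ≤ ‖x‖ ^ 2} := measureReal_mono fun x hx => by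
      simp only [mem_compl_iff, Metric.mem_closedBall, dist_zero_right, not_le] at hx
      exact pow_le_pow_left₀ hR0.le hx.le 2
    rw [probReal_compl_eq_one_sub measurableSet_closedBall] at h2
    have : exp (-(5 * (n : ℝ))) < 1 := exp_lt_one_iff.2 (by linarith)
    linarith
  have hiχ : 0 < ∫ x, χ x ∂ν := by
    rw [hν, integral_onBall, smul_eq_mul]
    refine mul_pos (inv_pos.2 hp0) (hball.trans_le ?_)
    have h1 : μ.real (Metric.closedBall (0 : Euc n) R) = ∫ x in Bl, (Metric.closedBall (0 : Euc n) R).indicator (fun _ => (1 : ℝ)) x ∂μ := by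
      rw [integral_indicator_const _ measurableSet_closedBall, smul_eq_mul, mul_one, measureReal_restrict_apply measurableSet_closedBall,
        inter_eq_self_of_subset_left (Metric.closedBall_subset_closedBall (by linarith))]
    rw [h1]
    refine integral_mono ((integrable_const _).indicator measurableSet_closedBall) (hS.integrable hχ.cont).integrableOn fun x => ?_
    by_cases hx : x ∈ Metric.closedBall (0 : Euc n) R
    · rw [indicator_of_mem hx, (hin x (by simpa using hx)).1]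
    · rw [indicator_of_notMem hx]; exact hχpos x
  refine (combine hS hR₁ hμ hsub3 hn hR0 hRn hc0 hχ hη hsum hχ0 hin hgrad horth hne hpge (by positivity) hKK' hcK hlsi hiχ hf).trans
    (mul_le_mul_of_nonneg_right ?_ hD)
  have : 0 ≤ C₁ * ((M : ℝ) + 1) * N := by positivity
  linarith


/-- Scaling and removal of the compact support, for any exponent. -/
theorem main_of_fun {N : ℕ → ℝ} (hcore' : ∃ C : ℝ, 0 < C ∧ ∀ (n : ℕ), 1 ≤ n → ∀ (μ : Measure (Euc n)),
    IsProbabilityMeasure μ → ∀ R₁ : ℝ, 0 ≤ R₁ → Supp μ R₁ → IsLC 0 μ →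
    (∀ v : Euc n, ‖v‖ = 1 → ∫ x, exp (⟪v, x⟫ ^ 2) ∂μ ≤ 11 / 5) →
    ∀ (f : Euc n → ℝ) (f' : Euc n → Euc n), D1 f f' →
      ent μ (fun x => f x ^ 2) ≤ C * N n * ∫ x, ‖f' x‖ ^ 2 ∂μ) :
    ∃ C : ℝ, 0 < C ∧ ∀ (n : ℕ) (μ : Measure (Euc n)), IsProbabilityMeasure μ →
    ∀ ρ : Euc n → ℝ, (∀ x, 0 ≤ ρ x) → ConcaveOn ℝ {x | 0 < ρ x} (fun x => log (ρ x)) →
    μ = volume.withDensity (fun x => ENNReal.ofReal (ρ x)) →
    ∀ a : ℝ, 0 < a → (∀ θ : Euc n, ‖θ‖ = 1 → ∫⁻ x, ENNReal.ofReal (exp (⟪x, θ⟫ ^ 2 / a ^ 2)) ∂μ ≤ 2) →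
    ∀ f : Euc n → ℝ, ContDiff ℝ 1 f → HasCompactSupport f →
      ent μ (fun x => f x ^ 2) ≤ C * N n * a ^ 2 * ∫ x, ‖fderiv ℝ f x‖ ^ 2 ∂μ := by
  obtain ⟨C, hC, hcore⟩ := hcore'
  refine ⟨C, hC, fun n μ hprob ρ hρ0 hρc hμ a ha hsub f hf hfc => ?_⟩
  rcases Nat.eq_zero_or_pos n with hn | hn
  · subst hn
    have e : f = fun _ => f 0 := funext fun x => congrArg f (Subsingleton.elim _ _)
    rw [e]
    simp [ent, hasFDerivAt_const]
  have hLC : IsLC 0 μ := hμ ▸ isLC_of_concave hρ0 hρc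
  set μa := μ.map fun x => a⁻¹ • x with hμa
  have hm : Measurable fun x : Euc n => a⁻¹ • x := by fun_prop
  have : IsProbabilityMeasure μa := Measure.isProbabilityMeasure_map hm.aemeasurable
  have hsuba : ∀ v : Euc n, ‖v‖ = 1 → ∫⁻ x, ENNReal.ofReal (exp (⟪v, x⟫ ^ 2)) ∂μa ≤ 2 := fun v hv => by
    rw [hμa, lintegral_map (by fun_prop) hm]
    refine le_trans (le_of_eq (lintegral_congr fun x => ?_)) (hsub v hv)
    rw [inner_smul_right, mul_pow, real_inner_comm x v, inv_pow, ← div_eq_inv_mul]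
  set grad := fun x => (InnerProductSpace.toDual ℝ (Euc n)).symm (fderiv ℝ f x) with hgrad
  have hgn : ∀ x, ‖grad x‖ = ‖fderiv ℝ f x‖ := fun x => by simp [hgrad]
  set g := fun y => f (a • y) with hg
  set g' := fun y => a • grad (a • y) with hg'
  have hgd : D1 g g' := by
    refine ⟨fun y => ?_, ?_⟩
    · have h := ((hf.differentiable one_ne_zero) (a • y)).hasFDerivAt.comp y ((hasFDerivAt_id y).const_smul a)
      convert! h using 1
      ext v
      simp [hg', hgrad, real_inner_smul_left, InnerProductSpace.toDual_symm_apply]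
    · exact ((((InnerProductSpace.toDual ℝ (Euc n)).symm).continuous.comp (hf.continuous_fderiv one_ne_zero)).comp
        (continuous_const_smul a)).const_smul a
  obtain ⟨Rf, hRf⟩ := hfc.isCompact.isBounded.subset_closedBall (0 : Euc n)
  have hout : ∀ y : Euc n, Rf / a < ‖y‖ → a • y ∉ tsupport f := fun y hy hmem => by
    have h := hRf hmem
    rw [mem_closedBall_zero_iff, norm_smul, norm_eq_abs, abs_of_pos ha] at h
    rw [div_lt_iff₀ ha] at hy
    linarith
  have h := unit_scale (C := C * N n) (p₀ := 0) hn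
    (fun ν hν R₁ hR₁ hS hl hs f f' hd => by simpa using hcore n hn ν hν R₁ hR₁ hS hl hs f f' hd) (hLC.map_smul ha) hsuba hgd (Rf := Rf / a)
    (fun y hy => image_eq_zero_of_notMem_tsupport (f := f) (hout y hy))
    (fun y hy => by
      have h0 : fderiv ℝ f (a • y) = 0 := by
        by_contra hne
        exact hout y hy (support_fderiv_subset ℝ hne)
      simp [hg', hgrad, h0])
  have hgc : Continuous g := hgd.cont
  have e1 : ∀ F : Euc n → ℝ, Continuous F → ∫ y, F (a • y) ∂μa = ∫ x, F x ∂μ := fun F hF => by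
    rw [hμa, integral_map (f := fun y => F (a • y)) hm.aemeasurable (hF.comp (continuous_const_smul a)).aestronglyMeasurable]
    exact integral_congr_ae (Eventually.of_forall fun x => by simp [smul_smul, mul_inv_cancel₀ ha.ne'])
  have hfc' : Continuous fun x => f x ^ 2 := hf.continuous.pow 2
  have eent : ent μa (fun y => g y ^ 2) = ent μ (fun x => f x ^ 2) := by
    simp only [ent, hg]
    rw [e1 (fun x => f x ^ 2) hfc', e1 (fun x => f x ^ 2 * log (f x ^ 2)) (Real.continuous_mul_log.comp hfc')]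
  have eD : ∫ y, ‖g' y‖ ^ 2 ∂μa = a ^ 2 * ∫ x, ‖fderiv ℝ f x‖ ^ 2 ∂μ := by
    have e : ∀ y, ‖g' y‖ ^ 2 = (fun x => a ^ 2 * ‖fderiv ℝ f x‖ ^ 2) (a • y) := fun y => by
      simp [hg', norm_smul, hgn, mul_pow]
    rw [integral_congr_ae (Eventually.of_forall e),
      e1 (fun x => a ^ 2 * ‖fderiv ℝ f x‖ ^ 2) ((((hf.continuous_fderiv one_ne_zero)).norm.pow 2).const_mul _), integral_const_mul]
  rw [eent, eD, rpow_zero, mul_one] at h
  rw [mul_assoc _ (a ^ 2)]
  exact h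


end Vale.Agent.P245N
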