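import Vale.Agent.P245N.Assembly

/-! The bootstrap step with free parameters (cutoff power `p`, window `L`, Poincaré time `T`). -/

open MeasureTheory Real Filter Set
open scoped Topology RealInnerProductSpace

namespace Vale.Agent.P245N

open Vale.Agent.P245

variable {n : ℕ}

/-- Conditions on the parameters under which one bootstrap step works. -/
def Feasible (κ η Cq Ct ct cp : ℝ) (n : ℕ) (K : ℝ) (p L : ℕ) (T : ℝ) : Prop :=
  1 ≤ p ∧ 1 ≤ L ∧ (p : ℝ) ^ 2 * (Cq * log ((n : ℝ) + 2)) / (L : ℝ) ^ 2 ≤ η ∧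
    (n : ℝ) * ((Ct + 1) / 2 ^ L) ^ (2 * p) ≤ η ∧ (n : ℝ) * exp (-ct * K / κ) ≤ η ∧
    κ * (p : ℝ) * (2 ^ L * 2 ^ L) / K ≤ η ∧ 0 < T ∧ T ≤ η ∧ T * log ((n : ℝ) + 2) ^ 2 ≤ min cp ct ∧
    1 / T ≤ K * T ∧ κ / K ≤ T

theorem halve_param (hHL : HopfLaxStmt) (hTi : TightenStmt) (hTail : TailStmt) (hPM : PoinMainStmt) (hQV : QVarStmt)
    (hInfo : InfoStmt) (hPig : PigeonStmt) (hCut : CutStmt) (hRes : ResStmt) (hGrad : GradStmt) (hCount : CountStmt)
    (hChan : ChannelStmt) (hPair : PairingStmt) :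
    ∃ κ η Cq Ct ct cp : ℝ, 0 < κ ∧ 0 < η ∧ 0 < Cq ∧ 0 < Ct ∧ 0 < ct ∧ 0 < cp ∧
      ∀ (n : ℕ) (μ : Measure (Euc n)) (R : ℝ), IsProbabilityMeasure μ → Setup μ R → 1 ≤ n → 1 / η ≤ (n : ℝ) →
      ∀ K : ℝ, 0 < K → Fisi μ K → (∃ (p L : ℕ) (T : ℝ), Feasible κ η Cq Ct ct cp n K p L T) → Fisi μ (K / 2) := by
  obtain ⟨Ct, ct, hCt, hct, -, htail⟩ := hTail
  obtain ⟨Cp, cp, hCp, hcp, hpm⟩ := hPM
  obtain ⟨Cq, hCq, hqv⟩ := hQV
  obtain ⟨Cr, hCr, hres⟩ := hRes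
  obtain ⟨Cg, hCg, hgrad⟩ := hGrad
  obtain ⟨Cw, hCw, hpairing⟩ := hPair
  obtain ⟨k, hk⟩ : ∃ k : ℕ, 4 ≤ (1 / 8000 : ℝ) * (1 / 800) * k := ⟨⌈4 / ((1 / 8000 : ℝ) * (1 / 800))⌉₊, by
    rw [mul_comm, ← div_le_iff₀ (by positivity)]; exact Nat.le_ceil _⟩
  obtain ⟨κ, hκdef⟩ : ∃ κ : ℝ, κ = 2000 * 2 ^ k := ⟨_, rfl⟩
  have hκ : 0 < κ := by rw [hκdef]; positivity
  have hκ1 : 1 ≤ κ := by
    rw [hκdef]; exact one_le_mul_of_one_le_of_one_le (by norm_num) (one_le_pow₀ (by norm_num))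
  obtain ⟨η, hη⟩ := exists_small hκ hCg hCp hCw 100
  have hη0 := hη.pos
  refine ⟨κ, η, Cq, Ct, ct, cp, hκ, hη0, hCq, hCt, hct, hcp, fun n μ R hprob hset hn1 hn_η K hK0 hF hfeas => ?_⟩
  obtain ⟨p, L, T, hp1, hL1, p1, p2, p3, p4, hT0, hTη, hTlog, hTK, htKT⟩ := hfeas
  have hR := hset.rad_pos
  obtain ⟨-, -, hS, hμ, hsub⟩ := id hset
  have hn : (1 : ℝ) ≤ n := by exact_mod_cast hn1
  have hlog2 : 0 < log ((n : ℝ) + 2) := log_pos (by linarith)
  have hTle : ∀ m : ℝ, min cp ct ≤ m → T ≤ m / log ((n : ℝ) + 2) ^ 2 := fun m hm => by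
    rw [le_div_iff₀ (by positivity)]; exact hTlog.trans hm
  by_cases hsemi : Semi μ (K / 2000) (1 / 4) (1 / (4 * (K / 2000)))
  · have h1 := hHL n μ hprob R hR.le hS hμ (K / 2000) (1 / 4) (by positivity) (by norm_num) hsemi
    have hP := hpm n μ hprob R hset K T hK0 hF hT0 (hTle cp (min_le_left _ _))
    have h2 := hTi n μ hprob R hR.le hS (8 * (K / 2000)) (2 * Cp * (K * T)) (by positivity) (by positivity)
      (fun g g' hg => by have := h1 g g' hg; linarith)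
      fun f f' hf => (hP f f' hf).trans (mul_le_mul_of_nonneg_right (by
        have := mul_le_mul_of_nonneg_left hTK hCp.le; linarith) (integral_nonneg fun x => sq_nonneg _))
    refine fisi_mono h2 ?_
    have h3 := mul_le_mul_of_nonneg_right ((mul_le_mul_of_nonneg_left hTη hCp.le).trans hη.poin) hK0.le
    linarith
  exfalso
  simp only [Semi, not_forall, not_le, exists_prop] at hsemi
  obtain ⟨φ, φ', hφ, hsc, hnorm, hbig⟩ := hsemi
  set g := fun x => exp (φ x) with hg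
  have hpos : Pos1 g (fun x => exp (φ x) • φ' x) := pos1_exp hφ
  have hJe : ∫ x, fis g (fun x => exp (φ x) • φ' x) x ∂μ = ∫ x, ‖φ' x‖ ^ 2 * exp (φ x) ∂μ := by
    refine integral_congr_ae (Eventually.of_forall fun x => ?_)
    simp only [fis, hg, norm_smul, norm_eq_abs, abs_exp, mul_pow]
    field_simp
  rw [← hJe] at hbig
  have hinfo := hInfo n μ hprob R hR.le hS hμ K hK0 hF g _ hpos hnorm
  set J := ∫ x, fis g (fun x => exp (φ x) • φ' x) x ∂μ with hJ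
  have hJ0 : 0 ≤ J := integral_nonneg (fis_nonneg hpos)
  have hInn : ∀ t, 0 ≤ info t μ g := fun t => qexp_nonneg hS hpos.cont hpos.pos fun θ => sq_nonneg _
  have hend : ∀ t, t ≤ 2000 / K * 2 ^ k → t * K ≤ κ := fun t h => by
    have := mul_le_mul_of_nonneg_right h hK0.le
    rwa [show 2000 / K * 2 ^ k * K = κ by rw [hκdef]; field_simp] at this
  have hwin : ∀ t, 2000 / K ≤ t → t ≤ 2000 / K * 2 ^ k → _ := fun t h1 h2 =>
    window hK0 hJ0 (hInn t) h1 (hend t h2) hbig (hinfo t ((div_pos (by norm_num) hK0).trans_le h1)).2.2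
  obtain ⟨t, ht1, ht2, hpig⟩ := hPig n μ hprob R hR.le hS hμ g _ hpos hnorm (1 / 8000) (1 / 800) (2000 / K) k
    (by norm_num) (by norm_num) (by positivity) hk fun t h1 h2 => (hwin t h1 h2).2.2.1
  obtain ⟨ht, hKt, -, hJt, hWI⟩ := hwin t ht1 ht2
  have hDt := (hinfo t ht).2.1
  have htK := hend t ht2
  clear hwin hinfo hend
  set I := info t μ g with hI
  have hI0 : 0 < I := by
    rcases (hInn t).eq_or_lt with h | h
    · rw [← hI] at h; rw [← h] at hWI; simp at hWI; linarith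
    · exact h
  have htε : t ≤ κ / K := by rw [le_div_iff₀ hK0]; exact htK
  have htT : t ≤ T := htε.trans htKT
  have htη : t ≤ η := htT.trans hTη
  have hM0 : (0 : ℝ) < 2 ^ L := by positivity
  have hQ0 : 0 ≤ Cq * log ((n : ℝ) + 2) := by positivity
  have hqvt : ∀ θ, QV (Cq * log ((n : ℝ) + 2)) t μ θ := fun θ => hqv n μ hprob R hR.le hS hμ t θ ht.le
  have hat : 1 / (4 * (K / 2000)) ≤ t / 2 := by
    rw [div_le_iff₀ hK0] at ht1
    rw [div_le_iff₀ (by positivity)]; linarith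
  obtain ⟨⟨Δ', hΔ, ⟨BΔ, hBΔ⟩, hΔb⟩, hψ⟩ := hgrad n p L (2 ^ L) μ hprob R hR.le hS hμ (Cq * log ((n : ℝ) + 2)) t
    (1 / (4 * (K / 2000))) hp1 hL1 hM0 hQ0 ht hqvt (by positivity) hat φ φ' hφ hsc
  obtain ⟨F', hF', -, -, -⟩ := hres n p L (2 ^ L) μ hprob R hR.le hS hμ _ t hp1 hL1 hM0 hQ0 ht hqvt
  have hFc : Continuous (Ff p L (2 ^ L) t μ) := continuous_iff_continuousAt.2 fun θ => (hF' θ).continuousAt
  obtain ⟨hX, hGI, hG⟩ := cut_part hCut hS hR.le hμ ht hpos.cont hpos.pos hp1 hL1 hM0 hFc (ω := 4 * η) (by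
    refine (div_le_self (by positivity) (by exact_mod_cast hL1)).trans ?_
    rw [mul_assoc (4 : ℝ)]
    refine mul_le_mul_of_nonneg_left (le_trans ?_ p4) (by norm_num)
    rw [mul_assoc t]
    have h1 := mul_le_mul_of_nonneg_right htε (by positivity : (0 : ℝ) ≤ (p : ℝ) * (2 ^ L * 2 ^ L))
    have e : κ * (p : ℝ) * (2 ^ L * 2 ^ L) / K = κ / K * ((p : ℝ) * (2 ^ L * 2 ^ L)) := by ring
    rw [e]
    linarith) hpig
  rw [← hI] at hX hGI hG
  set W := 4 * (4000 + 2 * κ) with hW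
  set m := qexp t μ g (fun θ => frob (Ff p L (2 ^ L) t μ θ)) with hm
  have hfn : ∀ θ, frob (Ff p L (2 ^ L) t μ θ) ≤ n := fun θ =>
    (hCut n p L (2 ^ L) (Aop t μ θ) hp1 hL1 hM0 (symOp_Aop hS θ) fun v => by
      rw [inner_Aop hS]; exact aent_self_nonneg θ v).2.1
  have hbF : Bdd fun θ => frob (Ff p L (2 ^ L) t μ θ) := Bdd.mk' (continuous_frob.comp hFc) (B := n) fun θ => by
    rw [abs_of_nonneg (frob_nonneg _)]; exact hfn θ
  obtain ⟨hdc, Bd, hBd⟩ := bdd_dd_sq (t := t) hS hR.le hpos.cont hpos.pos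
  have hΔn : ∀ θ, ‖Ff p L (2 ^ L) t μ θ (dd t μ g θ)‖ ≤ Bd := fun θ =>
    ((hCut n p L (2 ^ L) (Aop t μ θ) hp1 hL1 hM0 (symOp_Aop hS θ) fun v => by
      rw [inner_Aop hS]; exact aent_self_nonneg θ v).1 _).trans (hBd θ)
  have hmle : m ≤ (16 * (2 * κ * (Cg + 1) * η) * (2 * κ + W) + 12 * η * W) * (t * I) := by
    obtain ⟨ψ', hψd, hψb⟩ := hψ (1 / n) (by positivity)
    have hc := hCount n μ hprob R hR.le hS hμ K hK0 hF g _ hpos hnorm t ht _ ψ' hψd
      ⟨√(1 / n + n), fun θ => by rw [abs_of_nonneg (Real.sqrt_nonneg _)]; exact Real.sqrt_le_sqrt (by linarith [hfn θ])⟩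
      ((Cg + 1) * η / t) (by positivity) fun θ => (hψb θ).trans (by
        have e : Cg * (p : ℝ) ^ 2 * (Cq * log ((n : ℝ) + 2)) / (t * (L : ℝ) ^ 2)
            = Cg * ((p : ℝ) ^ 2 * (Cq * log ((n : ℝ) + 2)) / (L : ℝ) ^ 2) / t := by field_simp
        rw [e]
        exact div_le_div_of_nonneg_right ((mul_le_mul_of_nonneg_left p1 hCg.le).trans
          (mul_le_mul_of_nonneg_right (by linarith) hη0.le)) ht.le)
    have hsq : (fun θ => √(1 / (n : ℝ) + frob (Ff p L (2 ^ L) t μ θ)) ^ 2)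
        = fun θ => 1 / (n : ℝ) + frob (Ff p L (2 ^ L) t μ θ) :=
      funext fun θ => Real.sq_sqrt (add_nonneg (by positivity) (frob_nonneg _))
    simp only [hsq] at hc
    have hm1 : m ≤ qexp t μ g (fun θ => 1 / (n : ℝ) + frob (Ff p L (2 ^ L) t μ θ)) :=
      qexp_mono hS hR.le hpos.cont hpos.pos hbF ((Bdd.const _).add hbF) fun θ => le_add_of_nonneg_left (by positivity)
    have hb := count_base hCut hS hp1 hL1 hM0 hn1 hFc
      (htail n μ hprob R hR.le hS hμ (cov_le_two hS hsub) t ht (htT.trans (hTle ct (min_le_right _ _))))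
    have h3 : exp (-ct / t) ≤ exp (-ct * K / κ) := by
      rw [exp_le_exp, neg_div, neg_mul, neg_div, neg_le_neg_iff, div_le_div_iff₀ hκ ht]
      rw [le_div_iff₀ hK0] at htε
      have := mul_le_mul_of_nonneg_left htε hct.le
      linarith
    have h4 := mul_le_mul_of_nonneg_left h3 (by linarith : (0:ℝ) ≤ n)
    have h5 : 1 / (n : ℝ) ≤ η := by
      rw [one_div_le (by linarith) hη0]; exact hn_η
    have hKL : Kt K t * ((Cg + 1) * η / t) ≤ 2 * κ * (Cg + 1) * η := by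
      refine (mul_le_mul_of_nonneg_right hKt (by positivity)).trans (le_of_eq ?_)
      field_simp
    have h6 : eent t μ (av t μ g) + 1 ≤ (2 * κ + W) * (t * I) := by
      have := mul_le_mul_of_nonneg_right hKt hI0.le
      linarith
    have hKt0 : 0 ≤ Kt K t * ((Cg + 1) * η / t) := mul_nonneg (by rw [Kt]; positivity) (by positivity)
    have h7 := (mul_le_mul_of_nonneg_left h6 hKt0).trans (mul_le_mul_of_nonneg_right hKL (by positivity))
    have h8 : 12 * η ≤ 12 * η * (W * (t * I)) := le_mul_of_one_le_right (by positivity) hWI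
    linarith
  have hbE : Bdd fun θ => frob (Δ' θ) := Bdd.mk' (continuous_frob.comp hΔ.cont') (B := BΔ) fun θ => by
    rw [abs_of_nonneg (frob_nonneg _)]; exact hBΔ θ
  have hbd : Bdd fun θ => ‖dd t μ g θ‖ ^ 2 := Bdd.mk' (hdc.norm.pow 2) (B := Bd ^ 2) fun θ => by
    rw [abs_of_nonneg (sq_nonneg _)]; exact pow_le_pow_left₀ (norm_nonneg _) (hBd θ) 2
  set P := (p : ℝ) ^ 2 * (Cq * log ((n : ℝ) + 2)) / (L : ℝ) ^ 2 with hP
  have hE : qexp t μ g (fun θ => frob (Δ' θ)) ≤ Cg * P / t * I + Cg / t ^ 2 * m :=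
    qexp_le_two hS hR.le hpos.cont hpos.pos hbE hbd hbF _ _ fun θ => by
      refine (hΔb θ).trans (le_of_eq ?_)
      rw [hP]; field_simp; rfl
  have hKE := grad_numeric ht hI0.le hκ.le hCg.le (qexp_nonneg hS hpos.cont hpos.pos fun θ => frob_nonneg _) hKt p1
    hmle hE (by rw [hW]; exact hη.grad)
  have hKt0 : 0 < Kt K t := by rw [Kt]; positivity
  obtain ⟨hc1, hc2⟩ := hChan n μ hprob R hR.le hS hμ K hK0 hF g _ hpos hnorm t (20 * Kt K t) ht (by positivity)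
    _ Δ' hΔ (max Bd BΔ) fun θ => ⟨(hΔn θ).trans (le_max_left _ _), (hBΔ θ).trans (le_max_right _ _)⟩
  have hpr := hpairing n μ hprob R hR.le hS hμ hsub g _ hpos hnorm t (20 * Kt K t) ht (by positivity)
    _ hΔ.cont Bd hΔn
  have hX0 : 0 ≤ qexp t μ g (fun θ => ‖Ff p L (2 ^ L) t μ θ (dd t μ g θ) - dd t μ g θ‖ ^ 2) :=
    qexp_nonneg hS hpos.cont hpos.pos fun θ => sq_nonneg _
  have hfin := numeric ht hI0 hCw hKt0 hKt hX0 (hX.trans (by have := mul_le_mul_of_nonneg_right hη.cut hI0.le; push_cast at this; linarith)) hG hGI hJt hKE hc1 hc2 hpr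
  have h1 : (4000 + 2 * (2 * κ) + Cw) ^ 2 * √t ^ 2 ≤ 1 / 50 := by
    rw [Real.sq_sqrt ht.le]
    have := mul_le_mul_of_nonneg_left htη (sq_nonneg (4000 + 2 * (2 * κ) + Cw))
    linarith [hη.fin]
  have h2 := pow_le_pow_left₀ (by norm_num) hfin 2
  rw [mul_pow] at h2
  linarith

end Vale.Agent.P245N
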