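import Vale.Agent.P245N.Defs

/-! Choice of the parameters of the cutoff and elementary facts used in the assembly. -/

open MeasureTheory Real Filter Set
open scoped Topology RealInnerProductSpace

namespace Vale.Agent.P245N

open Vale.Agent.P245

lemma cov_le_two {n : ℕ} {μ : Measure (Euc n)} [IsProbabilityMeasure μ] {R : ℝ} (hS : Supp μ R) (h : Sub3 μ)
    (v : Euc n) : aent 0 μ 0 v v ≤ 2 * ‖v‖ ^ 2 := by
  have h1 : aent 0 μ 0 v v ≤ ∫ x, ⟪v, x⟫ ^ 2 ∂μ := by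
    have h2 := var_le_center hS (g := fun x => ⟪v, x⟫) (by fun_prop) 0
    simp only [sub_zero] at h2
    refine le_trans (le_of_eq ?_) h2
    have e := inner_bary (T := 0) hS (0 : Euc n) v
    simp only [av, fib_zero] at e
    simp only [aent, cen, fib_zero, inner_sub_right, sq, e]
  rcases eq_or_ne v 0 with rfl | hv
  · simpa using h1
  have hu := integral_inner_sq_le hS h (v := ‖v‖⁻¹ • v) (norm_smul_inv_norm hv)
  simp only [real_inner_smul_left, mul_pow, integral_const_mul, inv_pow] at hu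
  rw [inv_mul_le_iff₀ (pow_pos (norm_pos_iff.2 hv) 2)] at hu
  linarith

lemma fisi_mono {n : ℕ} {μ : Measure (Euc n)} {K K' : ℝ} (h : Fisi μ K) (hK : K ≤ K') : Fisi μ K' :=
  fun g g' hg => (h g g' hg).trans (mul_le_mul_of_nonneg_right hK (integral_nonneg (fis_nonneg hg)))

lemma params {ε Cb Cq κ c η : ℝ} (hε : 0 < ε) (hCb : 0 < Cb) (hκ : 0 < κ) (hc : 0 < c) (hη : 0 < η)
    {p : ℕ} (hp : 8 / ε ≤ p) :
    ∀ᶠ n : ℕ in atTop, ∃ L : ℕ, 1 ≤ L ∧ (p : ℝ) ^ 2 * (Cq * log ((n : ℝ) + 2)) / (L : ℝ) ^ 2 ≤ η ∧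
      (n : ℝ) * ((Cb + 1) / 2 ^ L) ^ (2 * p) ≤ η ∧ (n : ℝ) * exp (-c * (n : ℝ) ^ ε / κ) ≤ η ∧
      κ * (2 ^ L * 2 ^ L) / (n : ℝ) ^ ε ≤ η := by
  have hnr : Tendsto (fun n : ℕ => (n : ℝ)) atTop atTop := tendsto_natCast_atTop_atTop
  have hlog : Tendsto (fun n : ℕ => log (n : ℝ)) atTop atTop := tendsto_log_atTop.comp hnr
  have e1 : ∀ᶠ n : ℕ in atTop, 8 / ε + 1 + (p : ℝ) ^ 2 * (2 * |Cq|) * 64 / (ε ^ 2 * η) ≤ log n :=
    hlog.eventually (eventually_ge_atTop _)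
  have e2 : ∀ᶠ n : ℕ in atTop, (2 * (Cb + 1)) ^ (2 * p) / η ≤ (n : ℝ) := hnr.eventually (eventually_ge_atTop _)
  have e3 : ∀ᶠ n : ℕ in atTop, (n : ℝ) * exp (-c * (n : ℝ) ^ ε / κ) ≤ η := by
    have h := ((tendsto_rpow_mul_exp_neg_mul_atTop_nhds_zero (1 / ε) (c / κ) (by positivity)).comp
      ((tendsto_rpow_atTop hε).comp hnr)).eventually (eventually_le_nhds hη)
    filter_upwards [h] with n hn
    simp only [Function.comp] at hn
    rw [← rpow_mul n.cast_nonneg, mul_one_div_cancel hε.ne', rpow_one] at hn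
    refine le_trans (le_of_eq ?_) hn
    ring_nf
  have e4 : ∀ᶠ n : ℕ in atTop, κ / η ≤ (n : ℝ) ^ (ε / 2) :=
    ((tendsto_rpow_atTop (by positivity : 0 < ε / 2)).comp hnr).eventually (eventually_ge_atTop _)
  filter_upwards [e1, e2, e3, e4, eventually_ge_atTop 2] with n h1 h2 h3 h4 hn
  have hn2 : (2 : ℝ) ≤ n := by exact_mod_cast hn
  have hn0 : (0 : ℝ) < n := by linarith
  have hpos : 0 ≤ (p : ℝ) ^ 2 * (2 * |Cq|) * 64 / (ε ^ 2 * η) := by positivity
  have hl8 : 8 / ε + 1 ≤ log n := by linarith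
  have hεl : 8 ≤ ε * log n := by
    have := mul_le_mul_of_nonneg_left hl8 hε.le
    have e : ε * (8 / ε + 1) = 8 + ε := by field_simp
    linarith
  set x := ε / 4 * log n with hx
  have hx2 : 2 ≤ x := by rw [hx]; linarith
  set L := ⌊x⌋₊ with hL
  have hLle : (L : ℝ) ≤ x := Nat.floor_le (by linarith)
  have hLge : x - 1 ≤ L := by linarith [Nat.lt_floor_add_one x]
  have hL1 : 1 ≤ L := Nat.le_floor (by push_cast; linarith)
  have hLr : (1 : ℝ) ≤ L := by exact_mod_cast hL1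
  refine ⟨L, hL1, ?_, ?_, h3, ?_⟩
  · have hl : log ((n : ℝ) + 2) ≤ 2 * log n := by
      rw [show 2 * log (n : ℝ) = log ((n : ℝ) ^ 2) by rw [log_pow]; norm_num]
      exact log_le_log (by linarith) (by nlinarith)
    have hl0 : 0 ≤ log ((n : ℝ) + 2) := log_nonneg (by linarith)
    have hL8 : ε * log n / 8 ≤ L := by rw [hx] at hLge; linarith
    rw [div_le_iff₀ (by positivity)]
    have a1 : (p : ℝ) ^ 2 * (Cq * log ((n : ℝ) + 2)) ≤ (p : ℝ) ^ 2 * (2 * |Cq|) * log n := by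
      have := mul_le_mul (le_abs_self Cq) hl hl0 (abs_nonneg Cq)
      calc (p : ℝ) ^ 2 * (Cq * log ((n : ℝ) + 2)) ≤ (p : ℝ) ^ 2 * (|Cq| * (2 * log n)) :=
            mul_le_mul_of_nonneg_left this (sq_nonneg _)
        _ = (p : ℝ) ^ 2 * (2 * |Cq|) * log n := by ring
    have a2 : (p : ℝ) ^ 2 * (2 * |Cq|) * 64 ≤ log n * (ε ^ 2 * η) := by
      have := (show (p : ℝ) ^ 2 * (2 * |Cq|) * 64 / (ε ^ 2 * η) ≤ log n by linarith [show 0 < 8 / ε by positivity])
      rwa [div_le_iff₀ (by positivity)] at this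
    have hlog0 : 0 < log (n : ℝ) := log_pos (by linarith)
    have a3 := mul_le_mul_of_nonneg_left (pow_le_pow_left₀ (by positivity) hL8 2) hη.le
    have a4 := mul_le_mul_of_nonneg_right a2 hlog0.le
    linarith
  · have hM : (n : ℝ) ^ (ε / 8) / 2 ≤ 2 ^ L := by
      have hlog2 : (1 : ℝ) / 2 ≤ log 2 := by linarith [one_sub_inv_le_log_of_pos (by norm_num : (0 : ℝ) < 2)]
      have a1 : exp ((x - 1) / 2) ≤ (2 : ℝ) ^ L := by
        rw [← rpow_natCast, rpow_def_of_pos two_pos, exp_le_exp]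
        have := mul_le_mul hlog2 hLge (by linarith) (by linarith [hlog2])
        linarith
      refine le_trans ?_ a1
      rw [rpow_def_of_pos hn0, sub_div, exp_sub, hx]
      have a2 : exp ((1 : ℝ) / 2) ≤ 2 := by
        rw [← log_le_log_iff (exp_pos _) two_pos, log_exp]; exact hlog2
      rw [div_le_div_iff₀ two_pos (exp_pos _), show log (n : ℝ) * (ε / 8) = ε / 4 * log n / 2 by ring]
      exact mul_le_mul_of_nonneg_left a2 (exp_pos _).le
    have hne : 0 < (n : ℝ) ^ (ε / 8) := by positivity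
    have a3 : (Cb + 1) / 2 ^ L ≤ 2 * (Cb + 1) / (n : ℝ) ^ (ε / 8) := by
      rw [div_le_div_iff₀ (by positivity) hne]
      have := mul_le_mul_of_nonneg_left hM (by linarith : 0 ≤ 2 * (Cb + 1))
      linarith
    have a4 : (n : ℝ) ^ (2 : ℕ) ≤ ((n : ℝ) ^ (ε / 8)) ^ (2 * p) := by
      rw [← rpow_natCast ((n : ℝ) ^ (ε / 8)), ← rpow_mul hn0.le, ← rpow_natCast (n : ℝ)]
      refine rpow_le_rpow_of_exponent_le (by linarith) ?_
      have := mul_le_mul_of_nonneg_left hp (by positivity : 0 ≤ ε / 4)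
      have e : ε / 4 * (8 / ε) = 2 := by field_simp; norm_num
      push_cast
      linarith
    calc (n : ℝ) * ((Cb + 1) / 2 ^ L) ^ (2 * p)
        ≤ n * (2 * (Cb + 1) / (n : ℝ) ^ (ε / 8)) ^ (2 * p) :=
          mul_le_mul_of_nonneg_left (pow_le_pow_left₀ (by positivity) a3 _) hn0.le
      _ ≤ n * ((2 * (Cb + 1)) ^ (2 * p) / (n : ℝ) ^ (2 : ℕ)) := by
          rw [div_pow]
          exact mul_le_mul_of_nonneg_left (div_le_div_of_nonneg_left (by positivity) (by positivity) a4) hn0.le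
      _ = (2 * (Cb + 1)) ^ (2 * p) / n := by field_simp
      _ ≤ η := by
          rw [div_le_iff₀ hn0]; rw [div_le_iff₀ hη] at h2; linarith
  · have hne : 0 < (n : ℝ) ^ (ε / 2) := by positivity
    have a1 : (2 : ℝ) ^ L * 2 ^ L ≤ (n : ℝ) ^ (ε / 2) := by
      rw [← rpow_natCast, ← rpow_add two_pos, rpow_def_of_pos two_pos, rpow_def_of_pos hn0, exp_le_exp]
      have hlog2 : log (2 : ℝ) ≤ 1 := by linarith [log_le_sub_one_of_pos (two_pos : (0 : ℝ) < 2)]
      have := mul_le_mul hlog2 hLle (by positivity) zero_le_one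
      linarith
    have e : (n : ℝ) ^ ε = (n : ℝ) ^ (ε / 2) * (n : ℝ) ^ (ε / 2) := by rw [← rpow_add hn0]; ring_nf
    rw [e, div_le_iff₀ (by positivity)]
    rw [div_le_iff₀ hη] at h4
    have a2 := mul_le_mul_of_nonneg_left a1 hκ.le
    have a3 := mul_le_mul_of_nonneg_right h4 hne.le
    linarith

end Vale.Agent.P245N
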