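import Vale.Agent.P245.Moment
import Vale.Agent.P245N.Defs

/-!
Whitening of a fibre: positive definiteness of the covariance and the affine change of variables
to an isotropic log-concave measure.
-/

open MeasureTheory Real Filter Set
open scoped Topology RealInnerProductSpace ENNReal

namespace Vale.Agent.P245N

open Vale.Agent.P245

variable {n : ℕ}

lemma volume_level (v : Euc n) (hv : v ≠ 0) (c : ℝ) : (volume : Measure (Euc n)) {x | ⟪v, x⟫ = c} = 0 := by
  set K : Submodule ℝ (Euc n) := LinearMap.ker ((innerSL ℝ v : Euc n →L[ℝ] ℝ) : Euc n →ₗ[ℝ] ℝ) with hK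
  have hne : K ≠ ⊤ := fun h => by
    have h1 : v ∈ K := h ▸ Submodule.mem_top
    rw [hK, LinearMap.mem_ker] at h1
    simp [real_inner_self_eq_norm_sq, hv] at h1
  have h0 := Measure.addHaar_submodule (volume : Measure (Euc n)) K hne
  set x₀ := (c / ‖v‖ ^ 2) • v with hx₀
  have hx : ⟪v, x₀⟫ = c := by
    rw [hx₀, inner_smul_right, real_inner_self_eq_norm_sq]
    have : ‖v‖ ≠ 0 := norm_ne_zero_iff.2 hv
    field_simp
  have e : {x : Euc n | ⟪v, x⟫ = c} = (fun x => (-x₀) + x) ⁻¹' (K : Set (Euc n)) := by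
    ext x
    simp only [mem_setOf_eq, mem_preimage, SetLike.mem_coe, hK, LinearMap.mem_ker, ContinuousLinearMap.coe_coe,
      innerSL_apply_apply, neg_add_eq_sub, inner_sub_right, hx, sub_eq_zero]
  rw [e, measure_preimage_add]
  exact h0

/-- A measure with a log-concave density has positive definite covariance. -/
lemma aent_pos {μ : Measure (Euc n)} [IsProbabilityMeasure μ] {R κ : ℝ} (hS : Supp μ R) (hμ : IsLC κ μ) (t : ℝ)
    (θ : Euc n) {v : Euc n} (hv : v ≠ 0) : 0 < aent t μ θ v v := by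
  have := isProb_fib (T := t) hS θ
  have hsf := supp_fib (T := t) hS θ
  refine lt_of_le_of_ne (aent_self_nonneg θ v) fun h => ?_
  have hc : Continuous fun x => ⟪v, cen t μ θ x⟫ * ⟪v, cen t μ θ x⟫ := by unfold cen; fun_prop
  have hz := (integral_eq_zero_iff_of_nonneg (fun x => mul_self_nonneg _) (hsf.integrable hc)).1 h.symm
  have h1 : ∀ᵐ x ∂(fib t μ θ), ⟪v, x⟫ = ⟪v, bary t μ θ⟫ := hz.mono fun x hx => by
    simp only [Pi.zero_apply, mul_self_eq_zero, cen, inner_sub_right, sub_eq_zero] at hx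
    exact hx
  have hac : fib t μ θ ≪ (volume : Measure (Euc n)) := by
    obtain ⟨p, -, -, -, hp⟩ := hμ
    exact (tilted_absolutelyContinuous _ _).trans (hp ▸ withDensity_absolutelyContinuous _ _)
  have h2 : fib t μ θ univ = 0 := by
    have h3 := hac (volume_level v hv ⟪v, bary t μ θ⟫)
    have h4 : fib t μ θ {x | ⟪v, x⟫ = ⟪v, bary t μ θ⟫}ᶜ = 0 := h1
    rw [← union_compl_self {x : Euc n | ⟪v, x⟫ = ⟪v, bary t μ θ⟫}]
    exact measure_union_null h3 h4
  exact IsProbabilityMeasure.ne_zero (fib t μ θ) (Measure.measure_univ_eq_zero.1 h2)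

/-- Positive definiteness of the fibre covariance operator. -/
lemma Aop_posDef {μ : Measure (Euc n)} [IsProbabilityMeasure μ] {R κ : ℝ} (hS : Supp μ R) (hμ : IsLC κ μ) (t : ℝ)
    (θ : Euc n) {v : Euc n} (hv : v ≠ 0) : 0 < ⟪v, Aop t μ θ v⟫ := by
  rw [inner_Aop hS]; exact aent_pos hS hμ t θ hv

/-- An operator that is diagonal in an orthonormal basis. -/
noncomputable def dop (b : OrthonormalBasis (Fin n) ℝ (Euc n)) (f : Fin n → ℝ) : Op n :=
  ∑ i, f i • (innerSL ℝ (b i)).smulRight (b i)

lemma dop_basis (b : OrthonormalBasis (Fin n) ℝ (Euc n)) (f : Fin n → ℝ) (j : Fin n) : dop b f (b j) = f j • b j := by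
  simp [dop, sum_apply, b.inner_eq_ite]

lemma dop_sym (b : OrthonormalBasis (Fin n) ℝ (Euc n)) (f : Fin n → ℝ) : SymOp (dop b f) := fun u v => by
  simp only [dop, sum_apply, smul_apply, ContinuousLinearMap.smulRight_apply,
    innerSL_apply_apply, sum_inner, inner_sum, inner_smul_left, inner_smul_right, conj_trivial]
  refine Finset.sum_congr rfl fun i _ => ?_
  rw [real_inner_comm u (b i)]
  ring

lemma ext_basis (b : OrthonormalBasis (Fin n) ℝ (Euc n)) {M N : Op n} (h : ∀ j, M (b j) = N (b j)) : M = N :=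
  ContinuousLinearMap.coe_injective (b.toBasis.ext fun j => by simpa using h j)

lemma dop_inv (b : OrthonormalBasis (Fin n) ℝ (Euc n)) {f : Fin n → ℝ} (hf : ∀ i, f i ≠ 0) (x : Euc n) :
    dop b (fun i => (f i)⁻¹) (dop b f x) = x := by
  have e : (dop b fun i => (f i)⁻¹).comp (dop b f) = ContinuousLinearMap.id ℝ (Euc n) :=
    ext_basis b fun j => by simp [dop_basis, smul_smul, hf j]
  simpa using congrArg (fun M : Op n => M x) e

/-- The diagonal form is independent of the orthonormal basis. -/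
lemma sum_inner_basis (X : Op n) (b : OrthonormalBasis (Fin n) ℝ (Euc n)) :
    ∑ i, ⟪stdb n i, X (stdb n i)⟫ = ∑ i, ⟪b i, X (b i)⟫ := by
  have h1 := LinearMap.trace_eq_sum_inner (X : Euc n →ₗ[ℝ] Euc n) (stdb n)
  have h2 := LinearMap.trace_eq_sum_inner (X : Euc n →ₗ[ℝ] Euc n) b
  exact h1.symm.trans h2

/-- Pushforward of a log-concave measure by an affine isomorphism. -/
lemma IsLC.map_affine {μ : Measure (Euc n)} (hμ : IsLC 0 μ) (S : Euc n ≃L[ℝ] Euc n) (b : Euc n) :
    IsLC 0 (μ.map fun x => S (x - b)) := by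
  obtain ⟨p, hp, hp0, hineq, rfl⟩ := hμ
  set L : Euc n →ₗ[ℝ] Euc n := ((S : Euc n →L[ℝ] Euc n) : Euc n →ₗ[ℝ] Euc n) with hL
  have hdet : LinearMap.det L ≠ 0 := by
    have hu : IsUnit (LinearMap.det L) := LinearEquiv.isUnit_det' S.toLinearEquiv
    exact hu.ne_zero
  set c := |(LinearMap.det L)⁻¹| with hc
  have hT : Measurable fun x : Euc n => S (x - b) := by fun_prop
  have hvol : (volume : Measure (Euc n)).map (fun x => S (x - b)) = ENNReal.ofReal c • volume := by
    have e : (fun x : Euc n => S (x - b)) = S ∘ fun x => x - b := rfl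
    rw [e, ← Measure.map_map (by fun_prop) (by fun_prop)]
    have h1 : (volume : Measure (Euc n)).map (fun x => x - b) = volume := (measurePreserving_sub_right volume b).map_eq
    rw [h1]
    exact Measure.map_linearMap_addHaar_eq_smul_addHaar volume hdet
  set q := fun y => p (b + S.symm y) with hq
  refine ⟨fun y => c * q y, by fun_prop, fun y => mul_nonneg (abs_nonneg _) (hp0 _), fun x y a a' ha ha' hab => ?_, ?_⟩
  · have h := hineq (b + S.symm x) (b + S.symm y) a a' ha ha' hab
    simp only [zero_mul, zero_div, exp_zero, mul_one] at h ⊢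
    rw [mul_rpow (abs_nonneg _) (hp0 _), mul_rpow (abs_nonneg _) (hp0 _)]
    have e : b + S.symm (a • x + a' • y) = a • (b + S.symm x) + a' • (b + S.symm y) := by
      rw [map_add, map_smul, map_smul]
      rw [show a • (b + S.symm x) + a' • (b + S.symm y) = (a + a') • b + (a • S.symm x + a' • S.symm y) by module,
        hab, one_smul]
    have hcc : c ^ a * c ^ a' = c := by
      rw [← rpow_add' (abs_nonneg _) (by rw [hab]; exact one_ne_zero), hab, rpow_one]
    calc c ^ a * q x ^ a * (c ^ a' * q y ^ a') = c ^ a * c ^ a' * (q x ^ a * q y ^ a') := by ring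
      _ = c * (q x ^ a * q y ^ a') := by rw [hcc]
      _ ≤ c * q (a • x + a' • y) := by
          refine mul_le_mul_of_nonneg_left ?_ (abs_nonneg _)
          simp only [hq, e]
          exact h
  · ext s hs
    rw [Measure.map_apply hT hs, withDensity_apply _ (hT hs), withDensity_apply _ hs]
    have hqm : Measurable fun y => ENNReal.ofReal (q y) := by fun_prop
    have e1 : ∫⁻ x in (fun x => S (x - b)) ⁻¹' s, ENNReal.ofReal (p x)
        = ∫⁻ x in (fun x => S (x - b)) ⁻¹' s, ENNReal.ofReal (q (S (x - b))) := by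
      refine lintegral_congr fun x => ?_
      simp only [hq, ContinuousLinearEquiv.symm_apply_apply, add_sub_cancel]
    rw [e1, ← setLIntegral_map hs hqm hT, hvol, setLIntegral_smul_measure, smul_eq_mul,
      ← lintegral_const_mul _ hqm]
    exact lintegral_congr fun y => (ENNReal.ofReal_mul (abs_nonneg _)).symm

/-- The whitened fibre. -/
structure Whitened (t : ℝ) (μ : Measure (Euc n)) (θ : Euc n) (S : Euc n ≃L[ℝ] Euc n) (ν : Measure (Euc n)) (R' : ℝ) :
    Prop where
  prob : IsProbabilityMeasure ν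
  rad : 0 ≤ R'
  supp : Supp ν R'
  lc : IsLC 0 ν
  bary_zero : bary 0 ν 0 = 0
  iso : ∀ u v, aent 0 ν 0 u v = ⟪u, v⟫
  integral_eq : ∀ F : Euc n → ℝ, Continuous F → ∫ y, F y ∂ν = ∫ x, F (S (cen t μ θ x)) ∂(fib t μ θ)
  sym : ∀ u v, ⟪S.symm u, v⟫ = ⟪u, S.symm v⟫
  qv_eq : ∀ H : Op n, qv2 (Aop t μ θ) H
    = frob ((S.symm : Euc n →L[ℝ] Euc n).comp (H.comp (S.symm : Euc n →L[ℝ] Euc n)))

/-- Transport of a quadratic form to the whitened variable. -/
lemma Whitened.quad {μ ν : Measure (Euc n)} {t R' : ℝ} {θ : Euc n} {S : Euc n ≃L[ℝ] Euc n}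
    (h : Whitened t μ θ S ν R') (H : Op n) (x : Euc n) :
    ⟪S x, ((S.symm : Euc n →L[ℝ] Euc n).comp (H.comp (S.symm : Euc n →L[ℝ] Euc n))) (S x)⟫ = ⟪x, H x⟫ := by
  simp only [ContinuousLinearMap.comp_apply, ContinuousLinearEquiv.coe_coe, ContinuousLinearEquiv.symm_apply_apply]
  rw [← h.sym, ContinuousLinearEquiv.symm_apply_apply]

/-- Whitening of one fibre. -/
theorem exists_whitened {μ : Measure (Euc n)} [IsProbabilityMeasure μ] {R t : ℝ} (hR : 0 ≤ R) (hS : Supp μ R)
    (hμ : IsLC 0 μ) (ht : 0 ≤ t) (θ : Euc n) : ∃ S ν R', Whitened t μ θ S ν R' := by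
  have := isProb_fib (T := t) hS θ
  have hsf := supp_fib (T := t) hS θ
  obtain ⟨b, l, he⟩ := (symOp_Aop (t := t) hS θ).exists_eigen
  have hl : ∀ i, 0 < l i := fun i => by
    have h := Aop_posDef hS hμ t θ (b.orthonormal.ne_zero i)
    rwa [he, inner_smul_right, real_inner_self_eq_norm_sq, b.orthonormal.1 i, one_pow, mul_one] at h
  set f := fun i => (√(l i))⁻¹ with hf
  have hfne : ∀ i, f i ≠ 0 := fun i => inv_ne_zero (sqrt_pos.2 (hl i)).ne'
  have hfinv : (fun i => (f i)⁻¹) = fun i => √(l i) := funext fun i => inv_inv _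
  set W := dop b fun i => √(l i) with hW
  have h1 : Function.LeftInverse W (dop b f) := fun x => by rw [hW, ← hfinv]; exact dop_inv b hfne x
  have h2 : Function.RightInverse W (dop b f) := fun x => by
    have h := dop_inv b (f := fun i => √(l i)) (fun i => (sqrt_pos.2 (hl i)).ne') x
    exact h
  set S := ContinuousLinearEquiv.equivOfInverse (dop b f) W h1 h2 with hSdef
  have hWW : Aop t μ θ = W.comp W := ext_basis b fun j => by
    rw [ContinuousLinearMap.comp_apply, he, hW, dop_basis, map_smul, dop_basis, smul_smul, mul_self_sqrt (hl j).le]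
  set T := fun x : Euc n => S (x - bary t μ θ) with hT
  have hTm : Measurable T := by fun_prop
  set ν := (fib t μ θ).map T with hν
  have hprob : IsProbabilityMeasure ν := Measure.isProbabilityMeasure_map hTm.aemeasurable
  have hint : ∀ {V : Type} [NormedAddCommGroup V] [NormedSpace ℝ V] (F : Euc n → V), Continuous F →
      ∫ y, F y ∂ν = ∫ x, F (T x) ∂(fib t μ θ) := fun F hF =>
    integral_map hTm.aemeasurable hF.aestronglyMeasurable
  have hR' : 0 ≤ ‖(S : Euc n →L[ℝ] Euc n)‖ * (2 * R) := by positivity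
  have hsupp : Supp ν (‖(S : Euc n →L[ℝ] Euc n)‖ * (2 * R)) := by
    refine (ae_map_iff hTm.aemeasurable (measurableSet_le measurable_norm measurable_const)).2 (hsf.mono fun x hx => ?_)
    exact ((S : Euc n →L[ℝ] Euc n).le_opNorm _).trans (mul_le_mul_of_nonneg_left
      ((norm_sub_le _ _).trans (by linarith [norm_bary_le (T := t) hS θ])) (norm_nonneg _))
  have hcl : Continuous T := S.continuous.comp (continuous_id.sub continuous_const)
  have hb0 : bary 0 ν 0 = 0 := by
    simp only [bary, fib_zero]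
    rw [hint (fun y => y) continuous_id]
    have i1 : Integrable (fun x : Euc n => x - bary t μ θ) (fib t μ θ) := hsf.integrable (by fun_prop)
    rw [hT]
    change ∫ x, (S : Euc n →L[ℝ] Euc n) (x - bary t μ θ) ∂(fib t μ θ) = 0
    rw [(S : Euc n →L[ℝ] Euc n).integral_comp_comm i1, integral_sub (hsf.integrable (by fun_prop)) (integrable_const _),
      integral_const, probReal_univ, one_smul]
    exact map_eq_zero_iff _ S.injective |>.2 (sub_eq_zero.2 rfl)
  refine ⟨S, ν, _, hprob, hR', hsupp, ?_, hb0, ?_, fun F hF => hint F hF, fun u v => dop_sym b _ u v, fun H => ?_⟩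
  · exact IsLC.map_affine ((isLC_fib (T := t) hS hμ θ).weaken ht) S _
  · intro u v
    simp only [aent, cen, hb0, sub_zero, fib_zero]
    rw [hint (fun y => ⟪u, y⟫ * ⟪v, y⟫) (by fun_prop)]
    have e : ∀ x, ⟪u, T x⟫ * ⟪v, T x⟫ = ⟪S u, cen t μ θ x⟫ * ⟪S v, cen t μ θ x⟫ := fun x => by
      simp only [hT, cen, hSdef, ContinuousLinearEquiv.equivOfInverse_apply, dop_sym b f u, dop_sym b f v]
    rw [integral_congr_ae (Eventually.of_forall e)]
    change aent t μ θ (S u) (S v) = _
    rw [← inner_Aop hS, hWW, ContinuousLinearMap.comp_apply, hSdef, ContinuousLinearEquiv.equivOfInverse_apply,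
      ContinuousLinearEquiv.equivOfInverse_apply, h1 u]
    rw [hW, ← dop_sym b _ _ u, ← hW, h1 v, real_inner_comm]
  · have hsym : ∀ u v, ⟪W u, v⟫ = ⟪u, W v⟫ := dop_sym b _
    have hfr : frob (W.comp (H.comp W)) = ∑ j, l j * ⟪H (b j), W (W (H (b j)))⟫ := by
      rw [frob_basis _ b]
      refine Finset.sum_congr rfl fun j _ => ?_
      rw [ContinuousLinearMap.comp_apply, ContinuousLinearMap.comp_apply, hW, dop_basis, map_smul, map_smul, norm_smul,
        norm_eq_abs, mul_pow, sq_abs, sq_sqrt (hl j).le, ← real_inner_self_eq_norm_sq, ← hW, hsym]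
    change _ = frob (W.comp (H.comp W))
    rw [hfr, qv2]
    set X := (ContinuousLinearMap.adjoint ((Aop t μ θ).comp H)).comp (H.comp (Aop t μ θ)) with hX
    have e : ∀ z, ⟪Aop t μ θ (H z), H (Aop t μ θ z)⟫ = ⟪z, X z⟫ := fun z => by
      rw [hX, ContinuousLinearMap.comp_apply, ContinuousLinearMap.adjoint_inner_right]; rfl
    simp only [e]
    rw [sum_inner_basis X b]
    refine Finset.sum_congr rfl fun j _ => ?_
    rw [← e, he, map_smul, inner_smul_right, hWW, ContinuousLinearMap.comp_apply, real_inner_comm (H (b j))]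

end Vale.Agent.P245N
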